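import Vale.Agent.P366.Stmt

/-! Definitions for the graph class. -/

noncomputable section
namespace Vale.Agent.P366.GraphClass
open Vale.Agent.P366.Stmt

variable {n : ℕ}

/-- `W = (1 + |∂f|²)^(1/2)`. -/
def slope (f : E n → ℝ) (x : E n) : ℝ := √(1 + ∑ i, pd i f x ^ 2)

/-- The metric `δ + df ⊗ df` of the graph of `f` in `ℝⁿ⁺¹`. -/
def graphMetric (f : E n → ℝ) : Field n :=
  fun x i j => (if i = j then 1 else 0) + pd i f x * pd j f x

/-- The second fundamental form `D²f / W` of the graph of `f` in `ℝⁿ⁺¹`. -/
def secondForm (f : E n → ℝ) : Field n := fun x i j => pd i (pd j f) x / slope f x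

/-- The `g`-inner product of `π = K - (tr K) g` and the covariant derivative of the one-form
`u df`. -/
def piNabla (g K : Field n) (f u : E n → ℝ) (x : E n) : ℝ :=
  ∑ i, ∑ j, ∑ k, ∑ l, up g i k x * up g j l x * momT g K x i j *
    (pd k u x * pd l f x + u x * hess g f x k l)

end Vale.Agent.P366.GraphClass
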