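import Vale.Agent.P366.T2.C92c
import Vale.Agent.P366.T2.Calc
import Vale.Agent.P366.T2.Area
import Mathlib.Analysis.Calculus.FDeriv.Symmetric

/-! Graphs: the metric `δ + df ⊗ df`, its inverse, Christoffel symbols and scalar curvature. -/

open MeasureTheory Metric Filter Topology Set
open scoped ContDiff ENNReal

noncomputable section
namespace Vale.Agent.H45G
open Vale.Agent.P366.Stmt
open Vale.Agent.P366.T2 (HP)

variable {n : ℕ}

/-- `1 + |∂f|²`. -/
def W2 (f : E n → ℝ) (x : E n) : ℝ := 1 + ∑ i, pd i f x ^ 2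

/-- The flat Laplacian. -/
def lap (f : E n → ℝ) (x : E n) : ℝ := ∑ k, pd k (pd k f) x

/-- `D²f(∂f)`. -/
def pv (f : E n → ℝ) (i : Fin n) (x : E n) : ℝ := ∑ k, pd k f x * pd i (pd k f) x

/-- `D²f(∂f, ∂f)`. -/
def Qf (f : E n → ℝ) (x : E n) : ℝ := ∑ i, pd i f x * pv f i x

/-- `|D²f|²`. -/
def N2 (f : E n → ℝ) (x : E n) : ℝ := ∑ i, ∑ k, pd i (pd k f) x * pd i (pd k f) x

/-- `|D²f(∂f)|²`. -/
def P2 (f : E n → ℝ) (x : E n) : ℝ := ∑ i, pv f i x * pv f i x

/-- The metric of the graph of `f`. -/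
def gM (f : E n → ℝ) : Field n := fun x i j => (if i = j then 1 else 0) + pd i f x * pd j f x

lemma W2_pos (f : E n → ℝ) (x : E n) : 0 < W2 f x := by
  have : 0 ≤ ∑ i, pd i f x ^ 2 := Finset.sum_nonneg fun i _ => sq_nonneg _
  unfold W2; linarith

lemma W2_ne (f : E n → ℝ) (x : E n) : W2 f x ≠ 0 := (W2_pos f x).ne'

lemma sum_sq (f : E n → ℝ) (x : E n) : ∑ i, pd i f x * pd i f x = W2 f x - 1 := by
  unfold W2
  rw [add_sub_cancel_left]
  exact Finset.sum_congr rfl fun i _ => by ring

/-! ### Derivatives -/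

lemma smooth_pd {f : E n → ℝ} (hf : Smooth f) (i : Fin n) : Smooth (pd i f) := by
  rw [Vale.Agent.C92.pd_fderiv' hf]
  have h1 : ContDiff ℝ ∞ (fderiv ℝ f) := hf.fderiv_right (by norm_cast)
  exact h1.clm_apply contDiff_const

lemma diffAt {f : E n → ℝ} (hf : Smooth f) (x : E n) : DifferentiableAt ℝ f x :=
  (hf.differentiable (by norm_num)) x

lemma hp {f : E n → ℝ} (hf : Smooth f) (k : Fin n) (x : E n) : HP k f (pd k f x) x :=
  HP.of_diff (diffAt hf x)

lemma sym2 {f : E n → ℝ} (hf : Smooth f) (i j : Fin n) : pd i (pd j f) = pd j (pd i f) := by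
  funext x
  rw [Vale.Agent.C92.pd_pd_fderiv hf, Vale.Agent.C92.pd_pd_fderiv hf]
  have h0 : ContDiffAt ℝ ∞ f x := ContDiff.contDiffAt hf
  have h : IsSymmSndFDerivAt ℝ f x := h0.isSymmSndFDerivAt (by
    rw [minSmoothness_of_isRCLikeNormedField]
    norm_cast)
  exact h _ _

lemma HP_inv {k : Fin n} {f : E n → ℝ} {d : ℝ} {x : E n} (hf : HP k f d x) (h0 : f x ≠ 0) :
    HP k (fun y => (f y)⁻¹) (-d / f x ^ 2) x := by
  have h := HasDerivAt.fun_inv (hf : HasDerivAt _ _ _) (by simpa using h0)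
  simp only [zero_smul, add_zero] at h
  exact h

lemma HP_cast {k : Fin n} {f : E n → ℝ} {d e : ℝ} {x : E n} (hf : HP k f d x) (h : d = e) :
    HP k f e x := h ▸ hf

lemma HP_W2 {f : E n → ℝ} (hf : Smooth f) (k : Fin n) (x : E n) :
    HP k (W2 f) (2 * pv f k x) x := by
  have h := (HP.const k 1 x).add (HP.sum (x := x) Finset.univ (f := fun i y => pd i f y * pd i f y)
    (fun i _ => (hp (smooth_pd hf i) k x).mul (hp (smooth_pd hf i) k x)))
  have e : (fun y : E n => (1 : ℝ) + ∑ a, pd a f y * pd a f y) = W2 f := by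
    funext y; unfold W2
    exact congrArg _ (Finset.sum_congr rfl fun i _ => by ring)
  rw [e] at h
  refine HP_cast h ?_
  unfold pv
  rw [zero_add, Finset.mul_sum]
  exact Finset.sum_congr rfl fun i _ => by ring

lemma smooth_W2 {f : E n → ℝ} (hf : Smooth f) : Smooth (W2 f) := by
  unfold W2 Smooth
  exact contDiff_const.add (ContDiff.sum fun i _ => (smooth_pd hf i).pow 2)

lemma smooth_lap {f : E n → ℝ} (hf : Smooth f) : Smooth (lap f) := by
  unfold lap Smooth
  exact ContDiff.sum fun i _ => smooth_pd (smooth_pd hf i) i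

lemma smooth_pv {f : E n → ℝ} (hf : Smooth f) (i : Fin n) : Smooth (pv f i) := by
  unfold pv Smooth
  exact ContDiff.sum fun k _ => ContDiff.mul (smooth_pd hf k) (smooth_pd (smooth_pd hf k) i)

/-! ### Contractions -/

lemma contr (a : Fin n → ℝ) (w : ℝ) (T : Fin n → Fin n → ℝ) :
    ∑ i, ∑ j, ((if i = j then 1 else 0) - a i * a j / w) * T i j =
      (∑ i, T i i) - (∑ i, ∑ j, a i * a j * T i j) / w := by
  simp only [sub_mul, ite_mul, one_mul, zero_mul, Finset.sum_sub_distrib, Finset.sum_ite_eq,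
    Finset.mem_univ, if_true]
  congr 1
  rw [Finset.sum_div]
  refine Finset.sum_congr rfl fun i _ => ?_
  rw [Finset.sum_div]
  exact Finset.sum_congr rfl fun j _ => by ring

lemma up_gM (f : E n → ℝ) (i j : Fin n) (x : E n) :
    up (gM f) i j x = (if i = j then 1 else 0) - pd i f x * pd j f x / W2 f x := by
  have h : (mat (gM f) x)⁻¹ = Matrix.of fun i j =>
      (if i = j then (1 : ℝ) else 0) - pd i f x * pd j f x / W2 f x := by
    apply Matrix.inv_eq_right_inv
    ext a b
    rw [Matrix.mul_apply, Matrix.one_apply]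
    have h1 : ∀ c, mat (gM f) x a c * (Matrix.of fun i j =>
        (if i = j then (1 : ℝ) else 0) - pd i f x * pd j f x / W2 f x) c b =
        (if a = c then (if c = b then (1 : ℝ) else 0) - pd c f x * pd b f x / W2 f x else 0) +
        (if c = b then pd a f x * pd c f x else 0) -
          (pd c f x * pd c f x) * (pd a f x * pd b f x / W2 f x) := by
      intro c
      simp only [mat, gM, Matrix.of_apply]
      split_ifs <;> ring
    simp only [h1, Finset.sum_sub_distrib, Finset.sum_add_distrib, Finset.sum_ite_eq,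
      Finset.sum_ite_eq', Finset.mem_univ, if_true]
    rw [← Finset.sum_mul, sum_sq]
    have := W2_ne f x
    field_simp
    ring
  unfold up
  rw [h]
  rfl

lemma up_pd (f : E n → ℝ) (k : Fin n) (x : E n) :
    ∑ l, up (gM f) k l x * pd l f x = pd k f x / W2 f x := by
  have h1 : ∀ l, up (gM f) k l x * pd l f x = (if k = l then pd l f x else 0) -
      (pd l f x * pd l f x) * (pd k f x / W2 f x) := by
    intro l
    rw [up_gM]
    split_ifs <;> ring
  simp only [h1, Finset.sum_sub_distrib, Finset.sum_ite_eq, Finset.mem_univ, if_true]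
  rw [← Finset.sum_mul, sum_sq]
  have := W2_ne f x
  field_simp
  ring

lemma HP_gM {f : E n → ℝ} (hf : Smooth f) (k i j : Fin n) (x : E n) :
    HP k (fun y => gM f y i j) (pd k (pd i f) x * pd j f x + pd i f x * pd k (pd j f) x) x := by
  have h := (HP.const k (if i = j then (1 : ℝ) else 0) x).add
    ((hp (smooth_pd hf i) k x).mul (hp (smooth_pd hf j) k x))
  exact HP_cast h (zero_add _)

lemma chr_gM {f : E n → ℝ} (hf : Smooth f) (k i j : Fin n) :
    chr (gM f) k i j = fun x => pd k f x * pd i (pd j f) x * (W2 f x)⁻¹ := by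
  funext x
  unfold chr
  have h1 : ∀ l, up (gM f) k l x * (pd i (fun y => gM f y j l) x + pd j (fun y => gM f y i l) x -
      pd l (fun y => gM f y i j) x) =
      2 * pd i (pd j f) x * (up (gM f) k l x * pd l f x) := by
    intro l
    rw [(HP_gM hf i j l x).pd, (HP_gM hf j i l x).pd, (HP_gM hf l i j x).pd,
      sym2 hf j i, sym2 hf l i, sym2 hf l j]
    ring
  simp only [h1]
  rw [← Finset.mul_sum, up_pd]
  ring

end Vale.Agent.H45G
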