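import Vale.Agent.P366.H45.G9

/-! The boundary spheres. -/

open MeasureTheory Metric Filter Topology Set
open scoped ContDiff ENNReal

noncomputable section
namespace Vale.Agent.H45G
open Vale.Agent.P366.Stmt
open Vale.Agent.P366 (dvg flux sphI sphM norm_smul_sph)

variable {n : ℕ}

lemma pd_congr' {f g : E n → ℝ} {x : E n} (h : f =ᶠ[𝓝 x] g) (i : Fin n) :
    pd i f x = pd i g x := by
  unfold pd
  exact h.lineDeriv_eq

/-- Two functions which agree on an exterior domain have the same derivative on its boundary. -/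
lemma pd_eq_of_eqOn {F : E n → ℝ} (hF : Smooth F) (hne : ∀ x, F x = 0 → ∃ i, pd i F x ≠ 0)
    {u v : E n → ℝ} {x0 : E n} (huv : ∀ x, 0 ≤ F x → u x = v x)
    (hx0 : 0 ≤ F x0)
    (hu : DifferentiableAt ℝ u x0) (hv : DifferentiableAt ℝ v x0) (i : Fin n) :
    pd i u x0 = pd i v x0 := by
  rcases hx0.eq_or_lt with h0 | h0
  · obtain ⟨j, hj⟩ := hne x0 h0.symm
    have hFd : DifferentiableAt ℝ F x0 := (hF.differentiable (by simp)) x0
    have hh : HasFDerivAt (fun x => u x - v x) (fderiv ℝ u x0 - fderiv ℝ v x0) x0 :=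
      hu.hasFDerivAt.sub hv.hasFDerivAt
    have hin : ∀ w : E n, 0 < fderiv ℝ F x0 w → (fderiv ℝ u x0 - fderiv ℝ v x0) w = 0 := by
      intro w hw
      have hc : HasDerivAt (fun t : ℝ => x0 + t • w) w 0 := by
        simpa using ((hasDerivAt_id (0 : ℝ)).smul_const w).const_add x0
      have h1 : HasDerivAt (fun t : ℝ => F (x0 + t • w)) (fderiv ℝ F x0 w) 0 := by
        have h2 : HasFDerivAt F (fderiv ℝ F x0) (x0 + (0 : ℝ) • w) := by
          simpa using hFd.hasFDerivAt
        exact h2.comp_hasDerivAt 0 hc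
      have h3 : HasDerivAt (fun t : ℝ => u (x0 + t • w) - v (x0 + t • w))
          ((fderiv ℝ u x0 - fderiv ℝ v x0) w) 0 := by
        have h2 : HasFDerivAt (fun x => u x - v x) (fderiv ℝ u x0 - fderiv ℝ v x0)
            (x0 + (0 : ℝ) • w) := by
          simpa using hh
        exact h2.comp_hasDerivAt 0 hc
      have h4 : ∀ᶠ t in 𝓝[>] (0 : ℝ), 0 < F (x0 + t • w) := by
        have h5 := h1.tendsto_slope_zero_right
        have h6 : ∀ᶠ t in 𝓝[>] (0 : ℝ), 0 < t⁻¹ • (F (x0 + (0 + t) • w) - F (x0 + (0 : ℝ) • w)) :=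
          h5.eventually_const_lt hw
        filter_upwards [h6, self_mem_nhdsWithin] with t ht ht0
        have ht0' : (0 : ℝ) < t := ht0
        rw [zero_smul, add_zero, ← h0, zero_add, sub_zero, smul_eq_mul] at ht
        exact (mul_pos_iff_of_pos_left (inv_pos.2 ht0')).1 ht
      have h7 := h3.tendsto_slope_zero_right
      have h8 : Tendsto (fun t : ℝ => t⁻¹ • (u (x0 + (0 + t) • w) - v (x0 + (0 + t) • w) -
          (u (x0 + (0 : ℝ) • w) - v (x0 + (0 : ℝ) • w)))) (𝓝[>] 0) (𝓝 0) := by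
        refine Tendsto.congr' ?_ tendsto_const_nhds
        filter_upwards [h4] with t ht
        rw [zero_add, zero_smul, add_zero, huv _ ht.le, huv x0 hx0]
        simp
      exact tendsto_nhds_unique h7 h8
    obtain ⟨w, hw⟩ : ∃ w : E n, 0 < fderiv ℝ F x0 w := by
      rw [Vale.Agent.C92.pd_fderiv hFd] at hj
      rcases lt_or_gt_of_ne hj with h | h
      · exact ⟨-EuclideanSpace.single j 1, by rw [map_neg]; linarith⟩
      · exact ⟨_, h⟩
    rw [Vale.Agent.C92.pd_fderiv hu, Vale.Agent.C92.pd_fderiv hv]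
    set e : E n := EuclideanSpace.single i 1
    have h9 : 0 < fderiv ℝ F x0 ((|fderiv ℝ F x0 e| + 1) • w + (fderiv ℝ F x0 w) • e) := by
      rw [map_add, map_smul, map_smul, smul_eq_mul, smul_eq_mul]
      nlinarith [neg_abs_le (fderiv ℝ F x0 e), hw]
    have h10 := hin _ h9
    rw [map_add, map_smul, map_smul, hin w hw, smul_zero, zero_add, smul_eq_mul] at h10
    have h11 := (mul_eq_zero.1 h10).resolve_left hw.ne'
    simpa [sub_eq_zero] using h11
  · have h1 : u =ᶠ[𝓝 x0] v := by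
      filter_upwards [(isOpen_lt continuous_const hF.continuous).mem_nhds h0] with y hy
      exact huv y (show (0 : ℝ) < F y from hy).le
    exact pd_congr' h1 i

/-- `thetaPlus` only depends on the first derivatives of the metric. -/
lemma thetaPlus_congr {g g' K K' : Field n} {F : E n → ℝ} {x : E n}
    (hg : ∀ i j, g x i j = g' x i j) (hK : ∀ i j, K x i j = K' x i j)
    (hd : ∀ i j k, pd k (fun y => g y i j) x = pd k (fun y => g' y i j) x) :
    thetaPlus g K F x = thetaPlus g' K' F x := by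
  have hg' : g x = g' x := funext fun i => funext fun j => hg i j
  have hK' : K x = K' x := funext fun i => funext fun j => hK i j
  have hup : ∀ i j, up g i j x = up g' i j x := fun i j => by
    simp only [up, mat, hg']
  have hchr : ∀ k i j, chr g k i j x = chr g' k i j x := by
    intro k i j
    simp only [chr, hup, hd]
  have hhess : ∀ i j, hess g F x i j = hess g' F x i j := fun i j => by
    simp only [hess, hchr]
  have hcov : ∀ w : Fin n → E n → ℝ, covNorm g w x = covNorm g' w x := fun w => by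
    simp only [covNorm, hup]
  have hnrm : ∀ i, nrm g F i x = nrm g' F i x := fun i => by
    simp only [nrm, hup, hcov]
  simp only [thetaPlus, trS, tr, hup, hhess, hcov, hnrm, hK']

/-- Disjoint round balls. -/
structure Balls (F : E n → ℝ) {ι : Type} (c : ι → E n) (r : ι → ℝ) : Prop where
  pos : ∀ k, 0 < r k
  disj : ∀ j k, j ≠ k → r j + r k < ‖c j - c k‖
  dom : ∀ x, F x < 0 ↔ ∃ k, ‖x - c k‖ < r k

namespace Balls

variable {F : E n → ℝ} {ι : Type} {c : ι → E n} {r : ι → ℝ} (h : Balls F c r)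
include h

lemma far {j k : ι} (hjk : j ≠ k) {x : E n} (hx : ‖x - c k‖ ≤ r k) : r j < ‖x - c j‖ := by
  have h1 := h.disj j k hjk
  have h2 : ‖c j - c k‖ ≤ ‖x - c j‖ + ‖x - c k‖ := by
    have : c j - c k = (x - c k) - (x - c j) := by abel
    rw [this]
    have := norm_sub_le (x - c k) (x - c j)
    linarith
  linarith

lemma pw : Pairwise (Function.onFun Disjoint fun k => closedBall (c k) (r k)) := by
  intro j k hjk
  refine Set.disjoint_left.2 fun x hj hk => ?_
  have h1 : ‖x - c j‖ ≤ r j := by simpa [dist_eq_norm] using hj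
  have h2 : ‖x - c k‖ ≤ r k := by simpa [dist_eq_norm] using hk
  exact absurd h1 (not_le.2 (h.far hjk h2))

lemma nonneg {x : E n} (hx : ∀ k, r k ≤ ‖x - c k‖) : 0 ≤ F x := by
  by_contra hn
  obtain ⟨k, hk⟩ := (h.dom x).1 (not_le.1 hn)
  exact absurd hk (not_lt.2 (hx k))

lemma nonneg_sph {k : ι} {x : E n} (hx : ‖x - c k‖ = r k) : 0 ≤ F x := by
  refine h.nonneg fun j => ?_
  rcases eq_or_ne j k with rfl | hjk
  · exact hx.ge
  · exact (h.far hjk hx.le).le

/-- inner radial segment -/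
lemma inner_neg {k : ι} {x : E n} (hx : ‖x - c k‖ = r k) {s : ℝ} (h1 : -(r k) < s)
    (h2 : s < 0) : F (x + s • ((r k)⁻¹ • (x - c k))) < 0 := by
  have hr := h.pos k
  refine (h.dom _).2 ⟨k, ?_⟩
  have e : x + s • ((r k)⁻¹ • (x - c k)) - c k = (1 + s / r k) • (x - c k) := by
    rw [add_smul, one_smul, smul_smul, div_eq_mul_inv]; abel
  rw [e, norm_smul, hx, Real.norm_eq_abs]
  have h3 : 0 < 1 + s / r k := by
    have : -1 < s / r k := by rw [lt_div_iff₀ hr]; linarith
    linarith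
  have h4 : s / r k < 0 := div_neg_of_neg_of_pos h2 hr
  rw [abs_of_pos h3]
  nlinarith

lemma zero_sph (hF : Smooth F) {k : ι} {x : E n} (hx : ‖x - c k‖ = r k) : F x = 0 := by
  refine le_antisymm ?_ (h.nonneg_sph hx)
  have hcont : Continuous fun s : ℝ => F (x + s • ((r k)⁻¹ • (x - c k))) :=
    hF.continuous.comp (continuous_const.add (continuous_id.smul continuous_const))
  have h1 : Tendsto (fun s : ℝ => F (x + s • ((r k)⁻¹ • (x - c k)))) (𝓝[<] 0) (𝓝 (F x)) := by
    have := (hcont.tendsto 0).mono_left (nhdsWithin_le_nhds (s := Iio 0))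
    simpa using this
  refine le_of_tendsto h1 ?_
  have h2 : ∀ᶠ s in 𝓝[<] (0 : ℝ), -(r k) < s :=
    nhdsWithin_le_nhds (lt_mem_nhds (neg_lt_zero.2 (h.pos k)))
  filter_upwards [h2, self_mem_nhdsWithin] with s hs hs0
  exact (h.inner_neg hx hs hs0).le

lemma pos_out [Finite ι] (hF : Smooth F) (hne : ∀ x, F x = 0 → ∃ i, pd i F x ≠ 0) {x : E n}
    (hx : ∀ k, r k < ‖x - c k‖) : 0 < F x := by
  have h0 := h.nonneg fun k => (hx k).le
  rcases h0.eq_or_lt with h1 | h1
  · exfalso
    obtain ⟨i, hi⟩ := hne x h1.symm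
    apply hi
    have hopen : ∀ᶠ y in 𝓝 x, ∀ k, r k < ‖y - c k‖ := by
      rw [eventually_all]
      intro k
      exact (isOpen_lt continuous_const
        (continuous_id.sub continuous_const).norm).mem_nhds (hx k)
    have hmin : IsLocalMin F x := by
      filter_upwards [hopen] with y hy
      rw [← h1]
      exact h.nonneg fun k => (hy k).le
    rw [Vale.Agent.C92.pd_fderiv (diffAt hF x), hmin.fderiv_eq_zero]
    rfl
  · exact h1

/-- `F` has positive normal derivative at the boundary. -/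
theorem lev (hF : Smooth F) (hne : ∀ x, F x = 0 → ∃ i, pd i F x ≠ 0) {k : ι} {x : E n}
    (hx : ‖x - c k‖ = r k) : ∃ b, 0 < b ∧ Lev F (r k) (nu (c k) (r k) x) b x := by
  have hL := level hF (h.pos k) (fun y z hy hz => by rw [h.zero_sph hF hy, h.zero_sph hF hz]) hx
  set b := dn F (c k) (r k) x with hb
  have hb0 : b ≠ 0 := by
    intro h0
    obtain ⟨i, hi⟩ := hne x (h.zero_sph hF hx)
    apply hi
    rw [hL.fst, h0, zero_mul]
  refine ⟨b, lt_of_le_of_ne ?_ (Ne.symm hb0), hL⟩
  set N : E n := (r k)⁻¹ • (x - c k) with hN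
  have hc : HasDerivAt (fun t : ℝ => x + t • N) N 0 := by
    simpa using ((hasDerivAt_id (0 : ℝ)).smul_const N).const_add x
  have h1 : HasDerivAt (fun t : ℝ => F (x + t • N)) (fderiv ℝ F x N) 0 := by
    have h2 : HasFDerivAt F (fderiv ℝ F x) (x + (0 : ℝ) • N) := by
      simpa using (diffAt hF x).hasFDerivAt
    exact h2.comp_hasDerivAt 0 hc
  have hNb : fderiv ℝ F x N = b := by
    have hNsum : N = ∑ i, nu (c k) (r k) x i • (EuclideanSpace.single i (1 : ℝ) : E n) := by
      ext j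
      simp [hN, nu, WithLp.ofLp_sum, Pi.single_apply]
      ring
    rw [hNsum, map_sum, hb]
    unfold dn
    refine Finset.sum_congr rfl fun i _ => ?_
    rw [map_smul, smul_eq_mul, Vale.Agent.C92.pd_fderiv (diffAt hF x)]
  rw [hNb] at h1
  have h2 := h1.tendsto_slope_zero_left
  refine ge_of_tendsto h2 ?_
  have h3 : ∀ᶠ s in 𝓝[<] (0 : ℝ), -(r k) < s :=
    nhdsWithin_le_nhds (lt_mem_nhds (neg_lt_zero.2 (h.pos k)))
  filter_upwards [h3, self_mem_nhdsWithin] with s hs hs0
  have hs0' : s < 0 := hs0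
  have h4 := h.inner_neg hx hs hs0'
  rw [← hN] at h4
  simp only [zero_add, zero_smul, add_zero, smul_eq_mul]
  rw [h.zero_sph hF hx, sub_zero]
  exact (mul_pos_of_neg_of_neg (inv_lt_zero.2 hs0') h4).le

end Balls

/-- `X · ν` at a level sphere. -/
theorem Xf_lev {f : E n → ℝ} (u : E n → ℝ) (K : Field n) {r a : ℝ} {ν : Fin n → ℝ} {x : E n}
    (h : Lev f r ν a x) :
    ∑ i, Xf f u (momT (gM f) K) i x * ν i =
      u x * a * ((√(W2 f x))⁻¹ * tt ν (K x)) := by
  have hW := W2_lev h
  have hWn := W2_ne f x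
  set P := momT (gM f) K with hP
  set Pn := ∑ i, ∑ j, ν i * ν j * P x i j with hPn
  have h1 : ∀ i, pf f P i x = a * ∑ j, P x i j * ν j := by
    intro i
    unfold pf
    rw [Finset.mul_sum]
    exact Finset.sum_congr rfl fun j _ => by rw [h.fst]; ring
  have h2 : ∑ i, ν i * ∑ j, P x i j * ν j = Pn := by
    rw [hPn]
    refine Finset.sum_congr rfl fun i _ => ?_
    rw [Finset.mul_sum]
    exact Finset.sum_congr rfl fun j _ => by ring
  have h3 : qp f P x = a ^ 2 * Pn := by
    unfold qp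
    rw [← h2, Finset.mul_sum]
    exact Finset.sum_congr rfl fun i _ => by rw [h.fst, h1]; ring
  have h4 : ∑ i, Yf f P i x * ν i = a * Pn / W2 f x := by
    have : ∀ i, Yf f P i x * ν i = a * (ν i * ∑ j, P x i j * ν j) -
        ν i ^ 2 * (a * (a ^ 2 * Pn) * (W2 f x)⁻¹) := by
      intro i
      unfold Yf
      rw [h1, h3, h.fst]
      ring
    simp only [this, Finset.sum_sub_distrib, ← Finset.mul_sum, ← Finset.sum_mul]
    rw [h2, h.one]
    field_simp
    rw [hW]
    ring
  -- the trace of `K`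
  have h5 : tr (gM f) K x = ∑ i, K x i i - a ^ 2 * (∑ i, ∑ j, ν i * ν j * K x i j) / W2 f x := by
    unfold tr
    simp only [up_gM]
    rw [contr]
    congr 2
    rw [Finset.mul_sum]
    refine Finset.sum_congr rfl fun i _ => ?_
    rw [Finset.mul_sum]
    exact Finset.sum_congr rfl fun j _ => by rw [h.fst, h.fst]; ring
  have h6 : ∑ i, ∑ j, ν i * ν j * gM f x i j = W2 f x := by
    have : ∀ i j, ν i * ν j * gM f x i j = (if i = j then ν i * ν j else 0) +
        a ^ 2 * (ν i ^ 2 * ν j ^ 2) := by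
      intro i j
      unfold gM
      rw [h.fst, h.fst]
      split_ifs <;> ring
    simp only [this, Finset.sum_add_distrib, Finset.sum_ite_eq, Finset.mem_univ, if_true,
      ← Finset.mul_sum]
    have e : ∑ i, ν i * ν i = 1 := by
      rw [← h.one]; exact Finset.sum_congr rfl fun i _ => by ring
    simp only [h.one]
    rw [e, hW]
    simp only [mul_one]
    rw [h.one]
    ring
  have h7 : Pn = -(W2 f x * tt ν (K x)) := by
    have e1 : Pn = (∑ i, ∑ j, ν i * ν j * K x i j) -
        tr (gM f) K x * ∑ i, ∑ j, ν i * ν j * gM f x i j := by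
      rw [hPn, Finset.mul_sum, ← Finset.sum_sub_distrib]
      refine Finset.sum_congr rfl fun i _ => ?_
      rw [Finset.mul_sum, ← Finset.sum_sub_distrib]
      exact Finset.sum_congr rfl fun j _ => by rw [hP]; unfold momT; ring
    rw [e1, h5, h6]
    unfold tt
    have e2 : ∀ S T : ℝ, S - (T - a ^ 2 * S / W2 f x) * W2 f x = -(W2 f x * (T - S)) := by
      intro S T
      have : (T - a ^ 2 * S / W2 f x) * W2 f x = T * W2 f x - a ^ 2 * S := by
        field_simp
      rw [this, hW]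
      ring
    exact e2 _ _
  have h8 : ∑ i, Xf f u P i x * ν i = -(u x * (√(W2 f x))⁻¹) * ∑ i, Yf f P i x * ν i := by
    rw [Finset.mul_sum]
    exact Finset.sum_congr rfl fun i _ => by unfold Xf; ring
  rw [h8, h4, h7]
  field_simp

/-- **The boundary flux density.** -/
theorem bdry_ge {f : E n → ℝ} (u : E n → ℝ) (K : Field n) {r a : ℝ} {ν : Fin n → ℝ}
    {x : E n} (h : Lev f r ν a x) (hua : u x * a = -1)
    (hth : ((n : ℝ) - 1) / r * (√(W2 f x))⁻¹ + tt ν (K x) ≤ 0) :
    ((n : ℝ) - 1) / r ≤ ∑ i, (Vf f i x + Xf f u (momT (gM f) K) i x) * ν i := by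
  have hW := W2_lev h
  have hW0 := W2_pos f x
  have hww : √(W2 f x) ^ 2 = W2 f x := Real.sq_sqrt hW0.le
  have hw : 0 < (√(W2 f x))⁻¹ := inv_pos.2 (Real.sqrt_pos.2 hW0)
  simp only [add_mul, Finset.sum_add_distrib]
  rw [Vf_lev h, Xf_lev u K h, hua]
  have h1 : ((n : ℝ) - 1) / r * (W2 f x)⁻¹ ≤ -1 * ((√(W2 f x))⁻¹ * tt ν (K x)) := by
    have h2 := mul_le_mul_of_nonneg_left hth hw.le
    have h3 : (√(W2 f x))⁻¹ * (√(W2 f x))⁻¹ = (W2 f x)⁻¹ := by
      rw [← mul_inv, ← sq, hww]
    have h4 : (√(W2 f x))⁻¹ * (((n : ℝ) - 1) / r * (√(W2 f x))⁻¹ + tt ν (K x)) =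
        ((n : ℝ) - 1) / r * (W2 f x)⁻¹ + (√(W2 f x))⁻¹ * tt ν (K x) := by
      rw [← h3]; ring
    rw [h4, mul_zero] at h2
    linarith
  have h5 : ((n : ℝ) - 1) / r * (a ^ 2 / W2 f x) + ((n : ℝ) - 1) / r * (W2 f x)⁻¹ =
      ((n : ℝ) - 1) / r := by
    rw [← mul_add]
    have : a ^ 2 / W2 f x + (W2 f x)⁻¹ = 1 := by
      have := W2_ne f x
      field_simp
      rw [hW]; ring
    rw [this, mul_one]
  linarith

end Vale.Agent.H45G
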