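import Vale.Agent.P366.H45.G10

/-! The area of the boundary, and the flux through the boundary spheres. -/

open MeasureTheory Metric Filter Topology Set
open scoped ContDiff ENNReal

noncomputable section
namespace Vale.Agent.H45G
open Vale.Agent.P366.Stmt
open Vale.Agent.P366 (dvg flux sphI sphM norm_smul_sph)

variable {n : ℕ}

lemma cont_sph {Z : Fin n → E n → ℝ} (hZ : ∀ i, Smooth (Z i)) (c : E n) {r : ℝ} (hr : 0 < r) :
    Integrable (fun θ : sphere (0 : E n) 1 =>
      ∑ i, Z i (r • (θ : E n) + c) * ((r • (θ : E n)) i / ‖r • (θ : E n)‖)) (sphM n) := by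
  have hcomp : Continuous fun θ : sphere (0 : E n) 1 =>
      ∑ i, Z i (r • (θ : E n) + c) * ((r • (θ : E n)) i / ‖r • (θ : E n)‖) := by
    have h0 : Continuous fun θ : sphere (0 : E n) 1 => r • (θ : E n) :=
      Continuous.const_smul continuous_subtype_val r
    refine continuous_finsetSum _ fun i _ => ?_
    refine ((hZ i).continuous.comp (h0.add continuous_const)).mul (Continuous.div ?_ ?_ ?_)
    · exact (EuclideanSpace.proj (𝕜 := ℝ) i).continuous.comp h0
    · exact h0.norm
    · intro θ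
      rw [norm_smul_sph hr.le]
      exact hr.ne'
  exact hcomp.integrable_of_hasCompactSupport (HasCompactSupport.of_compactSpace _)

lemma nu_sph (c : E n) {r : ℝ} (hr : 0 < r) (θ : sphere (0 : E n) 1) (i : Fin n) :
    (r • (θ : E n)) i / ‖r • (θ : E n)‖ = nu c r (r • (θ : E n) + c) i := by
  rw [norm_smul_sph hr.le]
  unfold nu
  simp

/-- Lower bound for a flux. -/
lemma flc_ge {Z : Fin n → E n → ℝ} (hZ : ∀ i, Smooth (Z i)) (c : E n) {r A : ℝ} (hr : 0 < r)
    (hA : ∀ x : E n, ‖x - c‖ = r → A ≤ ∑ i, Z i x * nu c r x i) :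
    r ^ (n - 1) * (Vale.Agent.P366.omega n * A) ≤ flc c Z r := by
  unfold flc flux sphI
  refine mul_le_mul_of_nonneg_left ?_ (by positivity)
  have h1 : ∫ _θ : sphere (0 : E n) 1, A ∂(sphM n) = Vale.Agent.P366.omega n * A := by
    rw [integral_const, smul_eq_mul]; rfl
  rw [← h1]
  refine integral_mono (integrable_const _) (cont_sph hZ c hr) fun θ => ?_
  have h2 := hA (r • (θ : E n) + c) (by rw [add_sub_cancel_right, norm_smul_sph hr.le])
  refine h2.trans (le_of_eq ?_)
  exact Finset.sum_congr rfl fun i _ => by rw [nu_sph c hr]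

lemma flc_neg (Z : Fin n → E n → ℝ) (c : E n) (r : ℝ) :
    flc c (fun i x => -Z i x) r = -flc c Z r := by
  unfold flc flux sphI
  simp only [neg_mul, Finset.sum_neg_distrib, integral_neg, mul_neg]

/-- Upper bound of the negative of a flux. -/
lemma flc_le {Z : Fin n → E n → ℝ} (hZ : ∀ i, Smooth (Z i)) (c : E n) {r A : ℝ} (hr : 0 < r)
    (hA : ∀ x : E n, ‖x - c‖ = r → -(∑ i, Z i x * nu c r x i) ≤ A) :
    -flc c Z r ≤ r ^ (n - 1) * (Vale.Agent.P366.omega n * A) := by
  have h1 := flc_ge hZ c (r := r) (A := -A) hr fun x hx => by linarith [hA x hx]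
  have h2 : r ^ (n - 1) * (Vale.Agent.P366.omega n * -A) =
      -(r ^ (n - 1) * (Vale.Agent.P366.omega n * A)) := by ring
  rw [h2] at h1
  linarith

/-- The determinant of the graph metric. -/
lemma det_gM (f : E n → ℝ) (x : E n) : (mat (gM f) x).det = W2 f x := by
  have h : mat (gM f) x = 1 + Matrix.replicateCol Unit (fun i => pd i f x) *
      Matrix.replicateRow Unit (fun i => pd i f x) := by
    ext i j
    simp [mat, gM, Matrix.one_apply, Matrix.mul_apply]
  rw [h, Matrix.det_one_add_replicateCol_mul_replicateRow]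
  unfold W2 dotProduct
  exact congrArg _ (Finset.sum_congr rfl fun i _ => by ring)

/-- Test fields: the flux bound. -/
lemma test_bound {f : E n → ℝ} {r a : ℝ} {ν : Fin n → ℝ} {x : E n} (h : Lev f r ν a x)
    (X : Fin n → ℝ) (hX : ∑ i, ∑ j, gM f x i j * X i * X j ≤ 1) :
    -(∑ i, √(W2 f x) * X i * ν i) ≤ 1 := by
  have hW := W2_lev h
  have hW0 := W2_pos f x
  have hww : √(W2 f x) ^ 2 = W2 f x := Real.sq_sqrt hW0.le
  set s := ∑ i, X i * ν i with hs
  have h1 : ∑ i, ∑ j, gM f x i j * X i * X j = ∑ i, X i ^ 2 + a ^ 2 * s ^ 2 := by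
    have : ∀ i j, gM f x i j * X i * X j = (if i = j then X i * X j else 0) +
        a ^ 2 * ((X i * ν i) * (X j * ν j)) := by
      intro i j
      unfold gM
      rw [h.fst, h.fst]
      split_ifs <;> ring
    simp only [this, Finset.sum_add_distrib, Finset.sum_ite_eq, Finset.mem_univ, if_true,
      ← Finset.mul_sum]
    congr 1
    · exact Finset.sum_congr rfl fun i _ => by ring
    · simp only [← hs]
      rw [← Finset.sum_mul, ← hs]
      ring
  have h2 : s ^ 2 ≤ ∑ i, X i ^ 2 := by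
    have := Finset.sum_mul_sq_le_sq_mul_sq Finset.univ X ν
    rw [h.one, mul_one] at this
    exact this
  have h3 : (√(W2 f x) * s) ^ 2 ≤ 1 := by
    rw [mul_pow, hww, hW]
    rw [h1] at hX
    linarith
  have h4 : ∑ i, √(W2 f x) * X i * ν i = √(W2 f x) * s := by
    rw [hs, Finset.mul_sum]
    exact Finset.sum_congr rfl fun i _ => by ring
  rw [h4]
  have := abs_le_of_sq_le_sq' (a := √(W2 f x) * s) (b := 1) (by simpa using h3) zero_le_one
  linarith [this.1]

section

variable {ι : Type} [Fintype ι] {c : ι → E n} {r : ι → ℝ}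

lemma ae_balls [Nontrivial (E n)] :
    ((⋃ k, ball (c k) (r k))ᶜ : Set (E n)) =ᵐ[volume]
      ((⋃ k, closedBall (c k) (r k))ᶜ : Set (E n)) := by
  have h1 : ∀ k, (ball (c k) (r k) : Set (E n)) =ᵐ[volume] closedBall (c k) (r k) := by
    intro k
    refine (ae_eq_set.2 ⟨?_, ?_⟩)
    · rw [Set.sdiff_eq_empty.2 ball_subset_closedBall, measure_empty]
    · rw [closedBall_sdiff_ball]
      exact Measure.addHaar_sphere volume (c k) (r k)
  exact (Filter.EventuallyEq.countable_iUnion h1).compl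

/-- The area of the boundary. -/
theorem amin_le (hn : 2 ≤ n) {D : Exterior n} {f : E n → ℝ} (hf : Smooth f)
    (hB : Balls D.F c r)
    (hg : ∀ x, 0 ≤ D.F x → ∀ i j, D.g x i j = gM f x i j)
    (hlev : ∀ k x y, ‖x - c k‖ = r k → ‖y - c k‖ = r k → f x = f y) :
    D.Amin ≤ ENNReal.ofReal (Vale.Agent.P366.omega n * ∑ k, r k ^ (n - 1)) := by
  have : Nonempty (Fin n) := ⟨⟨0, by omega⟩⟩
  have : Nontrivial (E n) := inferInstance
  refine (sInf_le ⟨D.F, D.dom, fun x hx => hx, rfl⟩ : D.Amin ≤ D.area D.F).trans ?_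
  unfold Exterior.area
  refine sSup_le ?_
  rintro a ⟨X, ⟨hX1, ⟨C, hX2⟩, hX3⟩, rfl⟩
  apply ENNReal.ofReal_le_ofReal
  set Z : Fin n → E n → ℝ := fun i x => √(W2 f x) * X i x with hZd
  have hws : Smooth fun x => √(W2 f x) := ContDiff.sqrt (smooth_W2 hf) fun x => W2_ne f x
  have hZ : ∀ i, Smooth (Z i) := fun i => ContDiff.mul hws (hX1 i)
  have hC : ∀ i x, C < ‖x‖ → Z i x = 0 := fun i x hx => by
    simp only [hZd]
    rw [hX2 x hx i, mul_zero]
  have hset : {x : E n | 0 ≤ D.F x} = (⋃ k, ball (c k) (r k))ᶜ := by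
    ext x
    simp only [mem_ofPred_eq, mem_compl_iff, mem_iUnion, mem_ball, dist_eq_norm]
    rw [← not_lt, hB.dom]
  rw [Vale.Agent.P366.vol_eq, hset, setIntegral_congr_set ae_balls]
  have hm : MeasurableSet ((⋃ k, closedBall (c k) (r k))ᶜ : Set (E n)) :=
    (MeasurableSet.iUnion fun k => isClosed_closedBall.measurableSet).compl
  have h1 : ∫ x in (⋃ k, closedBall (c k) (r k))ᶜ,
      ∑ i, pd i (fun y => √(mat D.g y).det * X i y) x =
      ∫ x in (⋃ k, closedBall (c k) (r k))ᶜ, dvg Z x := by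
    refine setIntegral_congr_fun hm fun x hx => ?_
    have hx' : ∀ k, r k < ‖x - c k‖ := by
      intro k
      have := fun h => hx (mem_iUnion.2 ⟨k, h⟩)
      simpa [dist_eq_norm] using this
    have hF0 := hB.pos_out D.dom.1 D.dom.2.1 hx'
    show ∑ i, pd i (fun y => √(mat D.g y).det * X i y) x = dvg Z x
    rw [dvg_eq hZ]
    refine Finset.sum_congr rfl fun i _ => pd_congr' ?_ i
    filter_upwards [(isOpen_lt continuous_const D.dom.1.continuous).mem_nhds hF0] with y hy
    have hm2 : mat D.g y = mat (gM f) y := by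
      ext a b
      exact hg y (le_of_lt hy) a b
    rw [hm2, det_gM]
  rw [h1, int_compl hZ hC hB.pos hB.pw, ← Finset.sum_neg_distrib, Finset.mul_sum]
  refine Finset.sum_le_sum fun k _ => ?_
  have h2 := flc_le (A := 1) hZ (c k) (hB.pos k) fun x hx => by
    have hL := level hf (hB.pos k) (hlev k) hx
    refine test_bound hL (fun i => X i x) ?_
    have h3 := hX3 x (hB.nonneg_sph hx)
    refine le_trans (le_of_eq ?_) h3
    refine Finset.sum_congr rfl fun i _ => Finset.sum_congr rfl fun j _ => ?_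
    rw [hg x (hB.nonneg_sph hx)]
  rw [mul_one, mul_comm (r k ^ (n - 1))] at h2
  exact h2

end

end Vale.Agent.H45G
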