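import Vale.Agent.P366.H45.G11

/-! Asymptotics. -/

open MeasureTheory Metric Filter Topology Set
open scoped ContDiff ENNReal

noncomputable section
namespace Vale.Agent.H45G
open Vale.Agent.P366.Stmt
open Vale.Agent.P366 (dvg flux sphI sphM norm_smul_sph)

variable {n : ℕ}

lemma bo_le {q : ℝ} {f g : E n → ℝ} (hf : BigO q f) {R : ℝ}
    (h : ∀ x, R < len x → |g x| ≤ |f x|) : BigO q g := by
  obtain ⟨C, R', hC⟩ := hf
  exact ⟨C, max R R', fun x hx => (h x ((le_max_left _ _).trans_lt hx)).trans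
    (hC x ((le_max_right _ _).trans_lt hx))⟩

lemma bo_congr {q : ℝ} {f g : E n → ℝ} (hf : BigO q f) {R : ℝ}
    (h : ∀ x, R < len x → g x = f x) : BigO q g :=
  bo_le hf (R := R) fun x hx => by rw [h x hx]

lemma bo_add {q : ℝ} {f g : E n → ℝ} (hf : BigO q f) (hg : BigO q g) :
    BigO q (fun x => f x + g x) := by
  obtain ⟨C, R, hC⟩ := hf
  obtain ⟨C', R', hC'⟩ := hg
  refine ⟨C + C', max R R', fun x hx => ?_⟩
  have h1 := hC x ((le_max_left _ _).trans_lt hx)
  have h2 := hC' x ((le_max_right _ _).trans_lt hx)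
  rw [add_mul]
  exact (abs_add_le _ _).trans (add_le_add h1 h2)

lemma bo_neg {q : ℝ} {f : E n → ℝ} (hf : BigO q f) : BigO q (fun x => -f x) := by
  obtain ⟨C, R, hC⟩ := hf
  exact ⟨C, R, fun x hx => by rw [abs_neg]; exact hC x hx⟩

lemma bo_sub {q : ℝ} {f g : E n → ℝ} (hf : BigO q f) (hg : BigO q g) :
    BigO q (fun x => f x - g x) := by
  simp only [sub_eq_add_neg]
  exact bo_add hf (bo_neg hg)

lemma bo_mul {a b : ℝ} {f g : E n → ℝ} (hf : BigO a f) (hg : BigO b g) :
    BigO (a + b) (fun x => f x * g x) := by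
  obtain ⟨C, R, hC⟩ := hf
  obtain ⟨C', R', hC'⟩ := hg
  refine ⟨C * C', max (max R R') 0, fun x hx => ?_⟩
  have h0 : 0 < len x := (le_max_right _ _).trans_lt hx
  have hx' := (le_max_left _ _).trans_lt hx
  have h1 := hC x ((le_max_left _ _).trans_lt hx')
  have h2 := hC' x ((le_max_right _ _).trans_lt hx')
  rw [abs_mul]
  have h3 : C * C' * len x ^ (-(a + b)) = (C * len x ^ (-a)) * (C' * len x ^ (-b)) := by
    rw [neg_add, Real.rpow_add h0]; ring
  rw [h3]
  exact mul_le_mul h1 h2 (abs_nonneg _) ((abs_nonneg _).trans h1)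

lemma bo_zero (q : ℝ) : BigO q (fun _ : E n => (0 : ℝ)) := ⟨0, 0, fun x _ => by simp⟩

lemma bo_sum {q : ℝ} {ι : Type} (s : Finset ι) {f : ι → E n → ℝ} (h : ∀ i ∈ s, BigO q (f i)) :
    BigO q (fun x => ∑ i ∈ s, f i x) := by
  classical
  induction s using Finset.induction_on with
  | empty => simpa using bo_zero q
  | insert a s ha ih =>
    simp only [Finset.sum_insert ha]
    exact bo_add (h a (Finset.mem_insert_self _ _))
      (ih fun i hi => h i (Finset.mem_insert_of_mem hi))

lemma bo_mono {a b : ℝ} (hab : b ≤ a) {f : E n → ℝ} (hf : BigO a f) : BigO b f := by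
  obtain ⟨C, R, hC⟩ := hf
  refine ⟨|C|, max R 1, fun x hx => ?_⟩
  have h1 : 1 ≤ len x := ((le_max_right _ _).trans_lt hx).le
  refine (hC x ((le_max_left _ _).trans_lt hx)).trans ?_
  have h2 : len x ^ (-a) ≤ len x ^ (-b) :=
    Real.rpow_le_rpow_of_exponent_le h1 (by linarith)
  have h3 : 0 ≤ len x ^ (-a) := Real.rpow_nonneg (by linarith) _
  calc C * len x ^ (-a) ≤ |C| * len x ^ (-a) := mul_le_mul_of_nonneg_right (le_abs_self _) h3
    _ ≤ |C| * len x ^ (-b) := mul_le_mul_of_nonneg_left h2 (abs_nonneg _)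

lemma bo_bdd {f : E n → ℝ} {C R : ℝ} (h : ∀ x, R < len x → |f x| ≤ C) : BigO 0 f :=
  ⟨C, R, fun x hx => by rw [neg_zero, Real.rpow_zero, mul_one]; exact h x hx⟩

/-- Decaying fields have vanishing flux at infinity. -/
lemma flux_lim {q : ℝ} (hn : 1 ≤ n) (hq : (n : ℝ) - 1 < q) {Z : Fin n → E n → ℝ}
    (hZ : ∀ i, BigO q (Z i)) : Tendsto (flux Z) atTop (𝓝 0) := by
  have h1 : BigO q (fun x => ∑ i, |Z i x|) := bo_sum _ fun i _ => by
    obtain ⟨C, R, hC⟩ := hZ i
    exact ⟨C, R, fun x hx => by rw [abs_abs]; exact hC x hx⟩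
  obtain ⟨C, R, hC⟩ := h1
  have h2 : ∀ ρ : ℝ, max R 0 < ρ → |flux Z ρ| ≤
      C * Vale.Agent.P366.omega n * ρ ^ (-(q - ((n : ℝ) - 1))) := by
    intro ρ hρ
    have hρ0 : 0 < ρ := (le_max_right _ _).trans_lt hρ
    have hρR : R < ρ := (le_max_left _ _).trans_lt hρ
    unfold flux
    rw [abs_mul, abs_of_pos (pow_pos hρ0 _)]
    have h3 : |sphI (fun x => ∑ i, Z i x * (x i / ‖x‖)) ρ| ≤
        C * ρ ^ (-q) * Vale.Agent.P366.omega n := by
      have h4 := norm_integral_le_of_norm_le_const (μ := sphM n)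
        (f := fun θ : sphere (0 : E n) 1 =>
          ∑ i, Z i (ρ • (θ : E n)) * ((ρ • (θ : E n)) i / ‖ρ • (θ : E n)‖))
        (C := C * ρ ^ (-q)) (Eventually.of_forall fun θ => by
          have hl : len (ρ • (θ : E n)) = ρ := norm_smul_sph hρ0.le θ
          have h5 := hC (ρ • (θ : E n)) (by rw [hl]; exact hρR)
          rw [hl] at h5
          refine le_trans ?_ h5
          rw [Real.norm_eq_abs]
          refine (Finset.abs_sum_le_sum_abs _ _).trans (le_trans ?_ (le_abs_self _))
          refine Finset.sum_le_sum fun i _ => ?_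
          rw [abs_mul]
          refine mul_le_of_le_one_right (abs_nonneg _) ?_
          rw [abs_div, abs_norm]
          refine div_le_one_of_le₀ ?_ (norm_nonneg _)
          exact PiLp.norm_apply_le (p := 2) (ρ • (θ : E n)) i)
      exact h4
    calc ρ ^ (n - 1) * |sphI (fun x => ∑ i, Z i x * (x i / ‖x‖)) ρ|
        ≤ ρ ^ (n - 1) * (C * ρ ^ (-q) * Vale.Agent.P366.omega n) :=
          mul_le_mul_of_nonneg_left h3 (by positivity)
      _ = C * Vale.Agent.P366.omega n * (ρ ^ (-q) * ρ ^ (n - 1)) := by ring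
      _ = C * Vale.Agent.P366.omega n * ρ ^ (-(q - ((n : ℝ) - 1))) := by
          rw [← Real.rpow_natCast ρ (n - 1), ← Real.rpow_add hρ0]
          congr 2
          rw [Nat.cast_sub hn]
          push_cast
          ring
  have h5 : Tendsto (fun ρ : ℝ => C * Vale.Agent.P366.omega n *
      ρ ^ (-(q - ((n : ℝ) - 1)))) atTop (𝓝 0) := by
    have := (tendsto_rpow_neg_atTop (sub_pos.2 hq)).const_mul
      (C * Vale.Agent.P366.omega n)
    rwa [mul_zero] at this
  exact squeeze_zero_norm' (by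
    filter_upwards [eventually_gt_atTop (max R 0)] with ρ hρ
    exact h2 ρ hρ) h5

/-- The `ADM` integrand. -/
def adm (g : Field n) (i : Fin n) (x : E n) : ℝ :=
  (∑ j, (pd j (fun y => g y i j) x - pd i (fun y => g y j j) x)) / 2

lemma adm_gM {f : E n → ℝ} (hf : Smooth f) (i : Fin n) (x : E n) :
    2 * adm (gM f) i x = W2 f x * Vf f i x := by
  unfold adm
  have h1 : ∀ j, pd j (fun y => gM f y i j) x - pd i (fun y => gM f y j j) x =
      pd i f x * pd j (pd j f) x - pd j f x * pd i (pd j f) x := by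
    intro j
    rw [(HP_gM hf j i j x).pd, (HP_gM hf i j j x).pd, sym2 hf j i]
    ring
  simp only [h1, Finset.sum_sub_distrib]
  rw [← Finset.mul_sum]
  unfold Vf lap pv
  have := W2_ne f x
  field_simp

lemma flux_add {Z Z' : Fin n → E n → ℝ} (hZ : ∀ i, Smooth (Z i)) (hZ' : ∀ i, Smooth (Z' i))
    {ρ : ℝ} (hρ : 0 < ρ) : flux (fun i x => Z i x + Z' i x) ρ = flux Z ρ + flux Z' ρ := by
  have h1 := cont_sph hZ 0 hρ
  have h2 := cont_sph hZ' 0 hρ
  simp only [add_zero] at h1 h2
  unfold flux sphI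
  simp only [add_mul, Finset.sum_add_distrib]
  rw [integral_add h1 h2, mul_add]

lemma flux_two (Z : Fin n → E n → ℝ) (ρ : ℝ) :
    flux (fun i x => 2 * Z i x) ρ = 2 * flux Z ρ := by
  unfold flux sphI
  simp only [mul_assoc, ← Finset.mul_sum]
  rw [integral_const_mul]
  ring

/-- The flux at infinity. -/
theorem flux_inf (hn : 3 ≤ n) {D : Exterior n} {f u : E n → ℝ} {K : Field n} (hf : Smooth f)
    (hu : Smooth u) (hKs : ∀ i j, Smooth fun x => K x i j)
    (hg : ∀ x, 0 ≤ D.F x → ∀ i j, D.g x i j = gM f x i j)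
    (hK : ∀ x, 0 ≤ D.F x → ∀ i j, D.K x i j = K x i j)
    (hAF : D.IsAF) {m : ℝ} (hm : D.IsEnergy m)
    (hdec : ∃ a, (n : ℝ) / 2 - 1 < a ∧ ∀ i, BigO a fun x => u x * pd i f x) :
    Tendsto (flux fun i x => Vf f i x + Xf f u (momT (gM f) K) i x) atTop
      (𝓝 (2 * (((n : ℝ) - 1) * Vale.Agent.P366.omega n * m))) := by
  obtain ⟨q, hq, hAF⟩ := hAF
  obtain ⟨a, ha, hdec⟩ := hdec
  have hn0 : 0 < (n : ℝ) - 1 := by
    have : (3 : ℝ) ≤ n := by exact_mod_cast hn
    linarith
  have : Nonempty (Fin n) := ⟨⟨0, by omega⟩⟩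
  have : Nontrivial (E n) := inferInstance
  have hω : 0 < Vale.Agent.P366.omega n := Vale.Agent.P366.omega_pos'
  obtain ⟨R0, hR0⟩ := D.dom.2.2.2
  -- the energy flux
  have h1 : Tendsto (flux (adm D.g)) atTop
      (𝓝 (((n : ℝ) - 1) * Vale.Agent.P366.omega n * m)) := by
    have h2 := hm.const_mul (((n : ℝ) - 1) * Vale.Agent.P366.omega n)
    refine h2.congr fun ρ => ?_
    rw [Vale.Agent.P366.flx_eq]
    have : Vale.Agent.P366.sphInt ρ (fun x => ∑ i, (∑ j, (pd j (fun y => D.g y i j) x -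
        pd i (fun y => D.g y j j) x)) / 2 * (x i / ‖x‖)) = flux (adm D.g) ρ := rfl
    rw [this]
    field_simp
  -- smoothness
  have hgs : ∀ i j, Smooth fun x => D.g x i j := fun i j => (D.smooth i j).1
  have hadm : ∀ i, Smooth (adm D.g i) := by
    intro i
    unfold adm
    refine ContDiff.div_const (ContDiff.sum fun j _ => ?_) 2
    exact (smooth_pd (hgs i j) j).sub (smooth_pd (hgs j j) i)
  have hPs := smooth_momT hf hKs
  have hpf : ∀ i, Smooth (pf f (momT (gM f) K) i) := fun i =>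
    ContDiff.sum fun j _ => ContDiff.mul (hPs i j) (smooth_pd hf j)
  have hXs : ∀ i, Smooth (Xf f u (momT (gM f) K) i) := by
    intro i
    unfold Xf Yf qp
    refine ContDiff.mul (ContDiff.neg (ContDiff.mul hu (smooth_w hf))) (ContDiff.sub (hpf i) ?_)
    refine ContDiff.mul (ContDiff.mul (smooth_pd hf i) (ContDiff.sum fun j _ =>
      ContDiff.mul (smooth_pd hf j) (hpf j))) ((smooth_W2 hf).inv fun x => W2_ne f x)
  set Er : Fin n → E n → ℝ := fun i x =>
    Vf f i x + Xf f u (momT (gM f) K) i x - 2 * adm D.g i x with hEr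
  have hErs : ∀ i, Smooth (Er i) := fun i =>
    ((smooth_Vf hf i).add (hXs i)).sub (contDiff_const.mul (hadm i))
  have h2adm : ∀ i, Smooth (fun x => 2 * adm D.g i x) := fun i => contDiff_const.mul (hadm i)
  -- the error term
  have hopen : IsOpen {x : E n | R0 < len x} := isOpen_lt continuous_const continuous_norm
  have hgl : ∀ x, R0 < len x → ∀ i j, (fun y => D.g y i j) =ᶠ[𝓝 x] fun y => gM f y i j := by
    intro x hx i j
    filter_upwards [hopen.mem_nhds hx] with y hy
    exact hg y (hR0 y hy).le i j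
  have hpdg : ∀ x, R0 < len x → ∀ k i j, pd k (fun y => D.g y i j) x =
      pd k (fun y => gM f y i j) x := fun x hx k i j => pd_congr' (hgl x hx i j) k
  have hadmeq : ∀ x, R0 < len x → ∀ i, 2 * adm D.g i x = W2 f x * Vf f i x := by
    intro x hx i
    rw [← adm_gM hf]
    unfold adm
    simp only [hpdg x hx]
  have hbW : BigO q fun x => W2 f x - 1 := by
    have h3 : BigO q fun x => ∑ i, (D.g x i i - if i = i then 1 else 0) :=
      bo_sum _ fun i _ => (hAF i i i i).1
    refine bo_congr h3 (R := R0) fun x hx => ?_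
    unfold W2
    rw [add_sub_cancel_left]
    refine Finset.sum_congr rfl fun i _ => ?_
    rw [hg x (hR0 x hx).le]
    unfold gM
    ring
  have hbV : ∀ i, BigO (q + 1) (Vf f i) := by
    intro i
    have h3 : BigO (q + 1) fun x => ∑ j, (pd j (fun y => D.g y i j) x -
        pd i (fun y => D.g y j j) x) :=
      bo_sum _ fun j _ => bo_sub (hAF i j j j).2.1 (hAF j j i i).2.1
    refine bo_le h3 (R := R0) fun x hx => ?_
    have h4 := hadmeq x hx i
    have h5 : ∑ j, (pd j (fun y => D.g y i j) x - pd i (fun y => D.g y j j) x) =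
        2 * adm D.g i x := by unfold adm; ring
    rw [h5, h4, abs_mul]
    refine le_mul_of_one_le_left (abs_nonneg _) ?_
    rw [abs_of_pos (W2_pos f x)]
    have := hR0 x hx
    have h6 : 0 ≤ ∑ i, pd i f x ^ 2 := Finset.sum_nonneg fun i _ => sq_nonneg _
    unfold W2; linarith
  have hup : ∀ i j, BigO 0 (up (gM f) i j) := by
    intro i j
    refine bo_bdd (C := 2) (R := 0) fun x _ => ?_
    rw [up_gM]
    have h3 : |pd i f x * pd j f x / W2 f x| ≤ 1 := by
      rw [abs_div, abs_of_pos (W2_pos f x), div_le_one (W2_pos f x), abs_mul]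
      have h4 : ∀ i, |pd i f x| ^ 2 ≤ W2 f x - 1 := by
        intro i
        rw [← sum_sq, sq_abs, sq]
        exact Finset.single_le_sum (f := fun i => pd i f x * pd i f x)
          (fun j _ => mul_self_nonneg _) (Finset.mem_univ i)
      nlinarith [h4 i, h4 j, sq_nonneg (|pd i f x| - |pd j f x|)]
    have h5 : |(if i = j then (1 : ℝ) else 0)| ≤ 1 := by split_ifs <;> simp
    calc |(if i = j then (1 : ℝ) else 0) - pd i f x * pd j f x / W2 f x|
        ≤ |(if i = j then (1 : ℝ) else 0)| + |pd i f x * pd j f x / W2 f x| := abs_sub _ _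
      _ ≤ 2 := by linarith
  have hbK : ∀ i j, BigO (q + 1) fun x => K x i j := fun i j =>
    bo_congr (hAF i j i i).2.2.2.1 (R := R0) fun x hx => (hK x (hR0 x hx).le i j).symm
  have hbg : ∀ i j, BigO 0 fun x => gM f x i j := by
    intro i j
    have h3 : BigO 0 fun x => D.g x i j - if i = j then 1 else 0 :=
      bo_mono (by
        have : (3 : ℝ) ≤ n := by exact_mod_cast hn
        linarith) (hAF i j i i).1
    have h4 : BigO 0 fun _ : E n => (if i = j then (1 : ℝ) else 0) :=
      bo_bdd (C := 1) (R := 0) fun x _ => by split_ifs <;> simp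
    refine bo_congr (bo_add h3 h4) (R := R0) fun x hx => ?_
    rw [hg x (hR0 x hx).le]
    ring
  have hbP : ∀ i j, BigO (q + 1) fun x => momT (gM f) K x i j := by
    intro i j
    have h3 : BigO (q + 1) fun x => tr (gM f) K x := by
      refine bo_sum _ fun a _ => bo_sum _ fun b _ => ?_
      have := bo_mul (hup a b) (hbK a b)
      rwa [zero_add] at this
    have h4 := bo_mul h3 (hbg i j)
    rw [add_zero] at h4
    exact bo_sub (hbK i j) h4
  have hbX : ∀ i, BigO (a + (q + 1)) (Xf f u (momT (gM f) K) i) := by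
    intro i
    have h3 : ∀ j, BigO (a + (q + 1)) fun x => u x * pf f (momT (gM f) K) j x := by
      intro j
      have h4 : BigO (a + (q + 1)) fun x => ∑ k, (u x * pd k f x) * momT (gM f) K x j k :=
        bo_sum _ fun k _ => bo_mul (hdec k) (hbP j k)
      refine bo_congr h4 (R := 0) fun x _ => ?_
      unfold pf
      rw [Finset.mul_sum]
      exact Finset.sum_congr rfl fun k _ => by ring
    have h5 : ∀ j, BigO 0 fun x => pd i f x * pd j f x * (W2 f x)⁻¹ := by
      intro j
      have h6 : BigO 0 fun _ : E n => (if i = j then (1 : ℝ) else 0) :=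
        bo_bdd (C := 1) (R := 0) fun x _ => by split_ifs <;> simp
      refine bo_congr (bo_sub h6 (hup i j)) (R := 0) fun x _ => ?_
      rw [up_gM]
      ring
    have h7 : BigO (a + (q + 1)) fun x => u x * pf f (momT (gM f) K) i x -
        ∑ j, (pd i f x * pd j f x * (W2 f x)⁻¹) * (u x * pf f (momT (gM f) K) j x) := by
      refine bo_sub (h3 i) (bo_sum _ fun j _ => ?_)
      have := bo_mul (h5 j) (h3 j)
      rwa [zero_add] at this
    refine bo_le h7 (R := 0) fun x _ => ?_
    have h8 : Xf f u (momT (gM f) K) i x = -(√(W2 f x))⁻¹ * (u x * pf f (momT (gM f) K) i x -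
        ∑ j, (pd i f x * pd j f x * (W2 f x)⁻¹) * (u x * pf f (momT (gM f) K) j x)) := by
      have h9 : ∑ j, (pd i f x * pd j f x * (W2 f x)⁻¹) * (u x * pf f (momT (gM f) K) j x) =
          u x * (pd i f x * qp f (momT (gM f) K) x * (W2 f x)⁻¹) := by
        unfold qp
        rw [Finset.mul_sum, Finset.sum_mul, Finset.mul_sum]
        exact Finset.sum_congr rfl fun j _ => by ring
      rw [h9]
      unfold Xf Yf
      ring
    rw [h8, abs_mul]
    refine mul_le_of_le_one_left (abs_nonneg _) ?_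
    rw [abs_neg, abs_of_pos (inv_pos.2 (Real.sqrt_pos.2 (W2_pos f x)))]
    refine inv_le_one_of_one_le₀ ?_
    rw [Real.one_le_sqrt]
    have h6 : 0 ≤ ∑ i, pd i f x ^ 2 := Finset.sum_nonneg fun i _ => sq_nonneg _
    unfold W2; linarith
  have h3 : Tendsto (flux Er) atTop (𝓝 0) := by
    set p := min (q + (q + 1)) (a + (q + 1)) with hp
    have hp1 : (n : ℝ) - 1 < p := by
      rw [hp, lt_min_iff]
      constructor <;> linarith
    refine flux_lim (by omega) hp1 fun i => ?_
    have h4 : BigO p fun x => -((W2 f x - 1) * Vf f i x) + Xf f u (momT (gM f) K) i x :=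
      bo_add (bo_neg (bo_mono (min_le_left _ _) (bo_mul hbW (hbV i))))
        (bo_mono (min_le_right _ _) (hbX i))
    refine bo_congr h4 (R := R0) fun x hx => ?_
    simp only [hEr]
    rw [hadmeq x hx i]
    ring
  have h4 := (h1.const_mul 2).add h3
  rw [add_zero] at h4
  refine h4.congr' ?_
  filter_upwards [eventually_gt_atTop (0 : ℝ)] with ρ hρ
  rw [← flux_two, ← flux_add h2adm hErs hρ]
  congr 1
  funext i x
  simp only [hEr]
  ring

end Vale.Agent.H45G
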