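import Vale.Agent.P366.H45.G12

/-! The main theorem. -/

open MeasureTheory Metric Filter Topology Set
open scoped ContDiff ENNReal

noncomputable section
namespace Vale.Agent.H45G
open Vale.Agent.P366.Stmt
open Vale.Agent.P366 (dvg flux sphI sphM norm_smul_sph)

variable {n : ℕ}

/-- All curvature quantities depend on germs only. -/
lemma germ {g g' K K' : Field n} {x : E n} (hg : ∀ᶠ y in 𝓝 x, ∀ i j, g y i j = g' y i j)
    (hK : ∀ᶠ y in 𝓝 x, ∀ i j, K y i j = K' y i j) :
    (∀ i j, up g i j x = up g' i j x) ∧ scal g x = scal g' x ∧ mu g K x = mu g' K' x ∧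
      (∀ j, mom g K j x = mom g' K' j x) ∧ ∀ f u, pin g K f u x = pin g' K' f u x := by
  have hup : ∀ᶠ y in 𝓝 x, ∀ i j, up g i j y = up g' i j y := by
    filter_upwards [hg] with y hy i j
    have : mat g y = mat g' y := by ext a b; exact hy a b
    unfold up; rw [this]
  have hpd : ∀ᶠ y in 𝓝 x, ∀ k i j, pd k (fun z => g z i j) y = pd k (fun z => g' z i j) y := by
    filter_upwards [eventually_eventually_nhds.2 hg] with y hy k i j
    exact pd_congr' (hy.mono fun z hz => hz i j) k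
  have hchr : ∀ᶠ y in 𝓝 x, ∀ k i j, chr g k i j y = chr g' k i j y := by
    filter_upwards [hup, hpd] with y h1 h2 k i j
    simp only [chr, h1, h2]
  have hpdc : ∀ m k i j, pd m (chr g k i j) x = pd m (chr g' k i j) x := fun m k i j =>
    pd_congr' (hchr.mono fun z hz => hz k i j) m
  have u0 := hup.self_of_nhds
  have c0 := hchr.self_of_nhds
  have g0 := hg.self_of_nhds
  have k0 := hK.self_of_nhds
  have hsc : scal g x = scal g' x := by
    simp only [scal, u0, hpdc, c0]
  have htr : ∀ᶠ y in 𝓝 x, tr g K y = tr g' K' y := by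
    filter_upwards [hup, hK] with y h1 h2
    simp only [tr, h1, h2]
  have hns : normSq g K x = normSq g' K' x := by simp only [normSq, u0, k0]
  have hmT : ∀ᶠ y in 𝓝 x, ∀ i j, momT g K y i j = momT g' K' y i j := by
    filter_upwards [htr, hK, hg] with y h1 h2 h3 i j
    simp only [momT, h1, h2, h3]
  have hpm : ∀ k i j, pd k (fun y => momT g K y i j) x = pd k (fun y => momT g' K' y i j) x :=
    fun k i j => pd_congr' (hmT.mono fun z hz => hz i j) k
  have m0 := hmT.self_of_nhds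
  refine ⟨u0, hsc, ?_, ?_, ?_⟩
  · simp only [mu, hsc, htr.self_of_nhds, hns]
  · intro j
    simp only [mom, u0, hpm, c0, m0]
  · intro f u
    simp only [pin, u0, m0, hess, c0]

lemma rpow_sum_le {ι : Type} (s : Finset ι) (a : ι → ℝ) (ha : ∀ i, 0 ≤ a i) {p : ℝ}
    (hp : 0 < p) (hp1 : p ≤ 1) : (∑ i ∈ s, a i) ^ p ≤ ∑ i ∈ s, a i ^ p := by
  classical
  induction s using Finset.induction_on with
  | empty => simp [Real.zero_rpow hp.ne']
  | insert b s hb ih =>
    rw [Finset.sum_insert hb, Finset.sum_insert hb]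
    exact (Real.rpow_add_le_add_rpow (ha b) (Finset.sum_nonneg fun i _ => ha i) hp.le hp1).trans
      (add_le_add le_rfl ih)

section

variable {ι : Type} [Fintype ι] {c : ι → E n} {r : ι → ℝ}

/-- The energy bound. -/
theorem energy_ge (hn : 3 ≤ n) {D : Exterior n} {f u : E n → ℝ} {K : Field n}
    (hAF : D.IsAF) (hDEC : D.DEC) (hT : D.Trapped) {m : ℝ} (hm : D.IsEnergy m)
    (hB : Balls D.F c r) (hf : Smooth f) (hu : Smooth u)
    (hKs : ∀ i j, Smooth fun x => K x i j) (hKy : ∀ x i j, K x i j = K x j i)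
    (hg : ∀ x, 0 ≤ D.F x → ∀ i j, D.g x i j = gM f x i j)
    (hK : ∀ x, 0 ≤ D.F x → ∀ i j, D.K x i j = K x i j)
    (hlev : ∀ k x y, ‖x - c k‖ = r k → ‖y - c k‖ = r k → f x = f y)
    (hua : ∀ k x, ‖x - c k‖ = r k → ((n : ℝ) - 1) / r k * (√(W2 f x))⁻¹ +
      tt (nu (c k) (r k) x) (K x) ≤ 0 → u x * dn f (c k) (r k) x = -1)
    (htilt : ∀ x, 0 < D.F x → u x ^ 2 * (W2 f x - 1) ≤ 1)
    (hstar : ∀ x, 0 < D.F x → mu (gM f) K x + √(W2 f x) * pin (gM f) K f u x ≤ scal (gM f) x)
    (hdec : ∃ a, (n : ℝ) / 2 - 1 < a ∧ ∀ i, BigO a fun x => u x * pd i f x) :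
    (∑ k, r k ^ (n - 2)) / 2 ≤ m := by
  have hne : Nonempty (Fin n) := ⟨⟨0, by omega⟩⟩
  have hnt : Nontrivial (E n) := inferInstance
  have hω : 0 < Vale.Agent.P366.omega n := Vale.Agent.P366.omega_pos'
  have hn0 : 0 < (n : ℝ) - 1 := by
    have : (3 : ℝ) ≤ n := by exact_mod_cast hn
    linarith
  have hFs := D.dom.1
  have hFne := D.dom.2.1
  have hPs := smooth_momT hf hKs
  have hpf : ∀ i, Smooth (pf f (momT (gM f) K) i) := fun i =>
    ContDiff.sum fun j _ => ContDiff.mul (hPs i j) (smooth_pd hf j)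
  have hXs : ∀ i, Smooth (Xf f u (momT (gM f) K) i) := by
    intro i
    unfold Xf Yf qp
    refine ContDiff.mul (ContDiff.neg (ContDiff.mul hu (smooth_w hf))) (ContDiff.sub (hpf i) ?_)
    refine ContDiff.mul (ContDiff.mul (smooth_pd hf i) (ContDiff.sum fun j _ =>
      ContDiff.mul (smooth_pd hf j) (hpf j))) ((smooth_W2 hf).inv fun x => W2_ne f x)
  have hY : ∀ i, Smooth fun x => Vf f i x + Xf f u (momT (gM f) K) i x := fun i =>
    (smooth_Vf hf i).add (hXs i)
  have hlim := flux_inf hn hf hu hKs hg hK hAF hm hdec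
  obtain ⟨R0, hR0⟩ := D.dom.2.2.2
  -- the interior inequality
  have hpos : ∀ x, (∀ k, x ∉ closedBall (c k) (r k)) →
      0 ≤ dvg (fun i x => Vf f i x + Xf f u (momT (gM f) K) i x) x := by
    intro x hx
    have hx' : ∀ k, r k < ‖x - c k‖ := by
      intro k
      have := hx k
      simpa [dist_eq_norm] using this
    have hF0 := hB.pos_out hFs hFne hx'
    have hev : ∀ᶠ y in 𝓝 x, 0 < D.F y :=
      (isOpen_lt continuous_const hFs.continuous).mem_nhds hF0
    obtain ⟨h1, h2, h3, h4, h5⟩ := germ (hev.mono fun y hy i j => hg y hy.le i j)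
      (hev.mono fun y hy i j => hK y hy.le i j)
    rw [dvg_eq hY]
    refine div_nonneg' hf hu hKs (hKy x) ?_ (htilt x hF0) (hstar x hF0)
    have h6 := hDEC x hF0.le
    have h7 : covNorm D.g (mom D.g D.K) x = covNorm (gM f) (mom (gM f) K) x := by
      simp only [covNorm, h1, h4]
    rwa [h7, h3] at h6
  -- the boundary flux
  have hbd : ∀ k, r k ^ (n - 1) * (Vale.Agent.P366.omega n * (((n : ℝ) - 1) / r k)) ≤
      flc (c k) (fun i x => Vf f i x + Xf f u (momT (gM f) K) i x) (r k) := by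
    intro k
    refine flc_ge hY (c k) (hB.pos k) fun x hx => ?_
    have hL := level hf (hB.pos k) (hlev k) hx
    obtain ⟨b, hb, hLF⟩ := hB.lev hFs hFne hx
    have hF0 := hB.zero_sph hFs hx
    have h1 := hT x hF0
    have h2 : thetaPlus D.g D.K D.F x = thetaPlus (gM f) K D.F x := by
      refine thetaPlus_congr (hg x hF0.ge) (hK x hF0.ge) fun i j k => ?_
      exact pd_eq_of_eqOn hFs hFne (fun y hy => hg y hy i j) hF0.ge
        (diffAt (D.smooth i j).1 x) (diffAt (smooth_gM hf i j) x) k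
    rw [h2, theta_lev K hf (hB.pos k) hb hL hLF] at h1
    exact bdry_ge u K hL (hua k x hx h1) h1
  -- the flux inequality
  have hge : ∑ k, flc (c k) (fun i x => Vf f i x + Xf f u (momT (gM f) K) i x) (r k) ≤
      2 * (((n : ℝ) - 1) * Vale.Agent.P366.omega n * m) := by
    refine ge_of_tendsto hlim ?_
    filter_upwards [eventually_gt_atTop (max R0 0)] with ρ hρ
    refine flux_ge hY hB.pos hB.pw ((le_max_right _ _).trans_lt hρ) (fun k x hx => ?_) hpos
    rw [mem_closedBall, dist_zero_right]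
    by_contra hcon
    have h1 := hR0 x ((le_max_left _ _).trans_lt (hρ.trans (not_le.1 hcon)))
    have h2 : ‖x - c k‖ ≤ r k := by simpa [dist_eq_norm] using hx
    rcases h2.eq_or_lt with h3 | h3
    · rw [hB.zero_sph hFs h3] at h1
      exact lt_irrefl _ h1
    · exact absurd ((hB.dom x).2 ⟨k, h3⟩) (not_lt.2 h1.le)
  have h1 := (Finset.sum_le_sum fun k (_ : k ∈ Finset.univ) => hbd k).trans hge
  have h2 : ∀ k, r k ^ (n - 1) * (Vale.Agent.P366.omega n * (((n : ℝ) - 1) / r k)) =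
      (((n : ℝ) - 1) * Vale.Agent.P366.omega n) * r k ^ (n - 2) := by
    intro k
    have hr := hB.pos k
    have : r k ^ (n - 1) = r k ^ (n - 2) * r k := by
      rw [← pow_succ]; congr 1; omega
    rw [this]
    field_simp
  simp only [h2] at h1
  rw [← Finset.mul_sum] at h1
  have h3 : 0 < ((n : ℝ) - 1) * Vale.Agent.P366.omega n := mul_pos hn0 hω
  have h4 : 2 * (((n : ℝ) - 1) * Vale.Agent.P366.omega n * m) =
      (((n : ℝ) - 1) * Vale.Agent.P366.omega n) * (2 * m) := by ring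
  rw [h4] at h1
  have := le_of_mul_le_mul_left h1 h3
  linarith

/-- From the energy bound to the Penrose inequality. -/
theorem penrose_of (hn : 3 ≤ n) {D : Exterior n} {f : E n → ℝ} {m : ℝ}
    (hB : Balls D.F c r) (hf : Smooth f)
    (hg : ∀ x, 0 ≤ D.F x → ∀ i j, D.g x i j = gM f x i j)
    (hlev : ∀ k x y, ‖x - c k‖ = r k → ‖y - c k‖ = r k → f x = f y)
    (hE : (∑ k, r k ^ (n - 2)) / 2 ≤ m) :
    D.Amin ≠ ⊤ ∧ 0 < m ∧ (∑ k, r k ^ (n - 2)) / 2 ≤ m ∧
      (D.Amin.toReal / omega n) ^ (((n : ℝ) - 2) / (n - 1)) / 2 ≤ m := by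
  have hne : Nonempty (Fin n) := ⟨⟨0, by omega⟩⟩
  have hnt : Nontrivial (E n) := inferInstance
  have hω : 0 < Vale.Agent.P366.omega n := Vale.Agent.P366.omega_pos'
  have hn3 : (3 : ℝ) ≤ n := by exact_mod_cast hn
  have hA := amin_le (by omega) hf hB hg hlev
  have htop : D.Amin ≠ ⊤ := ne_top_of_le_ne_top ENNReal.ofReal_ne_top hA
  have hι : Nonempty ι := by
    by_contra hcon
    rw [not_nonempty_iff] at hcon
    obtain ⟨x, hx⟩ := D.bdry
    have := hB.pos_out D.dom.1 D.dom.2.1 (x := x) fun k => (hcon.false k).elim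
    rw [hx] at this
    exact lt_irrefl _ this
  have hS : 0 < ∑ k, r k ^ (n - 2) :=
    Finset.sum_pos (fun k _ => pow_pos (hB.pos k) _) Finset.univ_nonempty
  refine ⟨htop, by linarith, hE, ?_⟩
  have hS1 : 0 ≤ ∑ k, r k ^ (n - 1) := Finset.sum_nonneg fun k _ => (pow_pos (hB.pos k) _).le
  have h1 : D.Amin.toReal ≤ Vale.Agent.P366.omega n * ∑ k, r k ^ (n - 1) := by
    have := ENNReal.toReal_mono ENNReal.ofReal_ne_top hA
    rwa [ENNReal.toReal_ofReal (mul_nonneg hω.le hS1)] at this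
  have h2 : D.Amin.toReal / omega n ≤ ∑ k, r k ^ (n - 1) := by
    rw [Vale.Agent.P366.omega_eq, div_le_iff₀ hω]
    linarith
  set p : ℝ := ((n : ℝ) - 2) / (n - 1) with hp
  have hp0 : 0 < p := div_pos (by linarith) (by linarith)
  have hp1 : p ≤ 1 := by rw [hp, div_le_one (by linarith)]; linarith
  have h3 : (D.Amin.toReal / omega n) ^ p ≤ (∑ k, r k ^ (n - 1)) ^ p := by
    refine Real.rpow_le_rpow ?_ h2 hp0.le
    rw [Vale.Agent.P366.omega_eq]
    exact div_nonneg ENNReal.toReal_nonneg hω.le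
  have h4 := rpow_sum_le Finset.univ (fun k => r k ^ (n - 1))
    (fun k => (pow_pos (hB.pos k) _).le) hp0 hp1
  have h5 : ∀ k, (r k ^ (n - 1)) ^ p = r k ^ (n - 2) := by
    intro k
    rw [← Real.rpow_natCast, ← Real.rpow_mul (hB.pos k).le, ← Real.rpow_natCast]
    congr 1
    rw [hp, Nat.cast_sub (by omega), Nat.cast_sub (by omega)]
    push_cast
    have : (n : ℝ) - 1 ≠ 0 := by linarith
    field_simp
  simp only [h5] at h4
  linarith

end

end Vale.Agent.H45G
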