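import Vale.Agent.P366.H45.G13
import Vale.Agent.P366.H45.Data

/-! The final theorem. -/

open MeasureTheory Metric Filter Topology Set
open scoped ContDiff ENNReal

noncomputable section
namespace Vale.Agent.H45G
open Vale.Agent.P366.Stmt
open Vale.Agent.P366.GraphClass

variable {n : ℕ}

lemma slope_eq (f : E n → ℝ) (x : E n) : slope f x = √(W2 f x) := rfl

lemma pin_eq' (g K : Field n) (f u : E n → ℝ) (x : E n) : piNabla g K f u x = pin g K f u x := by
  unfold piNabla pin
  simp only [add_comm (pd _ u x * pd _ f x)]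

lemma symm_kS {f : E n → ℝ} (hf : Smooth f) (σ : E n → ℝ) (x : E n) (i j : Fin n) :
    kS f σ x i j = kS f σ x j i := by
  unfold kS; rw [sym2 hf i j]

theorem final (hn : 3 ≤ n) (D : Exterior n) (hAF : D.IsAF) (hDEC : D.DEC)
    (hT : D.Trapped) (m : ℝ) (hm : D.IsEnergy m)
    {ι : Type} [Fintype ι] (c : ι → E n) (r : ι → ℝ) (hr : ∀ k, 0 < r k)
    (hsep : ∀ j k, j ≠ k → r j + r k < len (c j - c k))
    (hS : ∀ x, D.F x < 0 ↔ ∃ k, len (x - c k) < r k)
    (f u : E n → ℝ) (hf : Smooth f) (hu : Smooth u)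
    (hlev : ∀ k x y, len (x - c k) = r k → len (y - c k) = r k → f x = f y)
    (hg : ∀ x, 0 ≤ D.F x → ∀ i j, D.g x i j = graphMetric f x i j)
    (htilt : ∀ x, 0 ≤ D.F x → u x ^ 2 * ∑ i, pd i f x ^ 2 ≤ 1)
    (hdec : ∃ a : ℝ, (n : ℝ) / 2 - 1 < a ∧ ∀ i, BigO a fun x => u x * pd i f x)
    (hK : (∀ x, 0 ≤ D.F x → ∀ i j, D.K x i j = u x * secondForm f x i j) ∨
      ((∀ k x, len (x - c k) = r k → u x * ∑ i, (x i - c k i) / r k * pd i f x = -1) ∧
        ∀ x, 0 < D.F x → mu D.g D.K x + slope f x * piNabla D.g D.K f u x ≤ scal D.g x)) :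
    D.Amin ≠ ⊤ ∧ 0 < m ∧ (∑ k, r k ^ (n - 2)) / 2 ≤ m ∧
      (D.Amin.toReal / omega n) ^ (((n : ℝ) - 2) / (n - 1)) / 2 ≤ m := by
  have hB : Balls D.F c r := ⟨hr, hsep, hS⟩
  have hg' : ∀ x, 0 ≤ D.F x → ∀ i j, D.g x i j = gM f x i j := hg
  have hW : ∀ x, W2 f x - 1 = ∑ i, pd i f x ^ 2 := fun x => by unfold W2; ring
  have htilt' : ∀ x, 0 ≤ D.F x → u x ^ 2 * (W2 f x - 1) ≤ 1 := fun x hx => by
    rw [hW]; exact htilt x hx
  refine penrose_of hn hB hf hg' hlev ?_
  have hne : Nonempty (Fin n) := ⟨⟨0, by omega⟩⟩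
  have hn0 : 0 < (n : ℝ) - 1 := by
    have : (3 : ℝ) ≤ n := by exact_mod_cast hn
    linarith
  rcases hK with hK | ⟨hua, hstar⟩
  · -- `K = u A`
    have hK' : ∀ x, 0 ≤ D.F x → ∀ i j, D.K x i j = kS f (sg f u) x i j := by
      intro x hx i j
      rw [hK x hx]
      unfold secondForm kS sg
      rw [slope_eq]
      ring
    have hKs : ∀ i j, Smooth fun x => kS f (sg f u) x i j := fun i j =>
      ContDiff.mul (smooth_sg hf hu) (smooth_pd (smooth_pd hf j) i)
    refine energy_ge hn hAF hDEC hT hm hB hf hu hKs (fun x i j => symm_kS hf _ x i j) hg' hK' hlev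
      ?_ (fun x hx => htilt' x hx.le) ?_ hdec
    · intro k x hx hth
      have hL := level hf (hr k) (hlev k) hx
      set a := dn f (c k) (r k) x with ha
      rw [tt_kS hL] at hth
      have hw : 0 < (√(W2 f x))⁻¹ := inv_pos.2 (Real.sqrt_pos.2 (W2_pos f x))
      have h1 : ((n : ℝ) - 1) / r k * (√(W2 f x))⁻¹ +
          sg f u x * (((n : ℝ) - 1) / r k * a) =
          (((n : ℝ) - 1) / r k * (√(W2 f x))⁻¹) * (1 + u x * a) := by
        unfold sg; ring
      rw [h1] at hth
      have h2 : 0 < ((n : ℝ) - 1) / r k * (√(W2 f x))⁻¹ := mul_pos (div_pos hn0 (hr k)) hw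
      have h3 : 1 + u x * a ≤ 0 := by
        by_contra hcon
        exact absurd hth (not_le.2 (mul_pos h2 (not_le.1 hcon)))
      have h4 := htilt' x (hB.nonneg_sph hx)
      have h5 : W2 f x - 1 = a ^ 2 := by rw [W2_lev hL]; ring
      rw [h5, ← mul_pow] at h4
      have h6 := abs_le_of_sq_le_sq' (a := u x * a) (b := 1) (by simpa using h4) zero_le_one
      linarith [h6.1]
    · intro x hx
      have hev : ∀ᶠ y in 𝓝 x, 0 < D.F y :=
        (isOpen_lt continuous_const D.dom.1.continuous).mem_nhds hx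
      obtain ⟨h1, h2, h3, h4, h5⟩ := germ (hev.mono fun y hy i j => hg' y hy.le i j)
        (hev.mono fun y hy i j => hK' y hy.le i j)
      refine star_kS hf hu ?_ (htilt' x hx.le)
      have h6 := hDEC x hx.le
      have h7 : covNorm D.g (mom D.g D.K) x =
          covNorm (gM f) (mom (gM f) (kS f (sg f u))) x := by
        simp only [covNorm, h1, h4]
      rwa [h7, h3] at h6
  · -- general `K`
    refine energy_ge hn hAF hDEC hT hm hB hf hu (fun i j => (D.smooth i j).2)
      (fun x i j => (D.symm x i j).2) hg' (fun x _ i j => rfl) hlev ?_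
      (fun x hx => htilt' x hx.le) ?_ hdec
    · intro k x hx _
      exact hua k x hx
    · intro x hx
      have hev : ∀ᶠ y in 𝓝 x, 0 < D.F y :=
        (isOpen_lt continuous_const D.dom.1.continuous).mem_nhds hx
      obtain ⟨h1, h2, h3, h4, h5⟩ := germ (K := D.K) (K' := D.K)
        (hev.mono fun y hy i j => hg' y hy.le i j)
        (Eventually.of_forall fun y i j => rfl)
      have h6 := hstar x hx
      rw [pin_eq', h5, h3, h2] at h6
      exact h6

end Vale.Agent.H45G
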