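import Vale.Agent.P366.H45.G13

/-! The case `K = u A + M` with `M(∂f) = (tr M) ∂f`. -/

open MeasureTheory Metric Filter Topology Set
open scoped ContDiff ENNReal

noncomputable section
namespace Vale.Agent.H45G
open Vale.Agent.P366.Stmt
open Vale.Agent.P366.T2 (HP)

variable {n : ℕ}

/-- Euclidean trace. -/
def te (M : Field n) (x : E n) : ℝ := ∑ k, M x k k

/-- `M(∂f) = (tr M) ∂f` at `x`. -/
def Row (f : E n → ℝ) (M : Field n) (x : E n) : Prop :=
  ∀ i, ∑ j, M x i j * pd j f x = te M x * pd i f x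

lemma tr_row {f : E n → ℝ} {M : Field n} {x : E n} (h : Row f M x) :
    tr (gM f) M x = te M x / W2 f x := by
  unfold tr
  simp only [up_gM]
  rw [contr]
  have e : ∑ i, ∑ j, pd i f x * pd j f x * M x i j = te M x * (W2 f x - 1) := by
    rw [← sum_sq, Finset.mul_sum]
    refine Finset.sum_congr rfl fun i _ => ?_
    have := h i
    calc ∑ j, pd i f x * pd j f x * M x i j = pd i f x * ∑ j, M x i j * pd j f x := by
          rw [Finset.mul_sum]; exact Finset.sum_congr rfl fun j _ => by ring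
      _ = te M x * (pd i f x * pd i f x) := by rw [this]; ring
  rw [e]
  have := W2_ne f x
  unfold te
  field_simp
  ring

lemma normSq_row {f : E n → ℝ} {M : Field n} {x : E n} (h : Row f M x)
    (hs : ∀ i j, M x i j = M x j i) :
    normSq (gM f) M x = (∑ i, ∑ j, M x i j ^ 2) - te M x ^ 2 + (te M x / W2 f x) ^ 2 := by
  unfold normSq
  have hcol : ∀ j, ∑ i, pd i f x * M x i j = te M x * pd j f x := by
    intro j
    rw [← h j]
    exact Finset.sum_congr rfl fun i _ => by rw [hs i j]; ring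
  have h1 : ∀ i, ∑ j, ∑ k, ∑ l, up (gM f) i k x * up (gM f) j l x * M x i j * M x k l =
      ∑ k, up (gM f) i k x * (∑ j, M x i j * M x k j -
        (te M x * pd i f x) * (te M x * pd k f x) / W2 f x) := by
    intro i
    rw [Finset.sum_comm]
    refine Finset.sum_congr rfl fun k _ => ?_
    have h2 : ∑ j, ∑ l, up (gM f) j l x * (M x i j * M x k l) =
        ∑ j, M x i j * M x k j - (te M x * pd i f x) * (te M x * pd k f x) / W2 f x := by
      simp only [up_gM]
      rw [contr]
      have e2 : ∑ j, ∑ l, pd j f x * pd l f x * (M x i j * M x k l) =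
          (te M x * pd i f x) * (te M x * pd k f x) := by
        rw [← h i, ← h k, Finset.sum_mul_sum]
        exact Finset.sum_congr rfl fun j _ => Finset.sum_congr rfl fun l _ => by ring
      rw [e2]
    rw [← h2, Finset.mul_sum]
    refine Finset.sum_congr rfl fun j _ => ?_
    rw [Finset.mul_sum]
    exact Finset.sum_congr rfl fun l _ => by ring
  simp only [h1]
  simp only [up_gM]
  rw [contr]
  set τ := te M x with hτ
  have e1 : ∑ i, (∑ j, M x i j * M x i j - (τ * pd i f x) * (τ * pd i f x) / W2 f x) =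
      (∑ i, ∑ j, M x i j ^ 2) - τ ^ 2 * (W2 f x - 1) / W2 f x := by
    rw [Finset.sum_sub_distrib, ← sum_sq, Finset.mul_sum, Finset.sum_div]
    congr 1
    · exact Finset.sum_congr rfl fun i _ => Finset.sum_congr rfl fun j _ => by ring
    · exact Finset.sum_congr rfl fun i _ => by ring
  have e2 : ∑ i, ∑ j, pd i f x * pd j f x *
      (∑ l, M x i l * M x j l - (τ * pd i f x) * (τ * pd j f x) / W2 f x) =
      τ ^ 2 * (W2 f x - 1) - τ ^ 2 * (W2 f x - 1) ^ 2 / W2 f x := by
    have a1 : ∀ i j, pd i f x * pd j f x *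
        (∑ l, M x i l * M x j l - (τ * pd i f x) * (τ * pd j f x) / W2 f x) =
        (∑ l, (pd i f x * M x i l) * (pd j f x * M x j l)) -
        (pd i f x * pd i f x) * (pd j f x * pd j f x) * (τ ^ 2 / W2 f x) := by
      intro i j
      rw [mul_sub, Finset.mul_sum]
      congr 1
      · exact Finset.sum_congr rfl fun l _ => by ring
      · ring
    simp only [a1, Finset.sum_sub_distrib, ← Finset.sum_mul]
    rw [← Finset.sum_mul_sum, sum_sq]
    have a2 : ∑ i, ∑ j, ∑ l, (pd i f x * M x i l) * (pd j f x * M x j l) =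
        τ ^ 2 * (W2 f x - 1) := by
      have b1 : ∀ i, ∑ j, ∑ l, (pd i f x * M x i l) * (pd j f x * M x j l) =
          ∑ l, (pd i f x * M x i l) * (τ * pd l f x) := by
        intro i
        rw [Finset.sum_comm]
        refine Finset.sum_congr rfl fun l _ => ?_
        rw [← Finset.mul_sum, hcol]
      simp only [b1]
      rw [Finset.sum_comm]
      have b2 : ∀ l, ∑ i, (pd i f x * M x i l) * (τ * pd l f x) =
          τ ^ 2 * (pd l f x * pd l f x) := by
        intro l
        rw [← Finset.sum_mul, hcol]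
        ring
      simp only [b2]
      rw [← Finset.mul_sum, sum_sq]
    rw [a2]
    ring
  rw [e1, e2]
  have := W2_ne f x
  field_simp
  ring

lemma pf_row {f : E n → ℝ} {M : Field n} {x : E n} (h : Row f M x) (i : Fin n) :
    pf f (momT (gM f) M) i x = 0 := by
  unfold pf momT
  have : ∀ j, (M x i j - tr (gM f) M x * gM f x i j) * pd j f x =
      M x i j * pd j f x - tr (gM f) M x * (pd j f x * gM f x i j) := by
    intro j; ring
  simp only [this, Finset.sum_sub_distrib, ← Finset.mul_sum]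
  rw [g_contr, h i, tr_row h]
  have := W2_ne f x
  field_simp
  ring

lemma IP_momT_row {f : E n → ℝ} (hf : Smooth f) {M : Field n} {x : E n} (h : Row f M x)
    (hs : ∀ i j, M x i j = M x j i) :
    IP f (momT (gM f) M) x = (∑ i, ∑ j, M x i j * pd i (pd j f) x) -
      te M x / W2 f x * (lap f x + Qf f x) := by
  rw [IP_eq hf (symm_momT hs)]
  have h0 : qp f (momT (gM f) M) x = 0 := by
    unfold qp
    simp only [pf_row h, mul_zero, Finset.sum_const_zero]
  simp only [pf_row h, h0, mul_zero, Finset.sum_const_zero, zero_div, sub_zero, add_zero]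
  have h1 : ∀ i, Bf f (momT (gM f) M) i i x = (∑ j, M x i j * pd i (pd j f) x) -
      te M x / W2 f x * (pd i (pd i f) x + pd i f x * pv f i x) := by
    intro i
    unfold Bf momT
    rw [tr_row h]
    have h2 : ∀ j, (M x i j - te M x / W2 f x * gM f x i j) * pd i (pd j f) x =
        M x i j * pd i (pd j f) x -
        ((if i = j then te M x / W2 f x * pd i (pd j f) x else 0) +
          te M x / W2 f x * pd i f x * (pd j f x * pd i (pd j f) x)) := by
      intro j
      unfold gM
      split_ifs <;> ring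
    simp only [h2, Finset.sum_sub_distrib, Finset.sum_add_distrib, Finset.sum_ite_eq,
      Finset.mem_univ, if_true, ← Finset.mul_sum]
    unfold pv
    ring
  simp only [h1, Finset.sum_sub_distrib, ← Finset.mul_sum, Finset.sum_add_distrib]
  rfl

lemma IP_row {f : E n → ℝ} (hf : Smooth f) {M : Field n} {x : E n} (h : Row f M x)
    (hs : ∀ i j, M x i j = M x j i) :
    IP f M x = (∑ i, ∑ j, M x i j * pd i (pd j f) x) - 2 * te M x * Qf f x / W2 f x +
      Qf f x * (te M x * (W2 f x - 1)) / W2 f x ^ 2 := by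
  rw [IP_eq hf hs]
  have hp : ∀ i, pf f M i x = te M x * pd i f x := fun i => h i
  have h0 : qp f M x = te M x * (W2 f x - 1) := by
    unfold qp
    rw [← sum_sq, Finset.mul_sum]
    exact Finset.sum_congr rfl fun i _ => by rw [hp]; ring
  rw [h0]
  have h2 : ∑ i, pv f i x * pf f M i x = te M x * Qf f x := by
    unfold Qf
    rw [Finset.mul_sum]
    exact Finset.sum_congr rfl fun i _ => by rw [hp]; ring
  rw [h2]
  unfold Bf
  ring

/-- Expansion of the norm. -/
lemma normSq_add (f σ : E n → ℝ) (K M : Field n) (x : E n)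
    (hK : ∀ i j, K x i j = kS f σ x i j + M x i j) :
    normSq (gM f) K x = normSq (gM f) (kS f σ) x + 2 * (σ x * IP f M x) +
      normSq (gM f) M x := by
  have hswap : ∀ F : Fin n → Fin n → Fin n → Fin n → ℝ,
      ∑ i, ∑ j, ∑ k, ∑ l, F i j k l = ∑ i, ∑ j, ∑ k, ∑ l, F k l i j := by
    intro F
    have e1 : ∑ i, ∑ j, ∑ k, ∑ l, F i j k l =
        ∑ p : Fin n × Fin n, ∑ q : Fin n × Fin n, F p.1 p.2 q.1 q.2 := by
      simp only [Fintype.sum_prod_type]
    have e2 : ∑ i, ∑ j, ∑ k, ∑ l, F k l i j =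
        ∑ p : Fin n × Fin n, ∑ q : Fin n × Fin n, F q.1 q.2 p.1 p.2 := by
      simp only [Fintype.sum_prod_type]
    rw [e1, e2, Finset.sum_comm]
  have hup : ∀ i j, up (gM f) i j x = up (gM f) j i x := by
    intro i j
    rw [up_gM, up_gM]
    simp only [eq_comm (a := i)]
    ring
  have hIP : σ x * IP f M x =
      ∑ i, ∑ j, ∑ k, ∑ l, up (gM f) i k x * up (gM f) j l x * M x i j * kS f σ x k l := by
    unfold IP
    rw [Finset.mul_sum]
    refine Finset.sum_congr rfl fun i _ => ?_
    rw [Finset.sum_comm, Finset.mul_sum]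
    refine Finset.sum_congr rfl fun k _ => ?_
    simp only [Finset.mul_sum]
    refine Finset.sum_congr rfl fun j _ => Finset.sum_congr rfl fun l _ => ?_
    unfold kS
    ring
  have hIP2 : σ x * IP f M x =
      ∑ i, ∑ j, ∑ k, ∑ l, up (gM f) i k x * up (gM f) j l x * kS f σ x i j * M x k l := by
    rw [hIP, hswap]
    refine Finset.sum_congr rfl fun i _ => Finset.sum_congr rfl fun j _ =>
      Finset.sum_congr rfl fun k _ => Finset.sum_congr rfl fun l _ => ?_
    rw [hup k i, hup l j]
    ring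
  have : 2 * (σ x * IP f M x) =
      (∑ i, ∑ j, ∑ k, ∑ l, up (gM f) i k x * up (gM f) j l x * kS f σ x i j * M x k l) +
      ∑ i, ∑ j, ∑ k, ∑ l, up (gM f) i k x * up (gM f) j l x * M x i j * kS f σ x k l := by
    rw [← hIP, ← hIP2]; ring
  rw [this]
  unfold normSq
  simp only [← Finset.sum_add_distrib]
  refine Finset.sum_congr rfl fun i _ => Finset.sum_congr rfl fun j _ =>
    Finset.sum_congr rfl fun k _ => Finset.sum_congr rfl fun l _ => ?_
  rw [hK, hK]
  ring

/-- The momentum density for `K = u A`. -/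
lemma mom_kS {f u : E n → ℝ} (hf : Smooth f) (hu : Smooth u) (x : E n) :
    u x * (√(W2 f x))⁻¹ * (∑ j, pd j f x * mom (gM f) (kS f (sg f u)) j x) =
      (∑ i, pd i u x * Yf f (momT (gM f) (kS f (sg f u))) i x) * (√(W2 f x))⁻¹ := by
  have hW := W2_pos f x
  have hww : √(W2 f x) ^ 2 = W2 f x := Real.sq_sqrt hW.le
  have hw : 0 < √(W2 f x) := Real.sqrt_pos.2 hW
  rw [mom_gM hf (smooth_sg hf hu)]
  have hsd : ∀ i, pd i (sg f u) x = pd i u x * (√(W2 f x))⁻¹ +
      u x * -(pv f i x / (W2 f x * √(W2 f x))) := fun i =>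
    ((hp hu i x).mul (HP_w hf i x)).pd
  have e1 : ∑ i, pd i (sg f u) x * pv f i x = (∑ i, pd i u x * pv f i x) * (√(W2 f x))⁻¹ -
      P2 f x * (u x / (W2 f x * √(W2 f x))) := by
    unfold P2
    rw [Finset.sum_mul, Finset.sum_mul, ← Finset.sum_sub_distrib]
    exact Finset.sum_congr rfl fun i _ => by rw [hsd]; ring
  have e2 : ∑ i, pd i (sg f u) x * pd i f x = (∑ i, pd i u x * pd i f x) * (√(W2 f x))⁻¹ -
      Qf f x * (u x / (W2 f x * √(W2 f x))) := by
    unfold Qf
    rw [Finset.sum_mul, Finset.sum_mul, ← Finset.sum_sub_distrib]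
    exact Finset.sum_congr rfl fun i _ => by rw [hsd]; ring
  have e3 : ∑ i, pd i u x * Yf f (momT (gM f) (kS f (sg f u))) i x =
      -(sg f u x * ((∑ i, pd i u x * pd i f x) * lap f x - ∑ i, pd i u x * pv f i x)) := by
    rw [Finset.sum_mul, ← Finset.sum_sub_distrib, Finset.mul_sum, ← Finset.sum_neg_distrib]
    refine Finset.sum_congr rfl fun i _ => ?_
    rw [Y_kS]
    unfold Vf
    have := W2_ne f x
    field_simp
  rw [e1, e2, e3]
  unfold sg
  have := W2_ne f x
  field_simp
  ring

/-- The condition of the general theorem follows from the dominant energy condition when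
`K = u A + M` with `M(∂f) = (tr M) ∂f` and `(tr M)² ≤ |M|²`. -/
theorem star_row {f u : E n → ℝ} (hf : Smooth f) (hu : Smooth u) {K : Field n}
    (hKs : ∀ i j, Smooth fun x => K x i j) (hKy : ∀ x i j, K x i j = K x j i) {x : E n}
    (hrow : ∀ᶠ y in 𝓝 x, Row f (fun y i j => K y i j - kS f (sg f u) y i j) y)
    (hM : (∑ k, (K x k k - kS f (sg f u) x k k)) ^ 2 ≤
      ∑ i, ∑ j, (K x i j - kS f (sg f u) x i j) ^ 2)
    (hdec : covNorm (gM f) (mom (gM f) K) x ≤ mu (gM f) K x)
    (htilt : u x ^ 2 * (W2 f x - 1) ≤ 1) :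
    mu (gM f) K x + √(W2 f x) * pin (gM f) K f u x ≤ scal (gM f) x := by
  set K0 : Field n := kS f (sg f u) with hK0
  set M : Field n := fun y i j => K y i j - K0 y i j with hMd
  have hW := W2_pos f x
  have hww : √(W2 f x) ^ 2 = W2 f x := Real.sq_sqrt hW.le
  have hw : 0 < √(W2 f x) := Real.sqrt_pos.2 hW
  have hK0s : ∀ i j, Smooth fun x => K0 x i j := fun i j =>
    ContDiff.mul (smooth_sg hf hu) (smooth_pd (smooth_pd hf j) i)
  have hK0y : ∀ x i j, K0 x i j = K0 x j i := fun x i j => by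
    rw [hK0]; unfold kS; rw [sym2 hf i j]
  have hMy : ∀ x i j, M x i j = M x j i := fun x i j => by
    simp only [hMd]; rw [hKy x i j, hK0y x i j]
  have hadd : ∀ y i j, K y i j = K0 y i j + M y i j := fun y i j => by simp only [hMd]; ring
  have hr0 := hrow.self_of_nhds
  have htr : ∀ y, tr (gM f) K y = tr (gM f) K0 y + tr (gM f) M y := by
    intro y
    unfold tr
    simp only [← Finset.sum_add_distrib]
    exact Finset.sum_congr rfl fun i _ => Finset.sum_congr rfl fun j _ => by
      rw [hadd]; ring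
  have hmomT : ∀ y i j, momT (gM f) K y i j = momT (gM f) K0 y i j + momT (gM f) M y i j := by
    intro y i j
    unfold momT
    rw [htr, hadd]; ring
  -- the rows agree
  have hpf : ∀ y, Row f M y → ∀ i, pf f (momT (gM f) K) i y = pf f (momT (gM f) K0) i y := by
    intro y hy i
    have h1 : pf f (momT (gM f) K) i y = pf f (momT (gM f) K0) i y +
        pf f (momT (gM f) M) i y := by
      unfold pf
      rw [← Finset.sum_add_distrib]
      exact Finset.sum_congr rfl fun j _ => by rw [hmomT]; ring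
    rw [h1, pf_row hy, add_zero]
  have hqp : ∀ y, Row f M y → qp f (momT (gM f) K) y = qp f (momT (gM f) K0) y := by
    intro y hy
    unfold qp
    exact Finset.sum_congr rfl fun i _ => by rw [hpf y hy]
  have hY : ∀ y, Row f M y → ∀ i, Yf f (momT (gM f) K) i y = Yf f (momT (gM f) K0) i y := by
    intro y hy i
    unfold Yf
    rw [hpf y hy, hqp y hy]
  have hX : ∀ i, Xf f u (momT (gM f) K) i =ᶠ[𝓝 x] Xf f u (momT (gM f) K0) i := by
    intro i
    filter_upwards [hrow] with y hy
    unfold Xf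
    rw [hY y hy]
  have hd : ∑ i, pd i (Xf f u (momT (gM f) K) i) x =
      ∑ i, pd i (Xf f u (momT (gM f) K0) i) x :=
    Finset.sum_congr rfl fun i _ => pd_congr' (hX i) i
  rw [div_Xf hf hu (smooth_momT hf hKs) (symm_momT (hKy x)),
    div_Xf hf hu (smooth_momT hf hK0s) (symm_momT (hK0y x))] at hd
  have hYs : ∑ i, pd i u x * Yf f (momT (gM f) K) i x =
      ∑ i, pd i u x * Yf f (momT (gM f) K0) i x :=
    Finset.sum_congr rfl fun i _ => by rw [hY x hr0]
  have h1 := J_bound hdec htilt
  have h2 := mom_kS hf hu x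
  rw [← hK0] at h2
  unfold mom at h1 h2
  have h3 : IP f (momT (gM f) K) x = IP f (momT (gM f) K0) x + IP f (momT (gM f) M) x := by
    unfold IP
    rw [← Finset.sum_add_distrib]
    refine Finset.sum_congr rfl fun i _ => ?_
    rw [← Finset.sum_add_distrib]
    refine Finset.sum_congr rfl fun k _ => ?_
    rw [← mul_add, ← Finset.sum_add_distrib]
    congr 1
    refine Finset.sum_congr rfl fun j _ => ?_
    rw [← Finset.sum_add_distrib]
    exact Finset.sum_congr rfl fun l _ => by rw [hmomT]; ring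
  have h4 : IP f (momT (gM f) K0) x = -(sg f u x * W2 f x * Sc f x) := IP_kS hf _ x
  have h5 := IP_momT_row hf hr0 (hMy x)
  have h6 := IP_row hf hr0 (hMy x)
  have h7 := normSq_add f (sg f u) K M x (hadd x)
  have h8 := normSq_row hr0 (hMy x)
  have h9 := tr_row hr0
  have h10 : tr (gM f) K0 x = sg f u x * H45G.hf f x := tr_gM f (sg f u) x
  have h11 := mu_gM hf (sg f u) x
  have h12 : te M x ^ 2 ≤ ∑ i, ∑ j, M x i j ^ 2 := hM
  have h13 : sg f u x ^ 2 * W2 f x = u x ^ 2 := by
    unfold sg
    rw [mul_pow, inv_pow, hww]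
    have := W2_ne f x
    field_simp
  have h14 : u x * (√(W2 f x))⁻¹ = sg f u x := rfl
  rw [pin_eq hf, hYs, h14]
  rw [hYs, h14] at hd
  rw [h14] at h1 h2
  have hWn := W2_ne f x
  -- the quadratic form
  have hQ : tr (gM f) K x ^ 2 - normSq (gM f) K x + 2 * (sg f u x * IP f (momT (gM f) K) x) +
      sg f u x ^ 2 * W2 f x * Sc f x ≤ 0 := by
    have q1 : tr (gM f) K0 x ^ 2 - normSq (gM f) K0 x = sg f u x ^ 2 * W2 f x * Sc f x := by
      have := h11
      unfold mu at this
      rw [scal_gM hf, ← hK0] at this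
      linarith
    rw [h7, htr, h3, h4, h5, h6, h8, h9]
    have q2 : tr (gM f) K0 x ^ 2 = sg f u x ^ 2 * W2 f x * Sc f x + normSq (gM f) K0 x := by
      linarith
    set S := ∑ i, ∑ j, M x i j * pd i (pd j f) x with hS
    set N := ∑ i, ∑ j, M x i j ^ 2 with hN
    set τ := te M x with hτ
    set σ := sg f u x with hσ
    have q3 : (tr (gM f) K0 x + τ / W2 f x) ^ 2 =
        tr (gM f) K0 x ^ 2 + 2 * (σ * H45G.hf f x) * (τ / W2 f x) + (τ / W2 f x) ^ 2 := by
      rw [h10]; ring
    rw [q3, q2]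
    have q4 : σ ^ 2 * W2 f x * Sc f x + normSq (gM f) K0 x + 2 * (σ * H45G.hf f x) * (τ / W2 f x) +
        (τ / W2 f x) ^ 2 - (normSq (gM f) K0 x + 2 * (σ * (S - 2 * τ * Qf f x / W2 f x +
          Qf f x * (τ * (W2 f x - 1)) / W2 f x ^ 2)) + (N - τ ^ 2 + (τ / W2 f x) ^ 2)) +
        2 * (σ * (-(σ * W2 f x * Sc f x) + (S - τ / W2 f x * (lap f x + Qf f x)))) +
        σ ^ 2 * W2 f x * Sc f x = τ ^ 2 - N := by
      unfold H45G.hf
      field_simp
      ring
    rw [q4]
    linarith
  have h15 : mu (gM f) K x = (Sc f x + tr (gM f) K x ^ 2 - normSq (gM f) K x) / 2 := by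
    unfold mu; rw [scal_gM hf]
  rw [scal_gM hf]
  rw [h4] at hd
  have h16 : sg f u x * -(sg f u x * W2 f x * Sc f x) = -(sg f u x ^ 2 * W2 f x * Sc f x) := by
    ring
  rw [h16] at hd
  linarith

end Vale.Agent.H45G
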