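import Vale.Agent.P366.H45.G15
import Vale.Agent.P366.H45.G14

/-! The final theorem, extended class. -/

open MeasureTheory Metric Filter Topology Set
open scoped ContDiff ENNReal

noncomputable section
namespace Vale.Agent.H45G
open Vale.Agent.P366.Stmt
open Vale.Agent.P366.GraphClass

variable {n : ℕ}

/-- Where `∂f ≠ 0` the inequality `(tr M)² ≤ |M|²` is automatic. -/
lemma row_sq {f : E n → ℝ} {M : Field n} {x : E n} (h : Row f M x)
    (h0 : ¬ ∀ i, pd i f x = 0) : te M x ^ 2 ≤ ∑ i, ∑ j, M x i j ^ 2 := by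
  have hpos : 0 < W2 f x - 1 := by
    rw [← sum_sq]
    push Not at h0
    obtain ⟨i, hi⟩ := h0
    exact Finset.sum_pos' (fun j _ => mul_self_nonneg _)
      ⟨i, Finset.mem_univ i, mul_self_pos.2 hi⟩
  have h1 : ∑ p : Fin n × Fin n, (pd p.1 f x * pd p.2 f x) * M x p.1 p.2 =
      te M x * (W2 f x - 1) := by
    rw [Fintype.sum_prod_type, ← sum_sq, Finset.mul_sum]
    refine Finset.sum_congr rfl fun i _ => ?_
    have := h i
    calc ∑ j, (pd i f x * pd j f x) * M x i j = pd i f x * ∑ j, M x i j * pd j f x := by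
          rw [Finset.mul_sum]; exact Finset.sum_congr rfl fun j _ => by ring
      _ = te M x * (pd i f x * pd i f x) := by rw [this]; ring
  have h2 := Finset.sum_mul_sq_le_sq_mul_sq Finset.univ
    (fun p : Fin n × Fin n => pd p.1 f x * pd p.2 f x) (fun p => M x p.1 p.2)
  rw [h1] at h2
  have h3 : ∑ p : Fin n × Fin n, (pd p.1 f x * pd p.2 f x) ^ 2 = (W2 f x - 1) ^ 2 := by
    rw [Fintype.sum_prod_type, ← sum_sq, sq, Finset.sum_mul_sum]
    exact Finset.sum_congr rfl fun i _ => Finset.sum_congr rfl fun j _ => by ring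
  have h4 : ∑ p : Fin n × Fin n, M x p.1 p.2 ^ 2 = ∑ i, ∑ j, M x i j ^ 2 := by
    rw [Fintype.sum_prod_type]
  rw [h3, h4, mul_pow, mul_comm] at h2
  exact le_of_mul_le_mul_left h2 (pow_pos hpos 2)

theorem final' (hn : 3 ≤ n) (D : Exterior n) (hAF : D.IsAF) (hDEC : D.DEC)
    (hT : D.Trapped) (m : ℝ) (hm : D.IsEnergy m)
    {ι : Type} [Fintype ι] (c : ι → E n) (r : ι → ℝ) (hr : ∀ k, 0 < r k)
    (hsep : ∀ j k, j ≠ k → r j + r k < len (c j - c k))
    (hS : ∀ x, D.F x < 0 ↔ ∃ k, len (x - c k) < r k)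
    (f u : E n → ℝ) (M : Field n) (hf : Smooth f) (hu : Smooth u)
    (hlev : ∀ k x y, len (x - c k) = r k → len (y - c k) = r k → f x = f y)
    (hg : ∀ x, 0 ≤ D.F x → ∀ i j, D.g x i j = graphMetric f x i j)
    (htilt : ∀ x, 0 ≤ D.F x → u x ^ 2 * ∑ i, pd i f x ^ 2 ≤ 1)
    (hdec : ∃ a : ℝ, (n : ℝ) / 2 - 1 < a ∧ ∀ i, BigO a fun x => u x * pd i f x)
    (hK : ((∀ x, 0 ≤ D.F x → (∀ i j, D.K x i j = u x * secondForm f x i j + M x i j) ∧
        (∀ i, ∑ j, M x i j * pd j f x = (∑ k, M x k k) * pd i f x)) ∧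
        (∀ x, 0 ≤ D.F x → (∀ i, pd i f x = 0) →
          (∑ k, M x k k) ^ 2 ≤ ∑ i, ∑ j, M x i j ^ 2) ∧
        ∀ k x, len (x - c k) = r k → (∀ i, pd i f x = 0) →
          ∑ i, ∑ j, (x i - c k i) / r k * ((x j - c k j) / r k) * M x i j = ∑ i, M x i i) ∨
      ((∀ k x, len (x - c k) = r k → u x * ∑ i, (x i - c k i) / r k * pd i f x = -1) ∧
        ∀ x, 0 < D.F x → mu D.g D.K x + slope f x * piNabla D.g D.K f u x ≤ scal D.g x)) :
    D.Amin ≠ ⊤ ∧ 0 < m ∧ (∑ k, r k ^ (n - 2)) / 2 ≤ m ∧
      (D.Amin.toReal / omega n) ^ (((n : ℝ) - 2) / (n - 1)) / 2 ≤ m := by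
  rcases hK with ⟨hKM, hsq, hnu⟩ | h2
  swap
  · exact final hn D hAF hDEC hT m hm c r hr hsep hS f u hf hu hlev hg htilt hdec (Or.inr h2)
  have hB : Balls D.F c r := ⟨hr, hsep, hS⟩
  have hg' : ∀ x, 0 ≤ D.F x → ∀ i j, D.g x i j = gM f x i j := hg
  have hW : ∀ x, W2 f x - 1 = ∑ i, pd i f x ^ 2 := fun x => by unfold W2; ring
  have htilt' : ∀ x, 0 ≤ D.F x → u x ^ 2 * (W2 f x - 1) ≤ 1 := fun x hx => by
    rw [hW]; exact htilt x hx
  refine penrose_of hn hB hf hg' hlev ?_
  have hne : Nonempty (Fin n) := ⟨⟨0, by omega⟩⟩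
  have hn0 : 0 < (n : ℝ) - 1 := by
    have : (3 : ℝ) ≤ n := by exact_mod_cast hn
    linarith
  have hKM' : ∀ x, 0 ≤ D.F x → ∀ i j, D.K x i j - kS f (sg f u) x i j = M x i j := by
    intro x hx i j
    rw [(hKM x hx).1]
    unfold secondForm kS sg
    rw [slope_eq]
    ring
  have hrow : ∀ x, 0 ≤ D.F x → Row f (fun y i j => D.K y i j - kS f (sg f u) y i j) x := by
    intro x hx i
    unfold te
    simp only [hKM' x hx]
    exact (hKM x hx).2 i
  refine energy_ge hn hAF hDEC hT hm hB hf hu (fun i j => (D.smooth i j).2)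
    (fun x i j => (D.symm x i j).2) hg' (fun x _ i j => rfl) hlev ?_
    (fun x hx => htilt' x hx.le) ?_ hdec
  · intro k x hx hth
    have hL := level hf (hr k) (hlev k) hx
    have hF0 := hB.nonneg_sph hx
    set a := dn f (c k) (r k) x with ha
    have htt : tt (nu (c k) (r k) x) (D.K x) = tt (nu (c k) (r k) x) (kS f (sg f u) x) := by
      have e1 : tt (nu (c k) (r k) x) (D.K x) = tt (nu (c k) (r k) x) (kS f (sg f u) x) +
          (∑ i, M x i i - ∑ i, ∑ j, nu (c k) (r k) x i * nu (c k) (r k) x j * M x i j) := by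
        unfold tt
        have e2 : ∑ i, D.K x i i = ∑ i, kS f (sg f u) x i i + ∑ i, M x i i := by
          rw [← Finset.sum_add_distrib]
          exact Finset.sum_congr rfl fun i _ => by rw [← hKM' x hF0]; ring
        have e3 : ∑ i, ∑ j, nu (c k) (r k) x i * nu (c k) (r k) x j * D.K x i j =
            ∑ i, ∑ j, nu (c k) (r k) x i * nu (c k) (r k) x j * kS f (sg f u) x i j +
            ∑ i, ∑ j, nu (c k) (r k) x i * nu (c k) (r k) x j * M x i j := by
          simp only [← Finset.sum_add_distrib]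
          exact Finset.sum_congr rfl fun i _ => Finset.sum_congr rfl fun j _ => by
            rw [← hKM' x hF0]; ring
        rw [e2, e3]
        ring
      have e4 : ∑ i, ∑ j, nu (c k) (r k) x i * nu (c k) (r k) x j * M x i j =
          ∑ i, M x i i := by
        by_cases h0 : ∀ i, pd i f x = 0
        · exact hnu k x hx h0
        · have ha0 : a ≠ 0 := by
            intro ha0
            apply h0
            intro i
            rw [hL.fst, ha0]; ring
          have h1 : ∀ i, ∑ j, nu (c k) (r k) x j * M x i j =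
              (∑ k, M x k k) * nu (c k) (r k) x i := by
            intro i
            have h2 := (hKM x hF0).2 i
            have h3 : ∑ j, M x i j * pd j f x =
                a * ∑ j, nu (c k) (r k) x j * M x i j := by
              rw [Finset.mul_sum]
              exact Finset.sum_congr rfl fun j _ => by rw [hL.fst]; ring
            rw [h3, hL.fst] at h2
            have h4 : a * ∑ j, nu (c k) (r k) x j * M x i j =
                a * ((∑ k, M x k k) * nu (c k) (r k) x i) := by rw [h2]; ring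
            exact mul_left_cancel₀ ha0 h4
          have h5 : ∀ i, ∑ j, nu (c k) (r k) x i * nu (c k) (r k) x j * M x i j =
              (∑ k, M x k k) * nu (c k) (r k) x i ^ 2 := by
            intro i
            have : ∑ j, nu (c k) (r k) x i * nu (c k) (r k) x j * M x i j =
                nu (c k) (r k) x i * ∑ j, nu (c k) (r k) x j * M x i j := by
              rw [Finset.mul_sum]
              exact Finset.sum_congr rfl fun j _ => by ring
            rw [this, h1]; ring
          simp only [h5]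
          rw [← Finset.mul_sum, hL.one, mul_one]
      rw [e1, e4, sub_self, add_zero]
    rw [htt, tt_kS hL] at hth
    have hw : 0 < (√(W2 f x))⁻¹ := inv_pos.2 (Real.sqrt_pos.2 (W2_pos f x))
    have h1 : ((n : ℝ) - 1) / r k * (√(W2 f x))⁻¹ +
        sg f u x * (((n : ℝ) - 1) / r k * a) =
        (((n : ℝ) - 1) / r k * (√(W2 f x))⁻¹) * (1 + u x * a) := by
      unfold sg; ring
    rw [h1] at hth
    have h2 : 0 < ((n : ℝ) - 1) / r k * (√(W2 f x))⁻¹ := mul_pos (div_pos hn0 (hr k)) hw
    have h3 : 1 + u x * a ≤ 0 := by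
      by_contra hcon
      exact absurd hth (not_le.2 (mul_pos h2 (not_le.1 hcon)))
    have h4 := htilt' x hF0
    have h5 : W2 f x - 1 = a ^ 2 := by rw [W2_lev hL]; ring
    rw [h5, ← mul_pow] at h4
    have h6 := abs_le_of_sq_le_sq' (a := u x * a) (b := 1) (by simpa using h4) zero_le_one
    linarith [h6.1]
  · intro x hx
    have hev : ∀ᶠ y in 𝓝 x, 0 < D.F y :=
      (isOpen_lt continuous_const D.dom.1.continuous).mem_nhds hx
    obtain ⟨h1, h2, h3, h4, h5⟩ := germ (K := D.K) (K' := D.K)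
      (hev.mono fun y hy i j => hg' y hy.le i j)
      (Eventually.of_forall fun y i j => rfl)
    refine star_row hf hu (fun i j => (D.smooth i j).2) (fun x i j => (D.symm x i j).2)
      (hev.mono fun y hy => hrow y hy.le) ?_ ?_ (htilt' x hx.le)
    · by_cases h0 : ∀ i, pd i f x = 0
      · simp only [hKM' x hx.le]
        exact hsq x hx.le h0
      · exact row_sq (hrow x hx.le) h0
    · have h6 := hDEC x hx.le
      have h7 : covNorm D.g (mom D.g D.K) x = covNorm (gM f) (mom (gM f) D.K) x := by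
        simp only [covNorm, h1, h4]
      rwa [h7, h3] at h6

end Vale.Agent.H45G
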