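import Vale.Agent.P366.H45.Data

/-! Further definitions for the graph class. -/

noncomputable section
namespace Vale.Agent.P366.GraphClass
open Vale.Agent.P366.Stmt

variable {n : ℕ}

/-- `M = K - u A`, where `A = D²f / W` is the second fundamental form of the graph of `f`. -/
def rest (K : Field n) (f u : E n → ℝ) : Field n :=
  fun x i j => K x i j - u x * secondForm f x i j

/-- The Euclidean trace of `M`. -/
def trE (M : Field n) (x : E n) : ℝ := ∑ k, M x k k

/-- The `g`-length of the vector field `Y`. -/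
def vecLen (g : Field n) (Y : Fin n → E n → ℝ) (x : E n) : ℝ :=
  √(∑ i, ∑ j, g x i j * Y i x * Y j x)

/-- The component `∇ₖ Yʲ` of the covariant derivative of the vector field `Y`. -/
def covDer (g : Field n) (Y : Fin n → E n → ℝ) (k j : Fin n) (x : E n) : ℝ :=
  pd k (Y j) x + ∑ l, chr g j k l x * Y l x

/-- `⟨π, ∇Y⟩ = π_{ij} ∇ⁱ Yʲ`, where `π = K - (tr K) g`. -/
def piDer (g K : Field n) (Y : Fin n → E n → ℝ) (x : E n) : ℝ :=
  ∑ i, ∑ k, up g i k x * ∑ j, momT g K x i j * covDer g Y k j x

end Vale.Agent.P366.GraphClass
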