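import Vale.Agent.P366.H45.G16
import Vale.Agent.P366.H45.Rest

/-! The final theorem with strictness for a disconnected boundary. -/

open MeasureTheory Metric Filter Topology Set
open scoped ContDiff ENNReal

noncomputable section
namespace Vale.Agent.H45G
open Vale.Agent.P366.Stmt
open Vale.Agent.P366.GraphClass

variable {n : ℕ}

/-- Strict subadditivity of `x ^ p`. -/
lemma rpow_sum_lt {ι : Type} [Fintype ι] (a : ι → ℝ) (ha : ∀ i, 0 < a i) {p : ℝ}
    (hp0 : 0 < p) (hp1 : p < 1) {j k : ι} (hjk : j ≠ k) : (∑ i, a i) ^ p < ∑ i, a i ^ p := by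
  classical
  have hS : 0 < ∑ i, a i := Finset.sum_pos (fun i _ => ha i) ⟨j, Finset.mem_univ j⟩
  have h1 : (∑ i, a i) ^ p = ∑ i, a i * (∑ i, a i) ^ (p - 1) := by
    rw [← Finset.sum_mul, Real.rpow_sub_one hS.ne']
    field_simp
  rw [h1]
  have h2 : ∀ i, a i < ∑ i, a i := by
    intro i
    obtain ⟨l, hl⟩ : ∃ l, l ≠ i := by
      by_cases h : j = i
      · exact ⟨k, fun hk => hjk (by rw [h, hk])⟩
      · exact ⟨j, h⟩
    exact Finset.single_lt_sum hl (Finset.mem_univ i) (Finset.mem_univ l) (ha l)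
      fun m _ _ => (ha m).le
  refine Finset.sum_lt_sum_of_nonempty ⟨j, Finset.mem_univ j⟩ fun i _ => ?_
  have h3 : (∑ i, a i) ^ (p - 1) < a i ^ (p - 1) :=
    Real.rpow_lt_rpow_of_neg (ha i) (h2 i) (by linarith)
  calc a i * (∑ i, a i) ^ (p - 1) < a i * a i ^ (p - 1) := mul_lt_mul_of_pos_left h3 (ha i)
    _ = a i ^ p := by
      rw [Real.rpow_sub_one (ha i).ne']
      have := ha i
      field_simp

/-- Strictness when there are at least two components. -/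
theorem penrose_lt (hn : 3 ≤ n) {D : Exterior n} {f : E n → ℝ} {m : ℝ}
    {ι : Type} [Fintype ι] {c : ι → E n} {r : ι → ℝ}
    (hB : Balls D.F c r) (hf : Smooth f)
    (hg : ∀ x, 0 ≤ D.F x → ∀ i j, D.g x i j = gM f x i j)
    (hlev : ∀ k x y, ‖x - c k‖ = r k → ‖y - c k‖ = r k → f x = f y)
    (hE : (∑ k, r k ^ (n - 2)) / 2 ≤ m) {j k : ι} (hjk : j ≠ k) :
    (D.Amin.toReal / omega n) ^ (((n : ℝ) - 2) / (n - 1)) / 2 < m := by
  have hne : Nonempty (Fin n) := ⟨⟨0, by omega⟩⟩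
  have hω : 0 < Vale.Agent.P366.omega n := Vale.Agent.P366.omega_pos'
  have hn3 : (3 : ℝ) ≤ n := by exact_mod_cast hn
  have hA := amin_le (by omega) hf hB hg hlev
  have hS1 : 0 ≤ ∑ k, r k ^ (n - 1) := Finset.sum_nonneg fun k _ => (pow_pos (hB.pos k) _).le
  have h1 : D.Amin.toReal ≤ Vale.Agent.P366.omega n * ∑ k, r k ^ (n - 1) := by
    have := ENNReal.toReal_mono ENNReal.ofReal_ne_top hA
    rwa [ENNReal.toReal_ofReal (mul_nonneg hω.le hS1)] at this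
  have h2 : D.Amin.toReal / omega n ≤ ∑ k, r k ^ (n - 1) := by
    rw [Vale.Agent.P366.omega_eq, div_le_iff₀ hω]
    linarith
  set p : ℝ := ((n : ℝ) - 2) / (n - 1) with hp
  have hp0 : 0 < p := div_pos (by linarith) (by linarith)
  have hp1 : p < 1 := by rw [hp, div_lt_one (by linarith)]; linarith
  have h3 : (D.Amin.toReal / omega n) ^ p ≤ (∑ k, r k ^ (n - 1)) ^ p := by
    refine Real.rpow_le_rpow ?_ h2 hp0.le
    rw [Vale.Agent.P366.omega_eq]
    exact div_nonneg ENNReal.toReal_nonneg hω.le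
  have h4 := rpow_sum_lt (fun k => r k ^ (n - 1)) (fun k => pow_pos (hB.pos k) _) hp0 hp1 hjk
  have h5 : ∀ k, (r k ^ (n - 1)) ^ p = r k ^ (n - 2) := by
    intro k
    rw [← Real.rpow_natCast, ← Real.rpow_mul (hB.pos k).le, ← Real.rpow_natCast]
    congr 1
    rw [hp, Nat.cast_sub (by omega), Nat.cast_sub (by omega)]
    push_cast
    have : (n : ℝ) - 1 ≠ 0 := by linarith
    field_simp
  simp only [h5] at h4
  linarith

theorem final2 (hn : 3 ≤ n) (D : Exterior n) (hAF : D.IsAF) (hDEC : D.DEC)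
    (hT : D.Trapped) (m : ℝ) (hm : D.IsEnergy m)
    {ι : Type} [Fintype ι] (c : ι → E n) (r : ι → ℝ) (hr : ∀ k, 0 < r k)
    (hsep : ∀ j k, j ≠ k → r j + r k < len (c j - c k))
    (hS : ∀ x, D.F x < 0 ↔ ∃ k, len (x - c k) < r k)
    (f u : E n → ℝ) (hf : Smooth f) (hu : Smooth u)
    (hlev : ∀ k x y, len (x - c k) = r k → len (y - c k) = r k → f x = f y)
    (hg : ∀ x, 0 ≤ D.F x → ∀ i j, D.g x i j = graphMetric f x i j)
    (htilt : ∀ x, 0 ≤ D.F x → u x ^ 2 * ∑ i, pd i f x ^ 2 ≤ 1)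
    (hdec : ∃ a : ℝ, (n : ℝ) / 2 - 1 < a ∧ ∀ i, BigO a fun x => u x * pd i f x)
    (hK : ((∀ x, 0 ≤ D.F x → ∀ i, ∑ j, rest D.K f u x i j * pd j f x =
          trE (rest D.K f u) x * pd i f x) ∧
        (∀ x, 0 ≤ D.F x → (∀ i, pd i f x = 0) →
          trE (rest D.K f u) x ^ 2 ≤ ∑ i, ∑ j, rest D.K f u x i j ^ 2) ∧
        ∀ k x, len (x - c k) = r k → (∀ i, pd i f x = 0) →
          ∑ i, ∑ j, (x i - c k i) / r k * ((x j - c k j) / r k) * rest D.K f u x i j =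
            trE (rest D.K f u) x) ∨
      ((∀ k x, len (x - c k) = r k → u x * ∑ i, (x i - c k i) / r k * pd i f x = -1) ∧
        ∀ x, 0 < D.F x → mu D.g D.K x + slope f x * piNabla D.g D.K f u x ≤ scal D.g x)) :
    D.Amin ≠ ⊤ ∧ 0 < m ∧ (∑ k, r k ^ (n - 2)) / 2 ≤ m ∧
      (D.Amin.toReal / omega n) ^ (((n : ℝ) - 2) / (n - 1)) / 2 ≤ m ∧
      ((∃ j k : ι, j ≠ k) →
        (D.Amin.toReal / omega n) ^ (((n : ℝ) - 2) / (n - 1)) / 2 < m) := by
  obtain ⟨h1, h2, h3, h4⟩ := final' hn D hAF hDEC hT m hm c r hr hsep hS f u (rest D.K f u) hf hu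
    hlev hg htilt hdec (by
      rcases hK with ⟨a1, a2, a3⟩ | h
      · exact Or.inl ⟨fun x hx => ⟨fun i j => by unfold rest; ring, a1 x hx⟩, a2, a3⟩
      · exact Or.inr h)
  refine ⟨h1, h2, h3, h4, ?_⟩
  rintro ⟨j, k, hjk⟩
  exact penrose_lt hn ⟨hr, hsep, hS⟩ hf hg hlev h3 hjk

end Vale.Agent.H45G
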