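import Vale.Agent.P366.H45.G13

/-! A general vector field `Y` in place of `u ∇f`. -/

open MeasureTheory Metric Filter Topology Set
open scoped ContDiff ENNReal

noncomputable section
namespace Vale.Agent.H45G
open Vale.Agent.P366.Stmt
open Vale.Agent.P366.T2 (HP)

variable {n : ℕ}

/-- `∑ f_a q_a`. -/
def sq1 (f : E n → ℝ) (q : Fin n → E n → ℝ) (x : E n) : ℝ := ∑ a, pd a f x * q a x

/-- `q` with the index raised. -/
def Rq (f : E n → ℝ) (q : Fin n → E n → ℝ) (i : Fin n) (x : E n) : ℝ :=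
  q i x - pd i f x * sq1 f q x * (W2 f x)⁻¹

lemma HP_sqrt {f : E n → ℝ} (hf : Smooth f) (k : Fin n) (x : E n) :
    HP k (fun y => √(W2 f y)) (pv f k x / √(W2 f x)) x := by
  have h := HasDerivAt.sqrt (HP_W2 hf k x : HasDerivAt _ _ _)
    (by simpa using W2_ne f x)
  simp only [zero_smul, add_zero] at h
  have h' : HP k (fun y => √(W2 f y)) (2 * pv f k x / (2 * √(W2 f x))) x := h
  refine HP_cast h' ?_
  have hw : 0 < √(W2 f x) := Real.sqrt_pos.2 (W2_pos f x)
  field_simp

/-- Divergence of a one-form. -/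
lemma div_one {f : E n → ℝ} {q : Fin n → E n → ℝ} (hf : Smooth f) (hq : ∀ i, Smooth (q i))
    (x : E n) :
    ∑ i, pd i (fun y => √(W2 f y) * Rq f q i y) x =
      √(W2 f x) * ∑ i, ∑ k, up (gM f) i k x *
        (pd k (q i) x - ∑ l, chr (gM f) l k i x * q l x) := by
  have hs : ∀ k, HP k (sq1 f q) (∑ a, (pd k (pd a f) x * q a x + pd a f x * pd k (q a) x)) x :=
    fun k => HP.sum Finset.univ fun a _ => (hp (smooth_pd hf a) k x).mul (hp (hq a) k x)
  have hX : ∀ i, HP i (fun y => √(W2 f y) * Rq f q i y) _ x := fun i =>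
    (HP_sqrt hf i x).mul ((hp (hq i) i x).sub (((hp (smooth_pd hf i) i x).mul (hs i)).mul
      (HP_inv (HP_W2 hf i x) (W2_ne f x))))
  have h1 : ∀ i, pd i (fun y => √(W2 f y) * Rq f q i y) x = _ := fun i => (hX i).pd
  simp only [h1]
  have hw : 0 < √(W2 f x) := Real.sqrt_pos.2 (W2_pos f x)
  have hww : √(W2 f x) ^ 2 = W2 f x := Real.sq_sqrt (W2_pos f x).le
  have hWn := W2_ne f x
  set s := sq1 f q x with hsd
  set w := √(W2 f x) with hwd
  set FF := ∑ i, ∑ a, pd i f x * pd a f x * pd i (q a) x with hFF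
  set PQ := ∑ i, pv f i x * q i x with hPQ
  set DQ := ∑ i, pd i (q i) x with hDQ
  -- right hand side
  have hR : ∑ i, ∑ k, up (gM f) i k x * (pd k (q i) x - ∑ l, chr (gM f) l k i x * q l x) =
      DQ - FF / W2 f x - (lap f x - Qf f x / W2 f x) * s / W2 f x := by
    have e0 : ∀ i k, pd k (q i) x - ∑ l, chr (gM f) l k i x * q l x =
        pd k (q i) x - pd k (pd i f) x * s / W2 f x := by
      intro i k
      congr 1
      rw [hsd]
      unfold sq1
      rw [Finset.mul_sum, Finset.sum_div]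
      exact Finset.sum_congr rfl fun l _ => by rw [chr_gM hf]; ring
    simp only [e0, up_gM]
    rw [contr]
    have e1 : ∑ i, (pd i (q i) x - pd i (pd i f) x * s / W2 f x) =
        DQ - lap f x * s / W2 f x := by
      rw [Finset.sum_sub_distrib, ← Finset.sum_div, ← Finset.sum_mul]; rfl
    have e2 : ∑ i, ∑ j, pd i f x * pd j f x *
        (pd j (q i) x - pd j (pd i f) x * s / W2 f x) = FF - Qf f x * s / W2 f x := by
      have a1 : ∀ i j, pd i f x * pd j f x * (pd j (q i) x - pd j (pd i f) x * s / W2 f x) =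
          pd j f x * pd i f x * pd j (q i) x -
          (pd i f x * pd j f x * pd j (pd i f) x) * (s / W2 f x) := by
        intro i j; ring
      simp only [a1, Finset.sum_sub_distrib, ← Finset.sum_mul]
      have a2 : ∑ i, ∑ j, pd j f x * pd i f x * pd j (q i) x = FF := by
        rw [hFF, Finset.sum_comm]
      have a3 : ∑ i, ∑ j, pd i f x * pd j f x * pd j (pd i f) x = Qf f x := by
        unfold Qf
        refine Finset.sum_congr rfl fun i _ => ?_
        rw [← pvsym hf i x, Finset.mul_sum]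
        exact Finset.sum_congr rfl fun j _ => by ring
      rw [a2, a3]
      ring
    rw [e1, e2]
    field_simp
    ring
  rw [hR]
  -- left hand side
  have s1 : ∑ i, pv f i x * Rq f q i x = PQ - Qf f x * s / W2 f x := by
    have : ∀ i, pv f i x * Rq f q i x = pv f i x * q i x -
        (pd i f x * pv f i x) * (s / W2 f x) := by
      intro i; unfold Rq; rw [← hsd]; ring
    simp only [this, Finset.sum_sub_distrib, ← Finset.sum_mul]
    have e6 : ∑ i, pd i f x * pv f i x = Qf f x := rfl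
    rw [e6]; ring
  have s2 : ∑ i, pd i f x * ∑ a, (pd i (pd a f) x * q a x + pd a f x * pd i (q a) x) =
      PQ + FF := by
    have a1 : ∀ i, pd i f x * ∑ a, (pd i (pd a f) x * q a x + pd a f x * pd i (q a) x) =
        ∑ a, (pd i f x * pd i (pd a f) x * q a x) +
        ∑ a, pd i f x * pd a f x * pd i (q a) x := by
      intro i
      rw [Finset.mul_sum, ← Finset.sum_add_distrib]
      exact Finset.sum_congr rfl fun a _ => by ring
    rw [Finset.sum_congr rfl fun i _ => a1 i, Finset.sum_add_distrib]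
    congr 1
    rw [Finset.sum_comm, hPQ]
    refine Finset.sum_congr rfl fun a _ => ?_
    rw [← Finset.sum_mul, pvsym hf]
  have hsum : ∀ i, pv f i x / w * Rq f q i x +
      w * (pd i (q i) x - ((pd i (pd i f) x * s + pd i f x *
        ∑ a, (pd i (pd a f) x * q a x + pd a f x * pd i (q a) x)) * (W2 f x)⁻¹ +
        pd i f x * s * (-(2 * pv f i x) / W2 f x ^ 2))) =
      (pv f i x * Rq f q i x) * w⁻¹ + pd i (q i) x * w -
      pd i (pd i f) x * (s * w * (W2 f x)⁻¹) -
      (pd i f x * ∑ a, (pd i (pd a f) x * q a x + pd a f x * pd i (q a) x)) *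
        (w * (W2 f x)⁻¹) +
      (pd i f x * pv f i x) * (2 * s * w / W2 f x ^ 2) := by
    intro i; ring
  refine (Finset.sum_congr rfl fun i _ => hsum i).trans ?_
  simp only [Finset.sum_add_distrib, Finset.sum_sub_distrib, ← Finset.sum_mul]
  have e6 : ∑ i, pd i f x * pv f i x = Qf f x := rfl
  have e7 : ∑ i, pd i (pd i f) x = lap f x := rfl
  rw [e6, e7]
  have s3 : ∑ i, pd i f x * ∑ a, (pd i (pd a f) x * q a x + pd a f x * pd i (q a) x) =
      PQ + FF := s2
  simp only [Finset.sum_add_distrib] at s3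
  rw [s1, s3, ← hDQ]
  have hwi : w⁻¹ = w * (W2 f x)⁻¹ := by
    field_simp
    exact hww.symm
  rw [hwi]
  field_simp
  ring

/-- The one-form `π(Y)`. -/
def qy (P : Field n) (Y : Fin n → E n → ℝ) (i : Fin n) (x : E n) : ℝ :=
  ∑ j, P x i j * Y j x

/-- The field `X = - W π(Y)`. -/
def Xy (f : E n → ℝ) (P : Field n) (Y : Fin n → E n → ℝ) (i : Fin n) (x : E n) : ℝ :=
  -(√(W2 f x) * Rq f (qy P Y) i x)

/-- The covariant derivative of a vector field. -/
def cov (g : Field n) (Y : Fin n → E n → ℝ) (k j : Fin n) (x : E n) : ℝ :=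
  pd k (Y j) x + ∑ l, chr g j k l x * Y l x

/-- `⟨P, ∇Y⟩`. -/
def pdy (g P : Field n) (Y : Fin n → E n → ℝ) (x : E n) : ℝ :=
  ∑ i, ∑ k, up g i k x * ∑ j, P x i j * cov g Y k j x

lemma inter (U : Fin n → Fin n → ℝ) (Y : Fin n → ℝ) (T : Fin n → Fin n → Fin n → ℝ) :
    ∑ i, ∑ k, U i k * ∑ j, Y j * T i k j = ∑ j, Y j * ∑ i, ∑ k, U i k * T i k j := by
  simp only [Finset.mul_sum]
  rw [Finset.sum_comm (s := (Finset.univ : Finset (Fin n))) (t := (Finset.univ : Finset (Fin n)))
    (f := fun j i => ∑ k, Y j * (U i k * T i k j))]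
  refine Finset.sum_congr rfl fun i _ => ?_
  rw [Finset.sum_comm]
  exact Finset.sum_congr rfl fun k _ => Finset.sum_congr rfl fun j _ => by ring

lemma smooth_qy {P : Field n} {Y : Fin n → E n → ℝ} (hP : ∀ i j, Smooth fun x => P x i j)
    (hY : ∀ i, Smooth (Y i)) (i : Fin n) : Smooth (qy P Y i) :=
  ContDiff.sum fun j _ => ContDiff.mul (hP i j) (hY j)

lemma smooth_Rq {f : E n → ℝ} {q : Fin n → E n → ℝ} (hf : Smooth f) (hq : ∀ i, Smooth (q i))
    (i : Fin n) : Smooth (Rq f q i) := by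
  unfold Rq sq1
  exact ContDiff.sub (hq i) (ContDiff.mul (ContDiff.mul (smooth_pd hf i)
    (ContDiff.sum fun a _ => ContDiff.mul (smooth_pd hf a) (hq a)))
    ((smooth_W2 hf).inv fun x => W2_ne f x))

lemma smooth_Xy {f : E n → ℝ} {P : Field n} {Y : Fin n → E n → ℝ} (hf : Smooth f)
    (hP : ∀ i j, Smooth fun x => P x i j) (hY : ∀ i, Smooth (Y i)) (i : Fin n) :
    Smooth (Xy f P Y i) := by
  unfold Xy
  exact ContDiff.neg (ContDiff.mul (ContDiff.sqrt (smooth_W2 hf) fun x => W2_ne f x)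
    (smooth_Rq hf (smooth_qy hP hY) i))

/-- **The divergence of `X = - W π(Y)`.** -/
theorem div_Xy {f : E n → ℝ} {P : Field n} {Y : Fin n → E n → ℝ} (hf : Smooth f)
    (hP : ∀ i j, Smooth fun x => P x i j) (hY : ∀ i, Smooth (Y i)) (x : E n) :
    ∑ i, pd i (Xy f P Y i) x = -(√(W2 f x) * ((∑ j, Y j x * ∑ i, ∑ k, up (gM f) i k x *
        (pd k (fun y => P y i j) x -
        ∑ l, (chr (gM f) l k i x * P x l j + chr (gM f) l k j x * P x i l))) +
      pdy (gM f) P Y x)) := by
  have hneg : ∀ i, pd i (Xy f P Y i) x =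
      -pd i (fun y => √(W2 f y) * Rq f (qy P Y) i y) x := by
    intro i
    have hsm : Smooth fun y => √(W2 f y) * Rq f (qy P Y) i y :=
      ContDiff.mul (ContDiff.sqrt (smooth_W2 hf) fun x => W2_ne f x)
        (smooth_Rq hf (smooth_qy hP hY) i)
    exact ((hp hsm i x).neg).pd
  simp only [hneg, Finset.sum_neg_distrib]
  rw [div_one hf (smooth_qy hP hY)]
  congr 2
  have hdq : ∀ i k, pd k (qy P Y i) x =
      ∑ j, (pd k (fun y => P y i j) x * Y j x + P x i j * pd k (Y j) x) := fun i k =>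
    (HP.sum (k := k) (x := x) Finset.univ (f := fun j y => P y i j * Y j y)
      (fun j _ => (hp (hP i j) k x).mul (hp (hY j) k x))).pd
  have hpt : ∀ i k, pd k (qy P Y i) x - ∑ l, chr (gM f) l k i x * qy P Y l x =
      (∑ j, Y j x * (pd k (fun y => P y i j) x -
        ∑ l, (chr (gM f) l k i x * P x l j + chr (gM f) l k j x * P x i l))) +
      ∑ j, P x i j * cov (gM f) Y k j x := by
    intro i k
    rw [hdq]
    have a1 : ∑ l, chr (gM f) l k i x * qy P Y l x =
        ∑ j, Y j x * ∑ l, chr (gM f) l k i x * P x l j := by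
      unfold qy
      simp only [Finset.mul_sum]
      rw [Finset.sum_comm]
      exact Finset.sum_congr rfl fun j _ => Finset.sum_congr rfl fun l _ => by ring
    have a2 : ∑ j, Y j x * ∑ l, chr (gM f) l k j x * P x i l =
        ∑ j, P x i j * ∑ l, chr (gM f) j k l x * Y l x := by
      simp only [Finset.mul_sum]
      rw [Finset.sum_comm]
      exact Finset.sum_congr rfl fun j _ => Finset.sum_congr rfl fun l _ => by ring
    rw [a1]
    unfold cov
    simp only [mul_sub, mul_add, Finset.sum_sub_distrib, Finset.sum_add_distrib]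
    rw [a2]
    have a3 : ∑ j, pd k (fun y => P y i j) x * Y j x = ∑ j, Y j x * pd k (fun y => P y i j) x :=
      Finset.sum_congr rfl fun j _ => by ring
    rw [a3]
    ring
  simp only [hpt, mul_add, Finset.sum_add_distrib]
  unfold pdy
  congr 1
  exact inter _ _ _

end Vale.Agent.H45G
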