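import Vale.Agent.P366.H45.G18

/-! Pointwise estimates for a general vector field `Y`. -/

open MeasureTheory Metric Filter Topology Set
open scoped ContDiff ENNReal

noncomputable section
namespace Vale.Agent.H45G
open Vale.Agent.P366.Stmt
open Vale.Agent.P366.T2 (HP)

variable {n : ℕ}

/-- The length of a vector field. -/
def vlen (g : Field n) (Y : Fin n → E n → ℝ) (x : E n) : ℝ :=
  √(∑ i, ∑ j, g x i j * Y i x * Y j x)

lemma gYY (f : E n → ℝ) (Y : Fin n → ℝ) (x : E n) :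
    ∑ i, ∑ j, gM f x i j * Y i * Y j = ∑ i, Y i ^ 2 + (∑ i, pd i f x * Y i) ^ 2 := by
  have h : ∀ i j, gM f x i j * Y i * Y j = (if i = j then Y i * Y j else 0) +
      (pd i f x * Y i) * (pd j f x * Y j) := by
    intro i j
    unfold gM
    split_ifs <;> ring
  simp only [h, Finset.sum_add_distrib, Finset.sum_ite_eq, Finset.mem_univ, if_true]
  rw [← Finset.sum_mul_sum, sq (∑ i, pd i f x * Y i)]
  congr 1
  exact Finset.sum_congr rfl fun i _ => by ring

lemma uJJ (f : E n → ℝ) (J : Fin n → ℝ) (x : E n) :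
    ∑ i, ∑ j, up (gM f) i j x * J i * J j =
      ∑ i, J i ^ 2 - (∑ i, pd i f x * J i) ^ 2 / W2 f x := by
  have e0 : ∀ i j, up (gM f) i j x * J i * J j =
      ((if i = j then 1 else 0) - pd i f x * pd j f x / W2 f x) * (J i * J j) := by
    intro i j; rw [up_gM]; ring
  simp only [e0]
  rw [contr]
  have e1 : ∑ i, ∑ j, pd i f x * pd j f x * (J i * J j) = (∑ i, pd i f x * J i) ^ 2 := by
    rw [sq, Finset.sum_mul_sum]
    exact Finset.sum_congr rfl fun i _ => Finset.sum_congr rfl fun j _ => by ring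
  rw [e1]
  congr 1
  exact Finset.sum_congr rfl fun i _ => by ring

/-- Cauchy-Schwarz for the graph metric. -/
lemma csY (f : E n → ℝ) (Y J : Fin n → ℝ) (x : E n) :
    (∑ i, Y i * J i) ^ 2 ≤ (∑ i, ∑ j, gM f x i j * Y i * Y j) *
      (∑ i, ∑ j, up (gM f) i j x * J i * J j) ∧
    0 ≤ ∑ i, ∑ j, gM f x i j * Y i * Y j ∧
    0 ≤ ∑ i, ∑ j, up (gM f) i j x * J i * J j := by
  have hW := W2_pos f x
  have hWn := W2_ne f x
  set w := √(W2 f x) with hwd
  have hww : w ^ 2 = W2 f x := Real.sq_sqrt hW.le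
  have hw : 0 < w := Real.sqrt_pos.2 hW
  set a := ∑ i, pd i f x * Y i with ha
  set b := ∑ i, pd i f x * J i with hb
  have hs : ∑ i, pd i f x ^ 2 = w ^ 2 - 1 := by rw [hww]; unfold W2; ring
  set A : Fin n → ℝ := fun i => Y i + pd i f x * a / (w + 1) with hA
  set B : Fin n → ℝ := fun i => J i - pd i f x * b / (w * (w + 1)) with hB
  have hw1 : w + 1 ≠ 0 := by linarith
  have h1 : ∑ i, A i * B i = ∑ i, Y i * J i := by
    have : ∀ i, A i * B i = Y i * J i - (pd i f x * Y i) * (b / (w * (w + 1))) +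
        (pd i f x * J i) * (a / (w + 1)) -
        (pd i f x ^ 2) * (a / (w + 1) * (b / (w * (w + 1)))) := by
      intro i; simp only [hA, hB]; ring
    simp only [this, Finset.sum_sub_distrib, Finset.sum_add_distrib, ← Finset.sum_mul]
    rw [hs, ← ha, ← hb]
    field_simp
    ring
  have h2 : ∑ i, A i ^ 2 = ∑ i, ∑ j, gM f x i j * Y i * Y j := by
    rw [gYY, ← ha]
    have : ∀ i, A i ^ 2 = Y i ^ 2 + (pd i f x * Y i) * (2 * a / (w + 1)) +
        (pd i f x ^ 2) * (a / (w + 1)) ^ 2 := by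
      intro i; simp only [hA]; ring
    simp only [this, Finset.sum_add_distrib, ← Finset.sum_mul]
    rw [hs, ← ha]
    field_simp
    ring
  have h3 : ∑ i, B i ^ 2 = ∑ i, ∑ j, up (gM f) i j x * J i * J j := by
    rw [uJJ, ← hb, ← hww]
    have : ∀ i, B i ^ 2 = J i ^ 2 - (pd i f x * J i) * (2 * b / (w * (w + 1))) +
        (pd i f x ^ 2) * (b / (w * (w + 1))) ^ 2 := by
      intro i; simp only [hB]; ring
    simp only [this, Finset.sum_sub_distrib, Finset.sum_add_distrib, ← Finset.sum_mul]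
    rw [hs, ← hb]
    field_simp
    ring
  refine ⟨?_, ?_, ?_⟩
  · rw [← h1, ← h2, ← h3]
    exact Finset.sum_mul_sq_le_sq_mul_sq _ _ _
  · rw [← h2]; exact Finset.sum_nonneg fun i _ => sq_nonneg _
  · rw [← h3]; exact Finset.sum_nonneg fun i _ => sq_nonneg _

lemma J_boundY {f : E n → ℝ} {K : Field n} (Y : Fin n → E n → ℝ) {x : E n}
    (hdec : covNorm (gM f) (mom (gM f) K) x ≤ mu (gM f) K x) :
    ∑ j, Y j x * mom (gM f) K j x ≤ vlen (gM f) Y x * mu (gM f) K x := by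
  obtain ⟨h1, h2, h3⟩ := csY f (fun j => Y j x) (fun j => mom (gM f) K j x) x
  have h4 : ∑ j, Y j x * mom (gM f) K j x ≤
      vlen (gM f) Y x * covNorm (gM f) (mom (gM f) K) x := by
    unfold vlen covNorm
    rw [← Real.sqrt_mul h2]
    exact Real.le_sqrt_of_sq_le h1
  exact h4.trans (mul_le_mul_of_nonneg_left hdec (Real.sqrt_nonneg _))

/-- **The pointwise inequality.** -/
theorem div_nonnegY {f : E n → ℝ} {K : Field n} {Y : Fin n → E n → ℝ} (hf : Smooth f)
    (hK : ∀ i j, Smooth fun x => K x i j) (hY : ∀ i, Smooth (Y i)) {x : E n}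
    (hdec : covNorm (gM f) (mom (gM f) K) x ≤ mu (gM f) K x)
    (hstar : √(W2 f x) * (vlen (gM f) Y x * mu (gM f) K x +
      pdy (gM f) (momT (gM f) K) Y x) ≤ scal (gM f) x) :
    0 ≤ ∑ i, pd i (fun y => Vf f i y + Xy f (momT (gM f) K) Y i y) x := by
  have hPs := smooth_momT hf hK
  have hd : ∀ i, pd i (fun y => Vf f i y + Xy f (momT (gM f) K) Y i y) x =
      pd i (Vf f i) x + pd i (Xy f (momT (gM f) K) Y i) x := fun i =>
    ((hp (smooth_Vf hf i) i x).add (hp (smooth_Xy hf hPs hY i) i x)).pd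
  simp only [hd]
  rw [Finset.sum_add_distrib, div_Vf hf, div_Xy hf hPs hY, ← scal_gM hf]
  have h1 := J_boundY Y hdec
  unfold mom at h1
  have hw : 0 < √(W2 f x) := Real.sqrt_pos.2 (W2_pos f x)
  have h2 := mul_le_mul_of_nonneg_left h1 hw.le
  rw [mul_add] at hstar ⊢
  linarith

/-- `X · ν` at a level sphere. -/
theorem Xy_lev {f : E n → ℝ} (K : Field n) {r a : ℝ} {ν : Fin n → ℝ} {x : E n}
    (h : Lev f r ν a x) {Y : Fin n → E n → ℝ} (hY : ∀ i, Y i x = -(ν i / W2 f x)) :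
    ∑ i, Xy f (momT (gM f) K) Y i x * ν i = -((√(W2 f x))⁻¹ * tt ν (K x)) := by
  have hW := W2_lev h
  have hWn := W2_ne f x
  have hW0 := W2_pos f x
  set w := √(W2 f x) with hwd
  have hww : w ^ 2 = W2 f x := Real.sq_sqrt hW0.le
  have hw : 0 < w := Real.sqrt_pos.2 hW0
  set P := momT (gM f) K with hP
  set Pn := ∑ i, ∑ j, ν i * ν j * P x i j with hPn
  have hq : ∀ i, qy P Y i x = -(∑ j, P x i j * ν j) / W2 f x := by
    intro i
    unfold qy
    rw [neg_div, Finset.sum_div, ← Finset.sum_neg_distrib]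
    exact Finset.sum_congr rfl fun j _ => by rw [hY]; ring
  have h2 : ∑ i, ν i * qy P Y i x = -Pn / W2 f x := by
    rw [hPn]
    simp only [hq]
    rw [neg_div, Finset.sum_div, ← Finset.sum_neg_distrib]
    refine Finset.sum_congr rfl fun i _ => ?_
    have : ∑ j, ν i * ν j * P x i j = ν i * ∑ j, P x i j * ν j := by
      rw [Finset.mul_sum]
      exact Finset.sum_congr rfl fun j _ => by ring
    rw [this]
    ring
  have h3 : sq1 f (qy P Y) x = a * (-Pn / W2 f x) := by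
    unfold sq1
    rw [← h2, Finset.mul_sum]
    exact Finset.sum_congr rfl fun i _ => by rw [h.fst]; ring
  have h4 : ∑ i, Xy f P Y i x * ν i = -(w * ((-Pn / W2 f x) / W2 f x)) := by
    have : ∀ i, Xy f P Y i x * ν i = -(w * (ν i * qy P Y i x)) +
        ν i ^ 2 * (w * (a * (a * (-Pn / W2 f x)) * (W2 f x)⁻¹)) := by
      intro i
      unfold Xy Rq
      rw [h3, h.fst]
      ring
    simp only [this, Finset.sum_add_distrib, Finset.sum_neg_distrib, ← Finset.mul_sum,
      ← Finset.sum_mul]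
    rw [h2, h.one]
    have e : W2 f x = 1 + a ^ 2 := hW
    field_simp
    rw [e]
    ring
  -- the trace of `K`
  have h5 : tr (gM f) K x = ∑ i, K x i i - a ^ 2 * (∑ i, ∑ j, ν i * ν j * K x i j) / W2 f x := by
    unfold tr
    simp only [up_gM]
    rw [contr]
    congr 2
    rw [Finset.mul_sum]
    refine Finset.sum_congr rfl fun i _ => ?_
    rw [Finset.mul_sum]
    exact Finset.sum_congr rfl fun j _ => by rw [h.fst, h.fst]; ring
  have h6 : ∑ i, ∑ j, ν i * ν j * gM f x i j = W2 f x := by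
    have : ∀ i j, ν i * ν j * gM f x i j = (if i = j then ν i * ν j else 0) +
        a ^ 2 * (ν i ^ 2 * ν j ^ 2) := by
      intro i j
      unfold gM
      rw [h.fst, h.fst]
      split_ifs <;> ring
    simp only [this, Finset.sum_add_distrib, Finset.sum_ite_eq, Finset.mem_univ, if_true,
      ← Finset.mul_sum]
    have e : ∑ i, ν i * ν i = 1 := by
      rw [← h.one]; exact Finset.sum_congr rfl fun i _ => by ring
    simp only [h.one]
    rw [e, hW]
    simp only [mul_one]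
    rw [h.one]
    ring
  have h7 : Pn = -(W2 f x * tt ν (K x)) := by
    have e1 : Pn = (∑ i, ∑ j, ν i * ν j * K x i j) -
        tr (gM f) K x * ∑ i, ∑ j, ν i * ν j * gM f x i j := by
      rw [hPn, Finset.mul_sum, ← Finset.sum_sub_distrib]
      refine Finset.sum_congr rfl fun i _ => ?_
      rw [Finset.mul_sum, ← Finset.sum_sub_distrib]
      exact Finset.sum_congr rfl fun j _ => by rw [hP]; unfold momT; ring
    rw [e1, h5, h6]
    unfold tt
    have e2 : ∀ S T : ℝ, S - (T - a ^ 2 * S / W2 f x) * W2 f x = -(W2 f x * (T - S)) := by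
      intro S T
      have : (T - a ^ 2 * S / W2 f x) * W2 f x = T * W2 f x - a ^ 2 * S := by
        field_simp
      rw [this, hW]
      ring
    exact e2 _ _
  rw [h4, h7, ← hww]
  field_simp

lemma Xy_smul {f : E n → ℝ} {P : Field n} {Y Y' : Fin n → E n → ℝ} {x : E n} {l : ℝ}
    (h : ∀ i, Y i x = l * Y' i x) (i : Fin n) : Xy f P Y i x = l * Xy f P Y' i x := by
  have h1 : ∀ i, qy P Y i x = l * qy P Y' i x := by
    intro i
    unfold qy
    rw [Finset.mul_sum]
    exact Finset.sum_congr rfl fun j _ => by rw [h]; ring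
  have h2 : sq1 f (qy P Y) x = l * sq1 f (qy P Y') x := by
    unfold sq1
    rw [Finset.mul_sum]
    exact Finset.sum_congr rfl fun j _ => by rw [h1]; ring
  unfold Xy Rq
  rw [h1, h2]
  ring

/-- **The boundary flux density.** -/
theorem bdry_geY {f : E n → ℝ} (K : Field n) {r a : ℝ} {ν : Fin n → ℝ}
    {x : E n} (h : Lev f r ν a x) (hr : 0 ≤ ((n : ℝ) - 1) / r) {Y : Fin n → E n → ℝ} {l : ℝ}
    (hl : 1 ≤ l) (hY : ∀ i, Y i x = -(l * (ν i / W2 f x)))
    (hth : ((n : ℝ) - 1) / r * (√(W2 f x))⁻¹ + tt ν (K x) ≤ 0) :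
    ((n : ℝ) - 1) / r ≤ ∑ i, (Vf f i x + Xy f (momT (gM f) K) Y i x) * ν i := by
  have hW := W2_lev h
  have hW0 := W2_pos f x
  have hww : √(W2 f x) ^ 2 = W2 f x := Real.sq_sqrt hW0.le
  have hw : 0 < (√(W2 f x))⁻¹ := inv_pos.2 (Real.sqrt_pos.2 hW0)
  simp only [add_mul, Finset.sum_add_distrib]
  have hs := Xy_smul (f := f) (P := momT (gM f) K) (Y := Y)
    (Y' := fun i _ => -(ν i / W2 f x)) (x := x) (l := l) fun i => by rw [hY]; ring
  have hX : ∑ i, Xy f (momT (gM f) K) Y i x * ν i =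
      l * ∑ i, Xy f (momT (gM f) K) (fun i _ => -(ν i / W2 f x)) i x * ν i := by
    rw [Finset.mul_sum]
    exact Finset.sum_congr rfl fun i _ => by rw [hs]; ring
  rw [Vf_lev h, hX, Xy_lev K h fun i => rfl]
  have h1 : ((n : ℝ) - 1) / r * (W2 f x)⁻¹ ≤ -((√(W2 f x))⁻¹ * tt ν (K x)) := by
    have h2 := mul_le_mul_of_nonneg_left hth hw.le
    have h3 : (√(W2 f x))⁻¹ * (√(W2 f x))⁻¹ = (W2 f x)⁻¹ := by
      rw [← mul_inv, ← sq, hww]
    have h4 : (√(W2 f x))⁻¹ * (((n : ℝ) - 1) / r * (√(W2 f x))⁻¹ + tt ν (K x)) =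
        ((n : ℝ) - 1) / r * (W2 f x)⁻¹ + (√(W2 f x))⁻¹ * tt ν (K x) := by
      rw [← h3]; ring
    rw [h4, mul_zero] at h2
    linarith
  have h0 : 0 ≤ ((n : ℝ) - 1) / r * (W2 f x)⁻¹ := mul_nonneg hr (inv_pos.2 hW0).le
  have h6 : ((n : ℝ) - 1) / r * (W2 f x)⁻¹ ≤ l * -((√(W2 f x))⁻¹ * tt ν (K x)) :=
    h1.trans (le_mul_of_one_le_left (h0.trans h1) hl)
  have h5 : ((n : ℝ) - 1) / r * (a ^ 2 / W2 f x) + ((n : ℝ) - 1) / r * (W2 f x)⁻¹ =
      ((n : ℝ) - 1) / r := by
    rw [← mul_add]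
    have : a ^ 2 / W2 f x + (W2 f x)⁻¹ = 1 := by
      have := W2_ne f x
      field_simp
      rw [hW]; ring
    rw [this, mul_one]
  linarith

end Vale.Agent.H45G
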