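import Vale.Agent.P366.H45.G1

/-! Scalar curvature of a graph, in divergence form. -/

open MeasureTheory Metric Filter Topology Set
open scoped ContDiff ENNReal

noncomputable section
namespace Vale.Agent.H45G
open Vale.Agent.P366.Stmt
open Vale.Agent.P366.T2 (HP)

variable {n : ℕ}

/-- The scalar curvature of the graph. -/
def Sc (f : E n → ℝ) (x : E n) : ℝ :=
  (lap f x ^ 2 - N2 f x) / W2 f x - 2 * (lap f x * Qf f x - P2 f x) / W2 f x ^ 2

/-- The vector field `V`. -/
def Vf (f : E n → ℝ) (i : Fin n) (x : E n) : ℝ := (pd i f x * lap f x - pv f i x) * (W2 f x)⁻¹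

lemma smooth_Vf {f : E n → ℝ} (hf : Smooth f) (i : Fin n) : Smooth (Vf f i) := by
  unfold Vf Smooth
  exact ((ContDiff.mul (smooth_pd hf i) (smooth_lap hf)).sub (smooth_pv hf i)).mul
    ((smooth_W2 hf).inv fun x => W2_ne f x)

/-- `(D²f)²`. -/
def qf (f : E n → ℝ) (i j : Fin n) (x : E n) : ℝ := ∑ k, pd i (pd k f) x * pd j (pd k f) x

lemma HP_lap {f : E n → ℝ} (hf : Smooth f) (i : Fin n) (x : E n) :
    HP i (lap f) (∑ k, pd i (pd k (pd k f)) x) x :=
  HP.sum Finset.univ fun k _ => hp (smooth_pd (smooth_pd hf k) k) i x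

lemma HP_pv {f : E n → ℝ} (hf : Smooth f) (k i : Fin n) (x : E n) :
    HP k (pv f i) (qf f k i x + ∑ l, pd l f x * pd k (pd i (pd l f)) x) x := by
  have h := HP.sum (k := k) (x := x) Finset.univ (f := fun l y => pd l f y * pd i (pd l f) y)
    (fun l _ => (hp (smooth_pd hf l) k x).mul (hp (smooth_pd (smooth_pd hf l) i) k x))
  refine HP_cast h ?_
  unfold qf
  rw [← Finset.sum_add_distrib]

/-- `V` is the divergence form of the scalar curvature. -/
lemma div_Vf {f : E n → ℝ} (hf : Smooth f) (x : E n) : ∑ i, pd i (Vf f i) x = Sc f x := by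
  have hV : ∀ i, HP i (Vf f i) _ x := fun i =>
    (((hp (smooth_pd hf i) i x).mul (HP_lap hf i x)).sub (HP_pv hf i i x)).mul
      (HP_inv (HP_W2 hf i x) (W2_ne f x))
  have h1 : ∀ i, pd i (Vf f i) x = _ := fun i => (hV i).pd
  simp only [h1]
  have hsym : ∑ i, pd i f x * ∑ k, pd i (pd k (pd k f)) x =
      ∑ i, ∑ l, pd l f x * pd i (pd i (pd l f)) x := by
    rw [Finset.sum_comm]
    refine Finset.sum_congr rfl fun i _ => ?_
    rw [Finset.mul_sum]
    refine Finset.sum_congr rfl fun l _ => ?_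
    rw [sym2 (smooth_pd hf l) i l, sym2 hf i l]
  have e1 : ∀ i, (pd i (pd i f) x * lap f x + pd i f x * ∑ k, pd i (pd k (pd k f)) x -
      (qf f i i x + ∑ l, pd l f x * pd i (pd i (pd l f)) x)) * (W2 f x)⁻¹ +
      (pd i f x * lap f x - pv f i x) * (-(2 * pv f i x) / W2 f x ^ 2) =
      (pd i (pd i f) x * (lap f x * (W2 f x)⁻¹) + (pd i f x * ∑ k, pd i (pd k (pd k f)) x) *
        (W2 f x)⁻¹ - qf f i i x * (W2 f x)⁻¹ -
        (∑ l, pd l f x * pd i (pd i (pd l f)) x) * (W2 f x)⁻¹) -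
      (pd i f x * pv f i x) * (2 * lap f x / W2 f x ^ 2) +
      (pv f i x * pv f i x) * (2 / W2 f x ^ 2) := by
    intro i
    ring
  simp only [e1, Finset.sum_add_distrib, Finset.sum_sub_distrib, ← Finset.sum_mul]
  rw [hsym]
  have e2 : ∑ i, qf f i i x = N2 f x := rfl
  have e3 : ∑ i, pd i (pd i f) x = lap f x := rfl
  have e4 : ∑ i, pd i f x * pv f i x = Qf f x := rfl
  have e5 : ∑ i, pv f i x * pv f i x = P2 f x := rfl
  rw [e2, e3, e4, e5]
  unfold Sc
  have := W2_ne f x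
  field_simp
  ring

/-- The Ricci tensor of the graph. -/
def Rc (f : E n → ℝ) (i j : Fin n) (x : E n) : ℝ :=
  (lap f x * pd i (pd j f) x - qf f i j x) / W2 f x - Qf f x * pd i (pd j f) x / W2 f x ^ 2 +
    pv f i x * pv f j x / W2 f x ^ 2

lemma pd_chr {f : E n → ℝ} (hf : Smooth f) (m k i j : Fin n) (x : E n) :
    pd m (chr (gM f) k i j) x = (pd m (pd k f) x * pd i (pd j f) x +
      pd k f x * pd m (pd i (pd j f)) x) * (W2 f x)⁻¹ +
      pd k f x * pd i (pd j f) x * (-(2 * pv f m x) / W2 f x ^ 2) := by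
  rw [chr_gM hf]
  exact (((hp (smooth_pd hf k) m x).mul (hp (smooth_pd (smooth_pd hf j) i) m x)).mul
      (HP_inv (HP_W2 hf m x) (W2_ne f x))).pd

lemma Rc_eq {f : E n → ℝ} (hf : Smooth f) (i j : Fin n) (x : E n) :
    ∑ k, (pd k (chr (gM f) k i j) x - pd j (chr (gM f) k i k) x +
      ∑ l, (chr (gM f) k k l x * chr (gM f) l i j x - chr (gM f) k j l x * chr (gM f) l i k x)) =
      Rc f i j x := by
  have h0 : ∀ k, pd k (chr (gM f) k i j) x - pd j (chr (gM f) k i k) x =
      pd k (pd k f) x * (pd i (pd j f) x * (W2 f x)⁻¹) -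
        (pd i (pd k f) x * pd j (pd k f) x) * (W2 f x)⁻¹ -
        (pd k f x * pv f k x) * (2 * pd i (pd j f) x / W2 f x ^ 2) +
        (pd k f x * pd i (pd k f) x) * (2 * pv f j x / W2 f x ^ 2) := by
    intro k
    rw [pd_chr hf, pd_chr hf]
    have e1 : pd k (pd i (pd j f)) x = pd j (pd i (pd k f)) x := by
      rw [sym2 hf i k, sym2 (smooth_pd hf i) j k, sym2 hf j i]
    rw [e1]
    ring
  have h1 : ∀ k l, chr (gM f) k k l x * chr (gM f) l i j x -
      chr (gM f) k j l x * chr (gM f) l i k x =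
      (pd l f x * (pd k f x * pd k (pd l f) x)) * (pd i (pd j f) x / W2 f x ^ 2) -
        (pd l f x * pd j (pd l f) x) * (pd k f x * pd i (pd k f) x) * (1 / W2 f x ^ 2) := by
    intro k l
    rw [chr_gM hf, chr_gM hf, chr_gM hf, chr_gM hf]
    have := W2_ne f x
    field_simp
  simp only [h0, h1, Finset.sum_add_distrib, Finset.sum_sub_distrib, ← Finset.sum_mul]
  have e3 : ∑ k, pd k (pd k f) x = lap f x := rfl
  have e4 : ∑ k, pd k f x * pv f k x = Qf f x := rfl
  have e5 : ∀ i, ∑ k, pd k f x * pd i (pd k f) x = pv f i x := fun _ => rfl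
  have e6 : ∑ k, ∑ l, pd l f x * (pd k f x * pd k (pd l f) x) = Qf f x := by
    unfold Qf pv
    refine Finset.sum_congr rfl fun k _ => ?_
    rw [Finset.mul_sum]
    exact Finset.sum_congr rfl fun l _ => by ring
  have e7 : ∑ k, pd i (pd k f) x * pd j (pd k f) x = qf f i j x := rfl
  have e8 : ∑ k, (∑ l, pd l f x * pd j (pd l f) x) * (pd k f x * pd i (pd k f) x) =
      pv f j x * pv f i x := by
    rw [← Finset.mul_sum]; rfl
  rw [e3, e4, e5, e6, e7, e8]
  unfold Rc
  have := W2_ne f x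
  field_simp
  ring

lemma qf_contr {f : E n → ℝ} (hf : Smooth f) (x : E n) :
    ∑ i, ∑ j, pd i f x * pd j f x * qf f i j x = P2 f x := by
  unfold P2 qf
  have h1 : ∀ i j, pd i f x * pd j f x * ∑ k, pd i (pd k f) x * pd j (pd k f) x =
      ∑ k, (pd i f x * pd k (pd i f) x) * (pd j f x * pd k (pd j f) x) := by
    intro i j
    rw [Finset.mul_sum]
    refine Finset.sum_congr rfl fun k _ => ?_
    rw [sym2 hf i k, sym2 hf j k]
    ring
  simp only [h1]
  have h2 : ∀ i, ∑ j, ∑ k, (pd i f x * pd k (pd i f) x) * (pd j f x * pd k (pd j f) x) =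
      ∑ k, (pd i f x * pd k (pd i f) x) * pv f k x := by
    intro i
    rw [Finset.sum_comm]
    refine Finset.sum_congr rfl fun k _ => ?_
    rw [← Finset.mul_sum]; rfl
  simp only [h2]
  rw [Finset.sum_comm]
  refine Finset.sum_congr rfl fun k _ => ?_
  rw [← Finset.sum_mul]; rfl

lemma hess_contr {f : E n → ℝ} (x : E n) :
    ∑ i, ∑ j, pd i f x * pd j f x * pd i (pd j f) x = Qf f x := by
  unfold Qf pv
  refine Finset.sum_congr rfl fun i _ => ?_
  rw [Finset.mul_sum]
  exact Finset.sum_congr rfl fun j _ => by ring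

theorem scal_gM {f : E n → ℝ} (hf : Smooth f) (x : E n) : scal (gM f) x = Sc f x := by
  unfold scal
  simp only [Rc_eq hf, up_gM]
  rw [contr]
  have h1 : ∑ i, Rc f i i x = (lap f x ^ 2 - N2 f x) / W2 f x - Qf f x * lap f x / W2 f x ^ 2 +
      P2 f x / W2 f x ^ 2 := by
    have : ∀ i, Rc f i i x = pd i (pd i f) x * (lap f x / W2 f x) - qf f i i x * (1 / W2 f x) -
        pd i (pd i f) x * (Qf f x / W2 f x ^ 2) + (pv f i x * pv f i x) * (1 / W2 f x ^ 2) := by
      intro i; unfold Rc; ring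
    simp only [this, Finset.sum_add_distrib, Finset.sum_sub_distrib, ← Finset.sum_mul]
    have e2 : ∑ i, qf f i i x = N2 f x := rfl
    have e3 : ∑ i, pd i (pd i f) x = lap f x := rfl
    have e5 : ∑ i, pv f i x * pv f i x = P2 f x := rfl
    rw [e2, e3, e5]
    ring
  have h2 : ∑ i, ∑ j, pd i f x * pd j f x * Rc f i j x =
      (lap f x * Qf f x - P2 f x) / W2 f x - Qf f x * Qf f x / W2 f x ^ 2 +
      Qf f x * Qf f x / W2 f x ^ 2 := by
    have : ∀ i j, pd i f x * pd j f x * Rc f i j x =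
        (pd i f x * pd j f x * pd i (pd j f) x) * (lap f x / W2 f x) -
        (pd i f x * pd j f x * qf f i j x) * (1 / W2 f x) -
        (pd i f x * pd j f x * pd i (pd j f) x) * (Qf f x / W2 f x ^ 2) +
        (pd i f x * pv f i x) * (pd j f x * pv f j x) * (1 / W2 f x ^ 2) := by
      intro i j; unfold Rc; ring
    simp only [this, Finset.sum_add_distrib, Finset.sum_sub_distrib, ← Finset.sum_mul]
    rw [hess_contr, qf_contr hf]
    have e6 : ∑ i, ∑ j, pd i f x * pv f i x * (pd j f x * pv f j x) = Qf f x * Qf f x := by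
      rw [← Finset.sum_mul_sum]; rfl
    rw [e6]
    ring
  rw [h1, h2]
  unfold Sc
  have := W2_ne f x
  field_simp
  ring

end Vale.Agent.H45G
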