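import Vale.Agent.P366.H45.G19

/-! The flux at infinity for a general vector field `Y`. -/

open MeasureTheory Metric Filter Topology Set
open scoped ContDiff ENNReal

noncomputable section
namespace Vale.Agent.H45G
open Vale.Agent.P366.Stmt
open Vale.Agent.P366 (dvg flux sphI sphM norm_smul_sph)

variable {n : ℕ}

lemma flux_congr {Z Z' : Fin n → E n → ℝ} {ρ : ℝ} (hρ : 0 ≤ ρ)
    (h : ∀ x : E n, ‖x‖ = ρ → ∀ i, Z i x = Z' i x) : flux Z ρ = flux Z' ρ := by
  unfold flux sphI
  congr 2
  funext θ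
  exact Finset.sum_congr rfl fun i _ => by rw [h _ (norm_smul_sph hρ θ)]

lemma flux_lin {ι : Type} (s : Finset ι) (y : ι → ℝ) {Z : ι → Fin n → E n → ℝ}
    (hZ : ∀ j i, Smooth (Z j i)) {ρ : ℝ} (hρ : 0 < ρ) :
    flux (fun i x => ∑ j ∈ s, y j * Z j i x) ρ = ∑ j ∈ s, y j * flux (Z j) ρ := by
  have hi : ∀ j, Integrable (fun θ : sphere (0 : E n) 1 =>
      ∑ i, Z j i (ρ • (θ : E n)) * ((ρ • (θ : E n)) i / ‖ρ • (θ : E n)‖)) (sphM n) := by
    intro j
    have h1 := cont_sph (hZ j) 0 hρ
    simpa only [add_zero] using h1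
  unfold flux sphI
  have h2 : ∀ θ : sphere (0 : E n) 1,
      ∑ i, (∑ j ∈ s, y j * Z j i (ρ • (θ : E n))) *
        ((ρ • (θ : E n)) i / ‖ρ • (θ : E n)‖) =
      ∑ j ∈ s, y j * ∑ i, Z j i (ρ • (θ : E n)) *
        ((ρ • (θ : E n)) i / ‖ρ • (θ : E n)‖) := by
    intro θ
    simp only [Finset.sum_mul, Finset.mul_sum]
    rw [Finset.sum_comm]
    exact Finset.sum_congr rfl fun j _ => Finset.sum_congr rfl fun i _ => by ring
  simp only [h2]
  rw [integral_finsetSum _ fun j _ => (hi j).const_mul (y j), Finset.mul_sum]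
  refine Finset.sum_congr rfl fun j _ => ?_
  rw [integral_const_mul]
  ring

/-- The flux at infinity. -/
theorem flux_infY (hn : 3 ≤ n) {D : Exterior n} {f : E n → ℝ} {Y : Fin n → E n → ℝ}
    (hf : Smooth f) (hY : ∀ i, Smooth (Y i))
    (hg : ∀ x, 0 ≤ D.F x → ∀ i j, D.g x i j = gM f x i j)
    (hAF : D.IsAF) {m : ℝ} (hm : D.IsEnergy m) {p : Fin n → ℝ} (hp : D.IsMomentum p)
    {y : Fin n → ℝ} {a : ℝ} (ha : (n : ℝ) / 2 - 1 < a)
    (hYa : ∀ i, BigO a fun x => Y i x - y i) :
    Tendsto (flux fun i x => Vf f i x + Xy f (momT (gM f) D.K) Y i x) atTop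
      (𝓝 (2 * (((n : ℝ) - 1) * Vale.Agent.P366.omega n * m) -
        ((n : ℝ) - 1) * Vale.Agent.P366.omega n * ∑ j, y j * p j)) := by
  have hn3 : (3 : ℝ) ≤ n := by exact_mod_cast hn
  have hn0 : 0 < (n : ℝ) - 1 := by linarith
  have : Nonempty (Fin n) := ⟨⟨0, by omega⟩⟩
  have : Nontrivial (E n) := inferInstance
  have hω : 0 < Vale.Agent.P366.omega n := Vale.Agent.P366.omega_pos'
  have ha0 : 0 < a := by linarith
  have hKs : ∀ i j, Smooth fun x => D.K x i j := fun i j => (D.smooth i j).2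
  have hKy : ∀ x i j, D.K x i j = D.K x j i := fun x i j => (D.symm x i j).2
  obtain ⟨R0, hR0⟩ := D.dom.2.2.2
  set P : Field n := momT (gM f) D.K with hPd
  have hPs : ∀ i j, Smooth fun x => P x i j := smooth_momT hf hKs
  have hXs : ∀ i, Smooth (Xy f P Y i) := smooth_Xy hf hPs hY
  -- the energy part
  have h1 : Tendsto (flux (Vf f)) atTop
      (𝓝 (2 * (((n : ℝ) - 1) * Vale.Agent.P366.omega n * m))) := by
    have h2 := flux_inf hn (u := fun _ => 0) hf contDiff_const hKs hg (fun _ _ _ _ => rfl) hAF hm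
      ⟨a, ha, fun i => ⟨0, 0, fun x _ => by simp⟩⟩
    have h3 : (fun i x => Vf f i x + Xf f (fun _ => 0) (momT (gM f) D.K) i x) = Vf f := by
      funext i x
      unfold Xf
      ring
    rwa [h3] at h2
  -- the momentum part
  have hPD : ∀ x, R0 < len x → ∀ i j, momT D.g D.K x i j = P x i j := by
    intro x hx i j
    have h0 := hg x (hR0 x hx).le
    have h2 : mat D.g x = mat (gM f) x := by ext a b; exact h0 a b
    have h3 : tr D.g D.K x = tr (gM f) D.K x := by unfold tr up; rw [h2]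
    simp only [hPd, momT, h0, h3]
  have h2 : ∀ j, Tendsto (flux fun i x => P x i j) atTop
      (𝓝 (((n : ℝ) - 1) * Vale.Agent.P366.omega n * p j)) := by
    intro j
    have h3 := (hp j).const_mul (((n : ℝ) - 1) * Vale.Agent.P366.omega n)
    refine h3.congr' ?_
    filter_upwards [eventually_gt_atTop (max R0 0)] with ρ hρ
    have hρ0 : 0 < ρ := (le_max_right _ _).trans_lt hρ
    have hρR : R0 < ρ := (le_max_left _ _).trans_lt hρ
    rw [Vale.Agent.P366.flx_eq]
    have h4 : Vale.Agent.P366.sphInt ρ (fun x => ∑ i, momT D.g D.K x j i * (x i / ‖x‖)) =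
        flux (fun i x => momT D.g D.K x j i) ρ := rfl
    rw [h4, flux_congr (Z' := fun i x => P x i j) hρ0.le fun x hx i => by
      rw [hPD x (by
        have : len x = ρ := hx
        rw [this]; exact hρR) j i]
      exact symm_momT (hKy x) j i]
    field_simp
  -- the error term
  set T : Fin n → E n → ℝ := fun i x => ∑ j, y j * P x i j with hT
  set Er : Fin n → E n → ℝ := fun i x => Xy f P Y i x + T i x with hEr
  have hTs : ∀ i, Smooth (T i) := fun i =>
    ContDiff.sum fun j _ => ContDiff.mul contDiff_const (hPs i j)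
  have hErs : ∀ i, Smooth (Er i) := fun i => (hXs i).add (hTs i)
  have hTlim : Tendsto (flux T) atTop
      (𝓝 (((n : ℝ) - 1) * Vale.Agent.P366.omega n * ∑ j, y j * p j)) := by
    have h3 : Tendsto (fun ρ => ∑ j, y j * flux (fun i x => P x i j) ρ) atTop
        (𝓝 (∑ j, y j * (((n : ℝ) - 1) * Vale.Agent.P366.omega n * p j))) :=
      tendsto_finsetSum _ fun j _ => (h2 j).const_mul (y j)
    have h4 : ∑ j, y j * (((n : ℝ) - 1) * Vale.Agent.P366.omega n * p j) =
        ((n : ℝ) - 1) * Vale.Agent.P366.omega n * ∑ j, y j * p j := by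
      rw [Finset.mul_sum]; exact Finset.sum_congr rfl fun j _ => by ring
    rw [h4] at h3
    refine h3.congr' ?_
    filter_upwards [eventually_gt_atTop (0 : ℝ)] with ρ hρ
    exact (flux_lin Finset.univ y (Z := fun j i x => P x i j) (fun j i => hPs i j) hρ).symm
  obtain ⟨q, hq, hAF'⟩ := hAF
  have hq0 : 0 < q := by linarith
  have hbg : ∀ i j, BigO q fun x => pd i f x * pd j f x := by
    intro i j
    refine bo_congr (hAF' i j i j).1 (R := R0) fun x hx => ?_
    rw [hg x (hR0 x hx).le]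
    unfold gM
    ring
  have hbW : BigO q fun x => W2 f x - 1 := by
    refine bo_congr (bo_sum Finset.univ fun i _ => hbg i i) (R := 0) fun x _ => ?_
    rw [← sum_sq]
  have hup : ∀ i j, BigO 0 (up (gM f) i j) := by
    intro i j
    refine bo_bdd (C := 2) (R := 0) fun x _ => ?_
    rw [up_gM]
    have h3 : |pd i f x * pd j f x / W2 f x| ≤ 1 := by
      rw [abs_div, abs_of_pos (W2_pos f x), div_le_one (W2_pos f x), abs_mul]
      have h4 : ∀ i, |pd i f x| ^ 2 ≤ W2 f x - 1 := by
        intro i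
        rw [← sum_sq, sq_abs, sq]
        exact Finset.single_le_sum (f := fun i => pd i f x * pd i f x)
          (fun j _ => mul_self_nonneg _) (Finset.mem_univ i)
      nlinarith [h4 i, h4 j, sq_nonneg (|pd i f x| - |pd j f x|)]
    have h5 : |(if i = j then (1 : ℝ) else 0)| ≤ 1 := by split_ifs <;> simp
    calc |(if i = j then (1 : ℝ) else 0) - pd i f x * pd j f x / W2 f x|
        ≤ |(if i = j then (1 : ℝ) else 0)| + |pd i f x * pd j f x / W2 f x| := abs_sub _ _
      _ ≤ 2 := by linarith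
  have hbK : ∀ i j, BigO (q + 1) fun x => D.K x i j := fun i j => (hAF' i j i i).2.2.2.1
  have hbgm : ∀ i j, BigO 0 fun x => gM f x i j := by
    intro i j
    have h4 : BigO 0 fun _ : E n => (if i = j then (1 : ℝ) else 0) :=
      bo_bdd (C := 1) (R := 0) fun x _ => by split_ifs <;> simp
    exact bo_add h4 (bo_mono hq0.le (hbg i j))
  have hbP : ∀ i j, BigO (q + 1) fun x => P x i j := by
    intro i j
    have h3 : BigO (q + 1) fun x => tr (gM f) D.K x := by
      refine bo_sum _ fun a _ => bo_sum _ fun b _ => ?_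
      have := bo_mul (hup a b) (hbK a b)
      rwa [zero_add] at this
    have h4 := bo_mul h3 (hbgm i j)
    rw [add_zero] at h4
    exact bo_sub (hbK i j) h4
  have hbY : ∀ i, BigO 0 (Y i) := by
    intro i
    refine bo_congr (bo_add (bo_mono ha0.le (hYa i)) (bo_bdd (f := fun _ : E n => y i)
      (C := |y i|) (R := 0) fun x _ => le_rfl)) (R := 0) fun x _ => ?_
    ring
  have hbq : ∀ i, BigO (q + 1) (qy P Y i) := by
    intro i
    refine bo_sum _ fun j _ => ?_
    have := bo_mul (hbP i j) (hbY j)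
    rwa [add_zero] at this
  have hbqe : ∀ i, BigO (q + 1 + a) fun x => qy P Y i x - T i x := by
    intro i
    refine bo_congr (bo_sum Finset.univ fun j _ => bo_mul (hbP i j) (hYa j)) (R := 0)
      fun x _ => ?_
    simp only [hT, qy]
    rw [← Finset.sum_sub_distrib]
    exact Finset.sum_congr rfl fun j _ => by ring
  have hbs : ∀ i, BigO (q + (q + 1)) fun x => pd i f x * sq1 f (qy P Y) x := by
    intro i
    refine bo_congr (bo_sum Finset.univ fun j _ => bo_mul (hbg i j) (hbq j)) (R := 0)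
      fun x _ => ?_
    unfold sq1
    rw [Finset.mul_sum]
    exact Finset.sum_congr rfl fun j _ => by ring
  have hw1 : ∀ x, 1 ≤ √(W2 f x) := by
    intro x
    rw [Real.one_le_sqrt]
    have h6 : 0 ≤ ∑ i, pd i f x ^ 2 := Finset.sum_nonneg fun i _ => sq_nonneg _
    unfold W2; linarith
  have hbw : BigO q fun x => √(W2 f x) - 1 := by
    refine bo_le hbW (R := 0) fun x _ => ?_
    have h3 := hw1 x
    have h4 : √(W2 f x) ^ 2 = W2 f x := Real.sq_sqrt (W2_pos f x).le
    rw [abs_of_nonneg (by linarith), abs_of_nonneg (by nlinarith)]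
    nlinarith
  have h3 : Tendsto (flux Er) atTop (𝓝 0) := by
    set e := min (q + (q + 1)) (q + 1 + a) with he
    have he1 : (n : ℝ) - 1 < e := by
      rw [he, lt_min_iff]
      constructor <;> linarith
    refine flux_lim (by omega) he1 fun i => ?_
    have b1 : BigO e fun x => (√(W2 f x) - 1) * qy P Y i x :=
      bo_mono (min_le_left _ _) (bo_mul hbw (hbq i))
    have b2 : BigO e fun x => qy P Y i x - T i x := bo_mono (min_le_right _ _) (hbqe i)
    have b3 : BigO e fun x => √(W2 f x) * (pd i f x * sq1 f (qy P Y) x * (W2 f x)⁻¹) := by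
      refine bo_le (bo_mono (min_le_left _ _) (hbs i)) (R := 0) fun x _ => ?_
      have h4 : √(W2 f x) ^ 2 = W2 f x := Real.sq_sqrt (W2_pos f x).le
      have h5 : √(W2 f x) * (pd i f x * sq1 f (qy P Y) x * (W2 f x)⁻¹) =
          (√(W2 f x))⁻¹ * (pd i f x * sq1 f (qy P Y) x) := by
        have hwi : (W2 f x)⁻¹ = (√(W2 f x))⁻¹ * (√(W2 f x))⁻¹ := by
          rw [← mul_inv, ← sq, h4]
        have := hw1 x
        rw [hwi]
        field_simp
      rw [h5, abs_mul]
      refine mul_le_of_le_one_left (abs_nonneg _) ?_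
      rw [abs_of_pos (inv_pos.2 (by linarith [hw1 x]))]
      exact inv_le_one_of_one_le₀ (hw1 x)
    refine bo_congr (bo_sub b3 (bo_add b1 b2)) (R := 0) fun x _ => ?_
    simp only [hEr]
    unfold Xy Rq
    ring
  have h4 := (h1.add h3).sub hTlim
  rw [add_zero] at h4
  refine h4.congr' ?_
  filter_upwards [eventually_gt_atTop (0 : ℝ)] with ρ hρ
  rw [← flux_add (smooth_Vf hf) hErs hρ]
  have h5 : (fun i x => Vf f i x + Er i x) =
      fun i x => (Vf f i x + Xy f P Y i x) + T i x := by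
    funext i x
    simp only [hEr]
    ring
  rw [h5, flux_add (fun i => (smooth_Vf hf i).add (hXs i)) hTs hρ]
  ring

end Vale.Agent.H45G
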