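import Vale.Agent.P366.H45.G20
import Vale.Agent.P366.H45.G17

/-! The main theorem for a general vector field `Y`, with the momentum. -/

open MeasureTheory Metric Filter Topology Set
open scoped ContDiff ENNReal

noncomputable section
namespace Vale.Agent.H45G
open Vale.Agent.P366.Stmt
open Vale.Agent.P366.GraphClass
open Vale.Agent.P366 (dvg flux sphI sphM norm_smul_sph)

variable {n : ℕ}

lemma germY {g g' K : Field n} {x : E n} (hg : ∀ᶠ y in 𝓝 x, ∀ i j, g y i j = g' y i j)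
    (Y : Fin n → E n → ℝ) :
    vecLen g Y x = vlen g' Y x ∧ piDer g K Y x = pdy g' (momT g' K) Y x := by
  have hup : ∀ᶠ y in 𝓝 x, ∀ i j, up g i j y = up g' i j y := by
    filter_upwards [hg] with y hy i j
    have : mat g y = mat g' y := by ext a b; exact hy a b
    unfold up; rw [this]
  have hpd : ∀ᶠ y in 𝓝 x, ∀ k i j, pd k (fun z => g z i j) y = pd k (fun z => g' z i j) y := by
    filter_upwards [eventually_eventually_nhds.2 hg] with y hy k i j
    exact pd_congr' (hy.mono fun z hz => hz i j) k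
  have hchr : ∀ᶠ y in 𝓝 x, ∀ k i j, chr g k i j y = chr g' k i j y := by
    filter_upwards [hup, hpd] with y h1 h2 k i j
    simp only [chr, h1, h2]
  have u0 := hup.self_of_nhds
  have c0 := hchr.self_of_nhds
  have g0 := hg.self_of_nhds
  constructor
  · simp only [vecLen, vlen, g0]
  · simp only [piDer, pdy, covDer, cov, momT, tr, u0, c0, g0]

section

variable {ι : Type} [Fintype ι] {c : ι → E n} {r : ι → ℝ}

/-- The energy-momentum bound. -/
theorem energy_geY (hn : 3 ≤ n) {D : Exterior n} {f : E n → ℝ} {Y : Fin n → E n → ℝ}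
    (hAF : D.IsAF) (hDEC : D.DEC) (hT : D.Trapped) {m : ℝ} (hm : D.IsEnergy m)
    {p : Fin n → ℝ} (hp : D.IsMomentum p)
    (hB : Balls D.F c r) (hf : Smooth f) (hY : ∀ i, Smooth (Y i))
    (hg : ∀ x, 0 ≤ D.F x → ∀ i j, D.g x i j = gM f x i j)
    (hlev : ∀ k x y, ‖x - c k‖ = r k → ‖y - c k‖ = r k → f x = f y)
    {y : Fin n → ℝ} {a : ℝ} (ha : (n : ℝ) / 2 - 1 < a)
    (hYa : ∀ i, BigO a fun x => Y i x - y i)
    (hYS : ∀ k x, ‖x - c k‖ = r k → ∃ l : ℝ, 1 ≤ l ∧
      ∀ i, Y i x = -(l * (nu (c k) (r k) x i / W2 f x)))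
    (hstar : ∀ x, 0 < D.F x → √(W2 f x) * (vlen (gM f) Y x * mu (gM f) D.K x +
      pdy (gM f) (momT (gM f) D.K) Y x) ≤ scal (gM f) x) :
    (∑ k, r k ^ (n - 2)) / 2 ≤ m - (∑ j, y j * p j) / 2 := by
  have hne : Nonempty (Fin n) := ⟨⟨0, by omega⟩⟩
  have hnt : Nontrivial (E n) := inferInstance
  have hω : 0 < Vale.Agent.P366.omega n := Vale.Agent.P366.omega_pos'
  have hn0 : 0 < (n : ℝ) - 1 := by
    have : (3 : ℝ) ≤ n := by exact_mod_cast hn
    linarith
  have hFs := D.dom.1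
  have hFne := D.dom.2.1
  have hKs : ∀ i j, Smooth fun x => D.K x i j := fun i j => (D.smooth i j).2
  have hPs := smooth_momT hf hKs
  have hYt : ∀ i, Smooth fun x => Vf f i x + Xy f (momT (gM f) D.K) Y i x := fun i =>
    (smooth_Vf hf i).add (smooth_Xy hf hPs hY i)
  have hlim := flux_infY hn hf hY hg hAF hm hp ha hYa
  obtain ⟨R0, hR0⟩ := D.dom.2.2.2
  -- the interior inequality
  have hpos : ∀ x, (∀ k, x ∉ closedBall (c k) (r k)) →
      0 ≤ dvg (fun i x => Vf f i x + Xy f (momT (gM f) D.K) Y i x) x := by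
    intro x hx
    have hx' : ∀ k, r k < ‖x - c k‖ := by
      intro k
      have := hx k
      simpa [dist_eq_norm] using this
    have hF0 := hB.pos_out hFs hFne hx'
    have hev : ∀ᶠ y in 𝓝 x, 0 < D.F y :=
      (isOpen_lt continuous_const hFs.continuous).mem_nhds hF0
    obtain ⟨h1, h2, h3, h4, h5⟩ := germ (K := D.K) (K' := D.K)
      (hev.mono fun y hy i j => hg y hy.le i j) (Eventually.of_forall fun y i j => rfl)
    rw [dvg_eq hYt]
    refine div_nonnegY hf hKs hY ?_ (hstar x hF0)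
    have h6 := hDEC x hF0.le
    have h7 : covNorm D.g (mom D.g D.K) x = covNorm (gM f) (mom (gM f) D.K) x := by
      simp only [covNorm, h1, h4]
    rwa [h7, h3] at h6
  -- the boundary flux
  have hbd : ∀ k, r k ^ (n - 1) * (Vale.Agent.P366.omega n * (((n : ℝ) - 1) / r k)) ≤
      flc (c k) (fun i x => Vf f i x + Xy f (momT (gM f) D.K) Y i x) (r k) := by
    intro k
    refine flc_ge hYt (c k) (hB.pos k) fun x hx => ?_
    have hL := level hf (hB.pos k) (hlev k) hx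
    obtain ⟨b, hb, hLF⟩ := hB.lev hFs hFne hx
    have hF0 := hB.zero_sph hFs hx
    have h1 := hT x hF0
    have h2 : thetaPlus D.g D.K D.F x = thetaPlus (gM f) D.K D.F x := by
      refine thetaPlus_congr (hg x hF0.ge) (fun i j => rfl) fun i j k => ?_
      exact pd_eq_of_eqOn hFs hFne (fun y hy => hg y hy i j) hF0.ge
        (diffAt (D.smooth i j).1 x) (diffAt (smooth_gM hf i j) x) k
    rw [h2, theta_lev D.K hf (hB.pos k) hb hL hLF] at h1
    obtain ⟨l, hl, hYl⟩ := hYS k x hx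
    exact bdry_geY D.K hL (div_nonneg hn0.le (hB.pos k).le) hl hYl h1
  -- the flux inequality
  have hge : ∑ k, flc (c k) (fun i x => Vf f i x + Xy f (momT (gM f) D.K) Y i x) (r k) ≤
      2 * (((n : ℝ) - 1) * Vale.Agent.P366.omega n * m) -
        ((n : ℝ) - 1) * Vale.Agent.P366.omega n * ∑ j, y j * p j := by
    refine ge_of_tendsto hlim ?_
    filter_upwards [eventually_gt_atTop (max R0 0)] with ρ hρ
    refine flux_ge hYt hB.pos hB.pw ((le_max_right _ _).trans_lt hρ) (fun k x hx => ?_) hpos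
    rw [mem_closedBall, dist_zero_right]
    by_contra hcon
    have h1 := hR0 x ((le_max_left _ _).trans_lt (hρ.trans (not_le.1 hcon)))
    have h2 : ‖x - c k‖ ≤ r k := by simpa [dist_eq_norm] using hx
    rcases h2.eq_or_lt with h3 | h3
    · rw [hB.zero_sph hFs h3] at h1
      exact lt_irrefl _ h1
    · exact absurd ((hB.dom x).2 ⟨k, h3⟩) (not_lt.2 h1.le)
  have h1 := (Finset.sum_le_sum fun k (_ : k ∈ Finset.univ) => hbd k).trans hge
  have h2 : ∀ k, r k ^ (n - 1) * (Vale.Agent.P366.omega n * (((n : ℝ) - 1) / r k)) =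
      (((n : ℝ) - 1) * Vale.Agent.P366.omega n) * r k ^ (n - 2) := by
    intro k
    have hr := hB.pos k
    have : r k ^ (n - 1) = r k ^ (n - 2) * r k := by
      rw [← pow_succ]; congr 1; omega
    rw [this]
    field_simp
  simp only [h2] at h1
  rw [← Finset.mul_sum] at h1
  have h3 : 0 < ((n : ℝ) - 1) * Vale.Agent.P366.omega n := mul_pos hn0 hω
  have h4 : 2 * (((n : ℝ) - 1) * Vale.Agent.P366.omega n * m) -
        ((n : ℝ) - 1) * Vale.Agent.P366.omega n * ∑ j, y j * p j =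
      (((n : ℝ) - 1) * Vale.Agent.P366.omega n) * (2 * m - ∑ j, y j * p j) := by ring
  rw [h4] at h1
  have := le_of_mul_le_mul_left h1 h3
  linarith

end

theorem final3 (hn : 3 ≤ n) (D : Exterior n) (hAF : D.IsAF) (hDEC : D.DEC)
    (hT : D.Trapped) (m : ℝ) (hm : D.IsEnergy m) (P : Fin n → ℝ) (hP : D.IsMomentum P)
    {ι : Type} [Fintype ι] (c : ι → E n) (r : ι → ℝ) (hr : ∀ k, 0 < r k)
    (hsep : ∀ j k, j ≠ k → r j + r k < len (c j - c k))
    (hS : ∀ x, D.F x < 0 ↔ ∃ k, len (x - c k) < r k)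
    (f : E n → ℝ) (hf : Smooth f)
    (hlev : ∀ k x y, len (x - c k) = r k → len (y - c k) = r k → f x = f y)
    (hg : ∀ x, 0 ≤ D.F x → ∀ i j, D.g x i j = graphMetric f x i j)
    (Y : Fin n → E n → ℝ) (hY : ∀ i, Smooth (Y i)) (y : Fin n → ℝ)
    (hYa : ∃ a : ℝ, (n : ℝ) / 2 - 1 < a ∧ ∀ i, BigO a fun x => Y i x - y i)
    (hYS : ∀ k x, len (x - c k) = r k → ∃ l : ℝ, 1 ≤ l ∧
      ∀ i, Y i x = -(l * ((x i - c k i) / r k / slope f x ^ 2)))
    (hstar : ∀ x, 0 < D.F x → slope f x * (vecLen D.g Y x * mu D.g D.K x +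
      piDer D.g D.K Y x) ≤ scal D.g x) :
    D.Amin ≠ ⊤ ∧ (∑ k, r k ^ (n - 2)) / 2 ≤ m - (∑ j, y j * P j) / 2 ∧
      (D.Amin.toReal / omega n) ^ (((n : ℝ) - 2) / (n - 1)) / 2 ≤ m - (∑ j, y j * P j) / 2 ∧
      ((∀ j, m * y j = 2 * P j) → ∑ j, y j ^ 2 < 4 →
        √(∑ j, P j ^ 2) < m ∧ (∑ k, r k ^ (n - 2)) / 2 ≤ √(m ^ 2 - ∑ j, P j ^ 2) ∧
        (D.Amin.toReal / omega n) ^ (((n : ℝ) - 2) / (n - 1)) / 2 ≤
          √(m ^ 2 - ∑ j, P j ^ 2) ∧
        ((∃ j k : ι, j ≠ k) →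
          (D.Amin.toReal / omega n) ^ (((n : ℝ) - 2) / (n - 1)) / 2 <
            √(m ^ 2 - ∑ j, P j ^ 2))) := by
  have hB : Balls D.F c r := ⟨hr, hsep, hS⟩
  have hg' : ∀ x, 0 ≤ D.F x → ∀ i j, D.g x i j = gM f x i j := hg
  obtain ⟨a, ha, hYa⟩ := hYa
  have hw2 : ∀ x, slope f x ^ 2 = W2 f x := fun x => by
    rw [slope_eq]; exact Real.sq_sqrt (W2_pos f x).le
  have hE := energy_geY hn hAF hDEC hT hm hP hB hf hY hg' hlev ha hYa
    (fun k x hx => by
      obtain ⟨l, hl, hYl⟩ := hYS k x hx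
      exact ⟨l, hl, fun i => by rw [hYl i, hw2]; rfl⟩) (by
      intro x hx
      have hev : ∀ᶠ y in 𝓝 x, 0 < D.F y :=
        (isOpen_lt continuous_const D.dom.1.continuous).mem_nhds hx
      obtain ⟨h1, h2, h3, h4, h5⟩ := germ (K := D.K) (K' := D.K)
        (hev.mono fun y hy i j => hg' y hy.le i j) (Eventually.of_forall fun y i j => rfl)
      obtain ⟨h6, h7⟩ := germY (K := D.K) (hev.mono fun y hy i j => hg' y hy.le i j) Y
      have h8 := hstar x hx
      rw [h6, h7, h3, h2] at h8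
      exact h8)
  obtain ⟨p1, p2, p3, p4⟩ := penrose_of hn hB hf hg' hlev hE
  refine ⟨p1, p3, p4, fun hy hy4 => ?_⟩
  -- the momentum
  set b := (∑ k, r k ^ (n - 2)) / 2 with hb
  set t := (∑ j, y j ^ 2) / 4 with ht
  have ht0 : 0 ≤ t := by
    rw [ht]; exact div_nonneg (Finset.sum_nonneg fun j _ => sq_nonneg _) (by norm_num)
  have ht1 : t < 1 := by rw [ht]; linarith
  have hPj : ∀ j, P j = m * y j / 2 := fun j => by linarith [hy j]
  have hPP : ∑ j, P j ^ 2 = m ^ 2 * t := by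
    rw [ht, Finset.sum_div, Finset.mul_sum]
    exact Finset.sum_congr rfl fun j _ => by rw [hPj]; ring
  have hyP : (∑ j, y j * P j) / 2 = m * t := by
    rw [ht, Finset.sum_div, Finset.sum_div, Finset.mul_sum]
    exact Finset.sum_congr rfl fun j _ => by rw [hPj]; ring
  rw [hyP] at p2
  have hm0 : 0 < m := by
    have h1 : 0 < m * (1 - t) := by linarith
    exact (pos_iff_pos_of_mul_pos h1).2 (by linarith)
  have hE' : b ≤ √(m ^ 2 - ∑ j, P j ^ 2) := by
    rw [hyP] at hE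
    refine hE.trans ?_
    refine Real.le_sqrt_of_sq_le ?_
    rw [hPP]
    have h1 : (m - m * t) ^ 2 = m ^ 2 * ((1 - t) * (1 - t)) := by ring
    have h2 : m ^ 2 - m ^ 2 * t = m ^ 2 * ((1 - t) * 1) := by ring
    rw [h1, h2]
    refine mul_le_mul_of_nonneg_left ?_ (sq_nonneg m)
    exact mul_le_mul_of_nonneg_left (by linarith) (by linarith)
  obtain ⟨q1, q2, q3, q4⟩ := penrose_of hn hB hf hg' hlev hE'
  refine ⟨?_, hE', q4, ?_⟩
  · rw [hPP, Real.sqrt_mul (sq_nonneg m), Real.sqrt_sq hm0.le]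
    have : √t < 1 := by rw [Real.sqrt_lt' one_pos]; linarith
    nlinarith
  · rintro ⟨j, k, hjk⟩
    exact penrose_lt hn hB hf hg' hlev hE' hjk

end Vale.Agent.H45G
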