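import Vale.Agent.P366.H45.G21

/-! The final theorem, assembled. -/

open MeasureTheory Metric Filter Topology Set
open scoped ContDiff ENNReal

noncomputable section
namespace Vale.Agent.H45G
open Vale.Agent.P366.Stmt
open Vale.Agent.P366.GraphClass

variable {n : ℕ}

theorem final4 (hn : 3 ≤ n) (D : Exterior n) (hAF : D.IsAF) (hDEC : D.DEC)
    (hT : D.Trapped) (m : ℝ) (hm : D.IsEnergy m)
    {ι : Type} [Fintype ι] (c : ι → E n) (r : ι → ℝ) (hr : ∀ k, 0 < r k)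
    (hsep : ∀ j k, j ≠ k → r j + r k < len (c j - c k))
    (hS : ∀ x, D.F x < 0 ↔ ∃ k, len (x - c k) < r k)
    (f : E n → ℝ) (hf : Smooth f)
    (hlev : ∀ k x y, len (x - c k) = r k → len (y - c k) = r k → f x = f y)
    (hg : ∀ x, 0 ≤ D.F x → ∀ i j, D.g x i j = graphMetric f x i j) :
    D.Amin ≠ ⊤ ∧ 0 < (∑ k, r k ^ (n - 2)) / 2 ∧
    (D.Amin.toReal / omega n) ^ (((n : ℝ) - 2) / (n - 1)) / 2 ≤ (∑ k, r k ^ (n - 2)) / 2 ∧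
    ((∃ j k : ι, j ≠ k) → (D.Amin.toReal / omega n) ^ (((n : ℝ) - 2) / (n - 1)) / 2 <
      (∑ k, r k ^ (n - 2)) / 2) ∧
    (∀ u : E n → ℝ, Smooth u →
      (∀ x, 0 ≤ D.F x → u x ^ 2 * ∑ i, pd i f x ^ 2 ≤ 1) →
      (∃ a : ℝ, (n : ℝ) / 2 - 1 < a ∧ ∀ i, BigO a fun x => u x * pd i f x) →
      (∀ x, 0 ≤ D.F x → ∀ i, ∑ j, rest D.K f u x i j * pd j f x =
        trE (rest D.K f u) x * pd i f x) →
      (∀ x, 0 ≤ D.F x → (∀ i, pd i f x = 0) →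
        trE (rest D.K f u) x ^ 2 ≤ ∑ i, ∑ j, rest D.K f u x i j ^ 2) →
      (∀ k x, len (x - c k) = r k → (∀ i, pd i f x = 0) →
        ∑ i, ∑ j, (x i - c k i) / r k * ((x j - c k j) / r k) * rest D.K f u x i j =
          trE (rest D.K f u) x) →
      (∑ k, r k ^ (n - 2)) / 2 ≤ m) ∧
    (∀ P : Fin n → ℝ, D.IsMomentum P → ∀ (Y : Fin n → E n → ℝ) (y : Fin n → ℝ),
      (∀ i, Smooth (Y i)) →
      (∃ a : ℝ, (n : ℝ) / 2 - 1 < a ∧ ∀ i, BigO a fun x => Y i x - y i) →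
      (∀ k x, len (x - c k) = r k → ∃ l : ℝ, 1 ≤ l ∧
        ∀ i, Y i x = -(l * ((x i - c k i) / r k / slope f x ^ 2))) →
      (∀ x, 0 < D.F x → slope f x * (vecLen D.g Y x * mu D.g D.K x +
        piDer D.g D.K Y x) ≤ scal D.g x) →
      (∑ k, r k ^ (n - 2)) / 2 ≤ m - (∑ j, y j * P j) / 2 ∧
      ((∀ j, m * y j = 2 * P j) → ∑ j, y j ^ 2 < 4 →
        √(∑ j, P j ^ 2) < m ∧ (∑ k, r k ^ (n - 2)) / 2 ≤ √(m ^ 2 - ∑ j, P j ^ 2))) := by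
  have hB : Balls D.F c r := ⟨hr, hsep, hS⟩
  have hg' : ∀ x, 0 ≤ D.F x → ∀ i j, D.g x i j = gM f x i j := hg
  obtain ⟨h1, h2, h3, h4⟩ := penrose_of hn hB hf hg' hlev le_rfl
  refine ⟨h1, h2, h4, ?_, ?_, ?_⟩
  · rintro ⟨j, k, hjk⟩
    exact penrose_lt hn hB hf hg' hlev le_rfl hjk
  · intro u hu htilt hdec a1 a2 a3
    exact (final2 hn D hAF hDEC hT m hm c r hr hsep hS f u hf hu hlev hg htilt hdec
      (Or.inl ⟨a1, a2, a3⟩)).2.2.1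
  · intro P hP Y y hY hYa hYS hstar
    obtain ⟨_, b2, _, b4⟩ := final3 hn D hAF hDEC hT m hm P hP c r hr hsep hS f hf hlev hg Y hY y
      hYa hYS hstar
    refine ⟨b2, fun c1 c2 => ?_⟩
    obtain ⟨d1, d2, _, _⟩ := b4 c1 c2
    exact ⟨d1, d2⟩

end Vale.Agent.H45G
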