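import Vale.Agent.P366.H45.G2

/-! Energy and momentum densities of a graph with `K` a multiple of the Hessian. -/

open MeasureTheory Metric Filter Topology Set
open scoped ContDiff ENNReal

noncomputable section
namespace Vale.Agent.H45G
open Vale.Agent.P366.Stmt
open Vale.Agent.P366.T2 (HP)

variable {n : ℕ}

/-- `K = σ D²f`. -/
def kS (f σ : E n → ℝ) : Field n := fun x i j => σ x * pd i (pd j f) x

/-- The scaled mean curvature. -/
def hf (f : E n → ℝ) (x : E n) : ℝ := lap f x - Qf f x * (W2 f x)⁻¹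

lemma tr_gM (f σ : E n → ℝ) (x : E n) : tr (gM f) (kS f σ) x = σ x * hf f x := by
  unfold tr
  simp only [up_gM]
  rw [contr]
  have h1 : ∑ i, kS f σ x i i = σ x * lap f x := by
    unfold kS lap; rw [Finset.mul_sum]
  have h2 : ∑ i, ∑ j, pd i f x * pd j f x * kS f σ x i j = σ x * Qf f x := by
    rw [← hess_contr, Finset.mul_sum]
    refine Finset.sum_congr rfl fun i _ => ?_
    rw [Finset.mul_sum]
    exact Finset.sum_congr rfl fun j _ => by unfold kS; ring
  rw [h1, h2]
  unfold hf
  ring

lemma normSq_gM {f : E n → ℝ} (hf : Smooth f) (σ : E n → ℝ) (x : E n) :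
    normSq (gM f) (kS f σ) x =
      σ x ^ 2 * (N2 f x - 2 * P2 f x / W2 f x + Qf f x ^ 2 / W2 f x ^ 2) := by
  unfold normSq
  have h1 : ∀ i, ∑ j, ∑ k, ∑ l, up (gM f) i k x * up (gM f) j l x * kS f σ x i j * kS f σ x k l =
      ∑ k, up (gM f) i k x * (σ x ^ 2 * (qf f i k x - pv f i x * pv f k x / W2 f x)) := by
    intro i
    rw [Finset.sum_comm]
    refine Finset.sum_congr rfl fun k _ => ?_
    have h2 : ∑ j, ∑ l, up (gM f) j l x * (kS f σ x i j * kS f σ x k l) =
        σ x ^ 2 * (qf f i k x - pv f i x * pv f k x / W2 f x) := by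
      simp only [up_gM]
      rw [contr]
      have e1 : ∑ j, kS f σ x i j * kS f σ x k j = σ x ^ 2 * qf f i k x := by
        unfold kS qf
        rw [Finset.mul_sum]
        exact Finset.sum_congr rfl fun j _ => by ring
      have e2 : ∑ j, ∑ l, pd j f x * pd l f x * (kS f σ x i j * kS f σ x k l) =
          σ x ^ 2 * (pv f i x * pv f k x) := by
        unfold pv
        rw [Finset.sum_mul_sum, Finset.mul_sum]
        refine Finset.sum_congr rfl fun j _ => ?_
        rw [Finset.mul_sum]
        exact Finset.sum_congr rfl fun l _ => by unfold kS; ring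
      rw [e1, e2]
      ring
    rw [← h2, Finset.mul_sum]
    refine Finset.sum_congr rfl fun j _ => ?_
    rw [Finset.mul_sum]
    exact Finset.sum_congr rfl fun l _ => by ring
  simp only [h1]
  simp only [up_gM]
  rw [contr]
  have e1 : ∑ i, σ x ^ 2 * (qf f i i x - pv f i x * pv f i x / W2 f x) =
      σ x ^ 2 * (N2 f x - P2 f x / W2 f x) := by
    rw [← Finset.mul_sum, Finset.sum_sub_distrib, ← Finset.sum_div]; rfl
  have e2 : ∑ i, ∑ j, pd i f x * pd j f x *
      (σ x ^ 2 * (qf f i j x - pv f i x * pv f j x / W2 f x)) =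
      σ x ^ 2 * (P2 f x - Qf f x ^ 2 / W2 f x) := by
    have : ∀ i j, pd i f x * pd j f x *
        (σ x ^ 2 * (qf f i j x - pv f i x * pv f j x / W2 f x)) =
        (pd i f x * pd j f x * qf f i j x) * σ x ^ 2 -
        (pd i f x * pv f i x) * (pd j f x * pv f j x) * (σ x ^ 2 / W2 f x) := by
      intro i j; ring
    simp only [this, Finset.sum_sub_distrib, ← Finset.sum_mul]
    rw [qf_contr hf, ← Finset.sum_mul_sum]
    have e6 : ∑ i, pd i f x * pv f i x = Qf f x := rfl
    rw [e6]
    ring
  rw [e1, e2]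
  have := W2_ne f x
  field_simp
  ring

/-- The energy density. -/
theorem mu_gM {f : E n → ℝ} (hf : Smooth f) (σ : E n → ℝ) (x : E n) :
    mu (gM f) (kS f σ) x = (1 + σ x ^ 2 * W2 f x) * Sc f x / 2 := by
  unfold mu
  rw [scal_gM hf, tr_gM, normSq_gM hf]
  unfold Sc H45G.hf
  have := W2_ne f x
  field_simp
  ring

/-! ### momentum density -/

/-- A contraction of the third derivatives. -/
def tf (f : E n → ℝ) (k i : Fin n) (x : E n) : ℝ := ∑ l, pd l f x * pd k (pd i (pd l f)) x

/-- A contraction of the third derivatives. -/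
def T3 (f : E n → ℝ) (x : E n) : ℝ := ∑ i, ∑ k, pd i f x * pd k f x * tf f k i x

/-- A contraction of the third derivatives. -/
def La (f : E n → ℝ) (x : E n) : ℝ := ∑ i, tf f i i x

lemma pvsym {f : E n → ℝ} (hf : Smooth f) (i : Fin n) (x : E n) :
    ∑ k, pd k f x * pd k (pd i f) x = pv f i x := by
  unfold pv
  exact Finset.sum_congr rfl fun k _ => by rw [sym2 hf i k]

lemma HP_Qf {f : E n → ℝ} (hf : Smooth f) (k : Fin n) (x : E n) :
    HP k (Qf f) (∑ i, (pd k (pd i f) x * pv f i x + pd i f x * (qf f k i x + tf f k i x))) x :=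
  HP.sum Finset.univ fun i _ => (hp (smooth_pd hf i) k x).mul (HP_pv hf k i x)

/-- `∂ₖ h` -/
def dh (f : E n → ℝ) (k : Fin n) (x : E n) : ℝ :=
  ∑ i, pd k (pd i (pd i f)) x -
    ((∑ i, (pd k (pd i f) x * pv f i x + pd i f x * (qf f k i x + tf f k i x))) * (W2 f x)⁻¹ +
      Qf f x * (-(2 * pv f k x) / W2 f x ^ 2))

lemma HP_hf {f : E n → ℝ} (hfs : Smooth f) (k : Fin n) (x : E n) :
    HP k (hf f) (dh f k x) x :=
  (HP_lap hfs k x).sub ((HP_Qf hfs k x).mul (HP_inv (HP_W2 hfs k x) (W2_ne f x)))

lemma dh_contr {f : E n → ℝ} (hfs : Smooth f) (x : E n) :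
    ∑ k, pd k f x * dh f k x =
      La f x - (2 * P2 f x + T3 f x) / W2 f x + 2 * Qf f x ^ 2 / W2 f x ^ 2 := by
  have h1 : ∀ k, pd k f x * dh f k x = pd k f x * ∑ i, pd k (pd i (pd i f)) x -
      (∑ i, ((pd k f x * pd k (pd i f) x) * pv f i x + pd k f x * pd i f x * qf f k i x +
        pd k f x * pd i f x * tf f k i x)) * (W2 f x)⁻¹ +
      (pd k f x * pv f k x) * (2 * Qf f x / W2 f x ^ 2) := by
    intro k
    have e : ∑ i, ((pd k f x * pd k (pd i f) x) * pv f i x + pd k f x * pd i f x * qf f k i x +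
        pd k f x * pd i f x * tf f k i x) =
        pd k f x * ∑ i, (pd k (pd i f) x * pv f i x + pd i f x * (qf f k i x + tf f k i x)) := by
      rw [Finset.mul_sum]
      exact Finset.sum_congr rfl fun i _ => by ring
    rw [e]
    unfold dh
    ring
  simp only [h1, Finset.sum_add_distrib, Finset.sum_sub_distrib, ← Finset.sum_mul]
  have e1 : ∑ k, pd k f x * ∑ i, pd k (pd i (pd i f)) x = La f x := by
    unfold La tf
    simp only [Finset.mul_sum]
    rw [Finset.sum_comm]
    refine Finset.sum_congr rfl fun i _ => Finset.sum_congr rfl fun l _ => ?_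
    rw [sym2 (smooth_pd hfs i) l i, sym2 hfs l i]
  have e2 : ∑ k, ∑ i, (pd k f x * pd k (pd i f) x) * pv f i x = P2 f x := by
    rw [Finset.sum_comm]
    unfold P2
    refine Finset.sum_congr rfl fun i _ => ?_
    rw [← Finset.sum_mul, pvsym hfs]
  have e3 : ∑ k, ∑ i, pd k f x * pd i f x * tf f k i x = T3 f x := by
    unfold T3
    rw [Finset.sum_comm]
    exact Finset.sum_congr rfl fun i _ => Finset.sum_congr rfl fun l _ => by ring
  have e4 : ∑ k, pd k f x * pv f k x = Qf f x := rfl
  rw [e1, e2, e3, e4, qf_contr hfs]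
  have := W2_ne f x
  field_simp
  ring

lemma momT_gM (f σ : E n → ℝ) (i j : Fin n) :
    (fun y => momT (gM f) (kS f σ) y i j) =
      fun y => σ y * (pd i (pd j f) y - hf f y * gM f y i j) := by
  funext y
  unfold momT
  rw [tr_gM]
  unfold kS
  ring

lemma g_contr (f : E n → ℝ) (i : Fin n) (x : E n) :
    ∑ j, pd j f x * gM f x i j = W2 f x * pd i f x := by
  have : ∀ j, pd j f x * gM f x i j = (if i = j then pd j f x else 0) +
      pd i f x * (pd j f x * pd j f x) := by
    intro j; unfold gM; split_ifs <;> ring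
  simp only [this, Finset.sum_add_distrib, Finset.sum_ite_eq, Finset.mem_univ, if_true,
    ← Finset.mul_sum]
  rw [sum_sq]
  ring

lemma m_contr (f σ : E n → ℝ) (i : Fin n) (x : E n) :
    ∑ j, pd j f x * (σ x * (pd i (pd j f) x - hf f x * gM f x i j)) =
      σ x * (pv f i x - hf f x * (W2 f x * pd i f x)) := by
  rw [← g_contr]
  unfold pv
  rw [Finset.mul_sum, ← Finset.sum_sub_distrib, Finset.mul_sum]
  exact Finset.sum_congr rfl fun j _ => by ring

lemma m_contr2 (f σ : E n → ℝ) (x : E n) :
    ∑ l, pd l f x * (σ x * (pv f l x - hf f x * (W2 f x * pd l f x))) =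
      σ x * (Qf f x - hf f x * W2 f x * (W2 f x - 1)) := by
  rw [← sum_sq]
  unfold Qf
  rw [Finset.mul_sum, ← Finset.sum_sub_distrib, Finset.mul_sum]
  exact Finset.sum_congr rfl fun j _ => by ring

/-- The contraction of the momentum density with `∂f`. -/
theorem mom_gM {f σ : E n → ℝ} (hfs : Smooth f) (hσ : Smooth σ) (x : E n) :
    ∑ j, pd j f x * mom (gM f) (kS f σ) j x =
      ∑ i, pd i σ x * pv f i x - (∑ i, pd i σ x * pd i f x) * lap f x +
        σ x * (P2 f x - lap f x * Qf f x) / W2 f x := by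
  -- the contracted covariant derivative
  have hT : ∀ i k, ∑ j, pd j f x * (pd k (fun y => momT (gM f) (kS f σ) y i j) x -
      ∑ l, (chr (gM f) l k i x * momT (gM f) (kS f σ) x l j +
        chr (gM f) l k j x * momT (gM f) (kS f σ) x i l)) =
      pd k σ x * (pv f i x - hf f x * W2 f x * pd i f x) +
      σ x * (tf f k i x - dh f k x * W2 f x * pd i f x - pd k (pd i f) x * Qf f x / W2 f x -
        pv f k x * pv f i x / W2 f x) := by
    intro i k
    have hd : ∀ j, pd k (fun y => momT (gM f) (kS f σ) y i j) x =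
        pd k σ x * (pd i (pd j f) x - hf f x * gM f x i j) +
        σ x * (pd k (pd i (pd j f)) x - (dh f k x * gM f x i j +
          hf f x * (pd k (pd i f) x * pd j f x + pd i f x * pd k (pd j f) x))) := by
      intro j
      rw [momT_gM]
      exact ((hp hσ k x).mul ((hp (smooth_pd (smooth_pd hfs j) i) k x).sub
        ((HP_hf hfs k x).mul (HP_gM hfs k i j x)))).pd
    have hm : ∀ a b, momT (gM f) (kS f σ) x a b =
        σ x * (pd a (pd b f) x - hf f x * gM f x a b) := fun a b => congrFun (momT_gM f σ a b) x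
    have hG : ∀ a b c, chr (gM f) a b c x = pd a f x * pd b (pd c f) x * (W2 f x)⁻¹ :=
      fun a b c => by rw [chr_gM hfs]
    simp only [hd, hm, hG]
    -- the two connection terms
    have c1 : ∑ j, pd j f x * ∑ l, (pd l f x * pd k (pd i f) x * (W2 f x)⁻¹ *
        (σ x * (pd l (pd j f) x - hf f x * gM f x l j)) +
        pd l f x * pd k (pd j f) x * (W2 f x)⁻¹ *
        (σ x * (pd i (pd l f) x - hf f x * gM f x i l))) =
        pd k (pd i f) x * (W2 f x)⁻¹ * (σ x * (Qf f x - hf f x * W2 f x * (W2 f x - 1))) +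
        pv f k x * (W2 f x)⁻¹ * (σ x * (pv f i x - hf f x * (W2 f x * pd i f x))) := by
      rw [← m_contr2, ← m_contr]
      simp only [Finset.sum_add_distrib, mul_add]
      congr 1
      · simp only [Finset.mul_sum]
        rw [Finset.sum_comm]
        refine Finset.sum_congr rfl fun l _ => ?_
        rw [← m_contr, Finset.mul_sum, Finset.mul_sum]
        exact Finset.sum_congr rfl fun j _ => by ring
      · have : pv f k x = ∑ j, pd j f x * pd k (pd j f) x := rfl
        rw [this, Finset.sum_mul, Finset.sum_mul]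
        refine Finset.sum_congr rfl fun j _ => ?_
        rw [Finset.mul_sum, Finset.mul_sum]
        exact Finset.sum_congr rfl fun l _ => by ring
    have c2 : ∑ j, pd j f x * (pd k σ x * (pd i (pd j f) x - hf f x * gM f x i j) +
        σ x * (pd k (pd i (pd j f)) x - (dh f k x * gM f x i j +
          hf f x * (pd k (pd i f) x * pd j f x + pd i f x * pd k (pd j f) x)))) =
        pd k σ x * (pv f i x - hf f x * (W2 f x * pd i f x)) +
        σ x * (tf f k i x - dh f k x * (W2 f x * pd i f x) -
          hf f x * (pd k (pd i f) x * (W2 f x - 1) + pd i f x * pv f k x)) := by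
      rw [← sum_sq, ← g_contr]
      unfold pv tf
      simp only [Finset.mul_sum]
      simp only [← Finset.sum_add_distrib, ← Finset.sum_sub_distrib, Finset.mul_sum]
      exact Finset.sum_congr rfl fun j _ => by ring
    simp only [mul_sub (pd _ f x), Finset.sum_sub_distrib]
    rw [c1, c2]
    have := W2_ne f x
    field_simp
    ring
  -- the contraction
  have hS : ∑ j, pd j f x * mom (gM f) (kS f σ) j x = ∑ i, ∑ k, up (gM f) i k x *
      (pd k σ x * (pv f i x - hf f x * W2 f x * pd i f x) +
      σ x * (tf f k i x - dh f k x * W2 f x * pd i f x - pd k (pd i f) x * Qf f x / W2 f x -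
        pv f k x * pv f i x / W2 f x)) := by
    simp only [← hT]
    unfold mom
    simp only [Finset.mul_sum]
    rw [Finset.sum_comm]
    refine Finset.sum_congr rfl fun i _ => ?_
    rw [Finset.sum_comm]
    refine Finset.sum_congr rfl fun k _ => ?_
    exact Finset.sum_congr rfl fun j _ => by ring
  rw [hS]
  simp only [up_gM]
  rw [contr]
  have d1 : ∑ i, (pd i σ x * (pv f i x - hf f x * W2 f x * pd i f x) +
      σ x * (tf f i i x - dh f i x * W2 f x * pd i f x - pd i (pd i f) x * Qf f x / W2 f x -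
        pv f i x * pv f i x / W2 f x)) =
      (∑ i, pd i σ x * pv f i x) - (∑ i, pd i σ x * pd i f x) * (hf f x * W2 f x) +
      La f x * σ x - (∑ i, pd i f x * dh f i x) * (σ x * W2 f x) -
        lap f x * (σ x * Qf f x / W2 f x) - P2 f x * (σ x / W2 f x) := by
    unfold La lap P2
    simp only [Finset.sum_mul]
    simp only [← Finset.sum_add_distrib, ← Finset.sum_sub_distrib]
    exact Finset.sum_congr rfl fun j _ => by ring
  have d2 : ∑ i, ∑ k, pd i f x * pd k f x *
      (pd k σ x * (pv f i x - hf f x * W2 f x * pd i f x) +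
      σ x * (tf f k i x - dh f k x * W2 f x * pd i f x - pd k (pd i f) x * Qf f x / W2 f x -
        pv f k x * pv f i x / W2 f x)) =
      (∑ i, pd i σ x * pd i f x) * (Qf f x - hf f x * W2 f x * (W2 f x - 1)) +
      T3 f x * σ x - (∑ i, pd i f x * dh f i x) * (σ x * W2 f x * (W2 f x - 1)) -
      2 * Qf f x ^ 2 * (σ x / W2 f x) := by
    have : ∀ i k, pd i f x * pd k f x *
      (pd k σ x * (pv f i x - hf f x * W2 f x * pd i f x) +
      σ x * (tf f k i x - dh f k x * W2 f x * pd i f x - pd k (pd i f) x * Qf f x / W2 f x -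
        pv f k x * pv f i x / W2 f x)) =
        (pd i f x * pv f i x) * (pd k σ x * pd k f x) -
        (pd i f x * pd i f x) * (pd k σ x * pd k f x) * (hf f x * W2 f x) +
        (pd i f x * pd k f x * tf f k i x) * σ x -
        (pd i f x * pd i f x) * (pd k f x * dh f k x) * (σ x * W2 f x) -
        (pd k f x * pd i f x * pd k (pd i f) x) * (σ x * Qf f x / W2 f x) -
        (pd i f x * pv f i x) * (pd k f x * pv f k x) * (σ x / W2 f x) := by
      intro i k; ring
    simp only [this, Finset.sum_add_distrib, Finset.sum_sub_distrib, ← Finset.sum_mul,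
      ← Finset.sum_mul_sum]
    rw [sum_sq]
    have e6 : ∑ i, pd i f x * pv f i x = Qf f x := rfl
    have e7 : ∑ i, ∑ k, pd k f x * pd i f x * pd k (pd i f) x = Qf f x := by
      rw [Finset.sum_comm]; exact hess_contr x
    have e8 : ∑ i, ∑ k, pd i f x * pd k f x * tf f k i x = T3 f x := rfl
    rw [e6, e7, e8]
    ring
  rw [d1, d2, dh_contr hfs]
  unfold hf
  have := W2_ne f x
  field_simp
  ring

end Vale.Agent.H45G
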