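import Vale.Agent.P366.H45.G3

/-! Level spheres: first and second derivatives of a function which is constant on a sphere. -/

open MeasureTheory Metric Filter Topology Set
open scoped ContDiff ENNReal

noncomputable section
namespace Vale.Agent.H45G
open Vale.Agent.P366.Stmt
open Vale.Agent.P366.T2 (HP)

variable {n : ℕ}

lemma smooth_fderiv {F : E n → ℝ} (hF : Smooth F) : ContDiff ℝ ∞ (fderiv ℝ F) :=
  ContDiff.fderiv_right hF (by norm_cast)

lemma curve {F : E n → ℝ} (hF : Smooth F) {c : E n} {r : ℝ}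
    (hc : ∀ x y, ‖x - c‖ = r → ‖y - c‖ = r → F x = F y) {x : E n} (hx : ‖x - c‖ = r) {w : E n}
    (hw : inner ℝ (x - c) w = 0) (hwr : ‖w‖ = r) :
    fderiv ℝ F x w = 0 ∧ fderiv ℝ (fderiv ℝ F) x w w = fderiv ℝ F x (x - c) := by
  set γ : ℝ → E n := fun t => c + (Real.cos t • (x - c) + Real.sin t • w) with hγd
  set γ' : ℝ → E n := fun t => (-Real.sin t) • (x - c) + Real.cos t • w with hγd'
  have hγ : ∀ t, HasDerivAt γ (γ' t) t := fun t =>
    (((Real.hasDerivAt_cos t).smul_const (x - c)).add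
      ((Real.hasDerivAt_sin t).smul_const w)).const_add c
  have hγ' : HasDerivAt γ' (-(x - c)) 0 := by
    have h := ((Real.hasDerivAt_sin 0).neg.smul_const (x - c)).add
      ((Real.hasDerivAt_cos 0).smul_const w)
    refine h.congr_deriv ?_
    simp
  have hn : ∀ t, ‖γ t - c‖ = r := by
    intro t
    have h1 : γ t - c = Real.cos t • (x - c) + Real.sin t • w := by simp [hγd]
    have h2 : ‖γ t - c‖ ^ 2 = r ^ 2 := by
      rw [h1, @norm_add_sq_real, inner_smul_left, inner_smul_right, hw, norm_smul, norm_smul,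
        hx, hwr, mul_pow, mul_pow, Real.norm_eq_abs, Real.norm_eq_abs, sq_abs, sq_abs]
      have := Real.sin_sq_add_cos_sq t
      simp only [mul_zero, add_zero]
      linear_combination r ^ 2 * this
    have h3 : 0 ≤ r := hx ▸ norm_nonneg _
    exact (pow_left_inj₀ (norm_nonneg _) h3 two_ne_zero).1 h2
  have h1 : ∀ t, fderiv ℝ F (γ t) (γ' t) = 0 := by
    intro t
    have h2 : HasDerivAt (F ∘ γ) (fderiv ℝ F (γ t) (γ' t)) t :=
      (diffAt hF _).hasFDerivAt.comp_hasDerivAt t (hγ t)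
    have h3 : F ∘ γ = fun _ => F x := funext fun t => hc _ _ (hn t) hx
    rw [h3] at h2
    exact h2.unique (hasDerivAt_const _ _)
  have e0 : γ 0 = x := by simp [hγd]
  have e0' : γ' 0 = w := by simp [hγd']
  refine ⟨by have := h1 0; rwa [e0, e0'] at this, ?_⟩
  have hFd : HasFDerivAt (fderiv ℝ F) (fderiv ℝ (fderiv ℝ F) (γ 0)) (γ 0) :=
    (((smooth_fderiv hF).differentiable (by norm_num)) _).hasFDerivAt
  have h4 := (hFd.comp_hasDerivAt (0 : ℝ) (hγ 0)).clm_apply hγ'
  have h5 : (fun t => fderiv ℝ F (γ t) (γ' t)) = fun _ => (0 : ℝ) := funext h1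
  have h6 := (h4.congr_of_eventuallyEq (f₁ := fun _ => (0 : ℝ))
    (Eventually.of_forall fun t => (h1 t).symm)).unique (hasDerivAt_const _ _)
  simp only [Function.comp, e0, e0', map_neg] at h6
  linarith

lemma curve' {F : E n → ℝ} (hF : Smooth F) {c : E n} {r : ℝ} (hr : 0 < r)
    (hc : ∀ x y, ‖x - c‖ = r → ‖y - c‖ = r → F x = F y) {x : E n} (hx : ‖x - c‖ = r) {v : E n}
    (hv : inner ℝ (x - c) v = 0) :
    fderiv ℝ F x v = 0 ∧
      fderiv ℝ (fderiv ℝ F) x v v = ‖v‖ ^ 2 / r ^ 2 * fderiv ℝ F x (x - c) := by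
  rcases eq_or_ne v 0 with rfl | h0
  · simp
  have hv0 : ‖v‖ ≠ 0 := norm_ne_zero_iff.2 h0
  set w : E n := (r / ‖v‖) • v with hw
  have h1 : inner ℝ (x - c) w = 0 := by rw [hw, inner_smul_right, hv, mul_zero]
  have h2 : ‖w‖ = r := by
    rw [hw, norm_smul, Real.norm_eq_abs, abs_of_pos (div_pos hr (norm_pos_iff.2 h0))]
    field_simp
  obtain ⟨h3, h4⟩ := curve hF hc hx h1 h2
  have h5 : v = (‖v‖ / r) • w := by
    rw [hw, smul_smul]
    have : ‖v‖ / r * (r / ‖v‖) = 1 := by field_simp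
    rw [this, one_smul]
  constructor
  · rw [h5, map_smul, h3, smul_zero]
  · rw [← h4]
    conv_lhs => rw [h5]
    simp only [map_smul, smul_apply, smul_eq_mul]
    ring

/-- The unit normal of the sphere. -/
def nu (c : E n) (r : ℝ) (x : E n) (i : Fin n) : ℝ := (x i - c i) / r

/-- The normal derivative. -/
def dn (F : E n → ℝ) (c : E n) (r : ℝ) (x : E n) : ℝ := ∑ i, nu c r x i * pd i F x

lemma nu_sq {c : E n} {r : ℝ} (hr : 0 < r) {x : E n} (hx : ‖x - c‖ = r) :
    ∑ i, nu c r x i ^ 2 = 1 := by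
  unfold nu
  have h : ∑ i, (x i - c i) ^ 2 = r ^ 2 := by
    rw [← hx, EuclideanSpace.real_norm_sq_eq]
    rfl
  simp only [div_pow]
  rw [← Finset.sum_div, h, div_self (by positivity)]

/-- A function which is constant on a sphere: first and second derivatives at a point `x`. -/
structure Lev (F : E n → ℝ) (r : ℝ) (ν : Fin n → ℝ) (a : ℝ) (x : E n) : Prop where
  one : ∑ i, ν i ^ 2 = 1
  fst : ∀ i, pd i F x = a * ν i
  snd : lap F x - ∑ i, ∑ j, ν i * ν j * pd i (pd j F) x = ((n : ℝ) - 1) / r * a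

theorem level {F : E n → ℝ} (hF : Smooth F) {c : E n} {r : ℝ} (hr : 0 < r)
    (hc : ∀ x y, ‖x - c‖ = r → ‖y - c‖ = r → F x = F y) {x : E n} (hx : ‖x - c‖ = r) :
    Lev F r (nu c r x) (dn F c r x) x := by
  set ν := nu c r x with hν
  have hone := nu_sq hr hx
  obtain ⟨N, hN⟩ : ∃ N : E n, N = r⁻¹ • (x - c) := ⟨_, rfl⟩
  have hNi : ∀ i, N i = ν i := by
    intro i; simp [hN, hν, nu]; ring
  have hNsum : N = ∑ i, ν i • (EuclideanSpace.single i (1 : ℝ) : E n) := by
    ext j
    simp [hNi, WithLp.ofLp_sum, Pi.single_apply]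
  have hxN : x - c = r • N := by
    rw [hN, smul_smul, mul_inv_cancel₀ hr.ne', one_smul]
  set e : Fin n → E n := fun i => EuclideanSpace.single i 1 with he
  have hdF : ∀ i, fderiv ℝ F x (e i) = pd i F x := fun i =>
    (Vale.Agent.C92.pd_fderiv (diffAt hF x) i).symm
  have hHe : ∀ i j, fderiv ℝ (fderiv ℝ F) x (e i) (e j) = pd i (pd j F) x := fun i j =>
    (Vale.Agent.C92.pd_pd_fderiv hF i j x).symm
  have hdN : fderiv ℝ F x N = dn F c r x := by
    rw [hNsum, map_sum]
    unfold dn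
    exact Finset.sum_congr rfl fun i _ => by rw [map_smul, smul_eq_mul, hdF]
  have hin : ∀ v, inner ℝ (x - c) v = r * inner ℝ N v := fun v => by
    rw [hxN, inner_smul_left]; rfl
  have hNN : inner ℝ N N = 1 := by
    rw [real_inner_self_eq_norm_sq, hN, norm_smul, hx, norm_inv, Real.norm_eq_abs, abs_of_pos hr,
      inv_mul_cancel₀ hr.ne', one_pow]
  have hNe : ∀ i, inner ℝ N (e i) = ν i := by
    intro i
    rw [he]; simp only
    rw [EuclideanSpace.inner_single_right, hNi]
    simp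
  set v : Fin n → E n := fun i => e i - ν i • N with hv
  have hvp : ∀ i, inner ℝ (x - c) (v i) = 0 := by
    intro i
    rw [hin, hv]
    simp only
    rw [inner_sub_right, inner_smul_right, hNe, hNN]
    ring
  have hvn : ∀ i, ‖v i‖ ^ 2 = 1 - ν i ^ 2 := by
    intro i
    rw [← real_inner_self_eq_norm_sq, hv]
    simp only
    rw [inner_sub_left, inner_sub_right, inner_sub_right, inner_smul_left, inner_smul_right,
      inner_smul_left, inner_smul_right, hNN, hNe, real_inner_comm N (e i), hNe]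
    have : inner ℝ (e i) (e i) = (1 : ℝ) := by
      rw [real_inner_self_eq_norm_sq, he]; simp
    rw [this]
    simp only [conj_trivial]
    ring
  refine ⟨hone, ?_, ?_⟩
  · intro i
    have h1 := (curve' hF hr hc hx (hvp i)).1
    rw [hv] at h1
    simp only [map_sub, map_smul, smul_eq_mul] at h1
    rw [hdF, hdN] at h1
    linarith
  · have h2 : ∀ i, fderiv ℝ (fderiv ℝ F) x (v i) (v i) = (1 - ν i ^ 2) / r * dn F c r x := by
      intro i
      rw [(curve' hF hr hc hx (hvp i)).2, hvn]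
      rw [hxN, map_smul, smul_eq_mul, hdN]
      field_simp
    have h3 : ∀ i, fderiv ℝ (fderiv ℝ F) x (v i) (v i) = pd i (pd i F) x -
        ν i * fderiv ℝ (fderiv ℝ F) x (e i) N - ν i * fderiv ℝ (fderiv ℝ F) x N (e i) +
        ν i ^ 2 * fderiv ℝ (fderiv ℝ F) x N N := by
      intro i
      rw [hv]
      simp only [map_sub, map_smul, sub_apply, smul_apply, smul_eq_mul, hHe]
      ring
    have hL : ∀ L : E n →L[ℝ] ℝ, L N = ∑ i, ν i * L (e i) := by
      intro L
      conv_lhs => rw [hNsum]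
      rw [map_sum]
      exact Finset.sum_congr rfl fun i _ => by rw [map_smul, smul_eq_mul]
    have h4 : ∑ i, ν i * fderiv ℝ (fderiv ℝ F) x (e i) N = fderiv ℝ (fderiv ℝ F) x N N :=
      (hL ((fderiv ℝ (fderiv ℝ F) x).flip N)).symm
    have h5 : ∑ i, ν i * fderiv ℝ (fderiv ℝ F) x N (e i) = fderiv ℝ (fderiv ℝ F) x N N :=
      (hL (fderiv ℝ (fderiv ℝ F) x N)).symm
    have h6 : fderiv ℝ (fderiv ℝ F) x N N = ∑ i, ∑ j, ν i * ν j * pd i (pd j F) x := by
      rw [← h4]
      refine Finset.sum_congr rfl fun i _ => ?_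
      rw [hL (fderiv ℝ (fderiv ℝ F) x (e i)), Finset.mul_sum]
      exact Finset.sum_congr rfl fun j _ => by rw [hHe]; ring
    have h7 := Finset.sum_congr rfl fun i (_ : i ∈ Finset.univ) => (h3 i).symm.trans (h2 i)
    rw [Finset.sum_add_distrib, Finset.sum_sub_distrib, Finset.sum_sub_distrib, h4, h5,
      ← Finset.sum_mul, hone, ← Finset.sum_mul, ← Finset.sum_div, Finset.sum_sub_distrib, hone]
      at h7
    simp only [Finset.sum_const, Finset.card_univ, Fintype.card_fin, nsmul_eq_mul, mul_one] at h7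
    rw [← h6]
    unfold lap
    linarith

end Vale.Agent.H45G
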