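import Vale.Agent.P366.H45.G4

/-! The null expansion of a level sphere, and the flux density of `V`. -/

open MeasureTheory Metric Filter Topology Set
open scoped ContDiff ENNReal

noncomputable section
namespace Vale.Agent.H45G
open Vale.Agent.P366.Stmt
open Vale.Agent.P366.T2 (HP)

variable {n : ℕ}

lemma W2_lev {f : E n → ℝ} {r a : ℝ} {ν : Fin n → ℝ} {x : E n} (h : Lev f r ν a x) :
    W2 f x = 1 + a ^ 2 := by
  unfold W2
  simp only [h.fst, mul_pow]
  rw [← Finset.mul_sum, h.one, mul_one]

/-- The tangential trace. -/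
def tt (ν : Fin n → ℝ) (T : Fin n → Fin n → ℝ) : ℝ := ∑ i, T i i - ∑ i, ∑ j, ν i * ν j * T i j

/-- `V · ν` at a level sphere. -/
theorem Vf_lev {f : E n → ℝ} {r a : ℝ} {ν : Fin n → ℝ} {x : E n} (h : Lev f r ν a x) :
    ∑ i, Vf f i x * ν i = ((n : ℝ) - 1) / r * (a ^ 2 / W2 f x) := by
  have h1 : ∀ i, Vf f i x * ν i = ν i ^ 2 * (a * lap f x * (W2 f x)⁻¹) -
      a * (∑ k, ν i * ν k * pd i (pd k f) x) * (W2 f x)⁻¹ := by
    intro i
    unfold Vf pv
    simp only [h.fst]
    have : ∑ k, a * ν k * pd i (pd k f) x * ν i = a * ∑ k, ν i * ν k * pd i (pd k f) x := by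
      rw [Finset.mul_sum]
      exact Finset.sum_congr rfl fun k _ => by ring
    rw [← this, ← Finset.sum_mul]
    ring
  simp only [h1, Finset.sum_sub_distrib, ← Finset.sum_mul, ← Finset.mul_sum]
  rw [h.one]
  have h2 := h.snd
  have h3 : 1 * (a * lap f x * (W2 f x)⁻¹) -
      a * (∑ i, ∑ k, ν i * ν k * pd i (pd k f) x) * (W2 f x)⁻¹ =
      a * (lap f x - ∑ i, ∑ j, ν i * ν j * pd i (pd j f) x) * (W2 f x)⁻¹ := by ring
  rw [h3, h2]
  ring

lemma tt_kS {f σ : E n → ℝ} {r a : ℝ} {ν : Fin n → ℝ} {x : E n} (h : Lev f r ν a x) :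
    tt ν (kS f σ x) = σ x * (((n : ℝ) - 1) / r * a) := by
  unfold tt kS
  rw [← h.snd]
  unfold lap
  rw [mul_sub, Finset.mul_sum, Finset.mul_sum]
  congr 1
  refine Finset.sum_congr rfl fun i _ => ?_
  rw [Finset.mul_sum]
  exact Finset.sum_congr rfl fun j _ => by ring

/-- The null expansion of a level sphere. -/
theorem theta_lev {f F : E n → ℝ} (K : Field n) (hfs : Smooth f) {r a b : ℝ} (hr : 0 < r)
    (hb : 0 < b) {ν : Fin n → ℝ} {x : E n} (h : Lev f r ν a x) (hF : Lev F r ν b x) :
    thetaPlus (gM f) K F x = ((n : ℝ) - 1) / r * (√(W2 f x))⁻¹ + tt ν (K x) := by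
  have hW := W2_lev h
  have hW0 := W2_pos f x
  have hWn := W2_ne f x
  set w := √(W2 f x) with hw
  have hw0 : 0 < w := Real.sqrt_pos.2 hW0
  have hww : w ^ 2 = W2 f x := Real.sq_sqrt hW0.le
  -- the inverse metric at `x`
  have hup : ∀ i j, up (gM f) i j x =
      (if i = j then 1 else 0) - (a * ν i) * (a * ν j) / W2 f x := by
    intro i j; rw [up_gM, h.fst, h.fst]
  have hup1 : ∀ i, ∑ j, up (gM f) i j x * (b * ν j) = b * ν i / W2 f x := by
    intro i
    have : ∀ j, up (gM f) i j x * (b * ν j) = (if i = j then b * ν j else 0) -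
        ν j ^ 2 * (a ^ 2 * b * ν i / W2 f x) := by
      intro j; rw [hup]; split_ifs <;> ring
    simp only [this, Finset.sum_sub_distrib, Finset.sum_ite_eq, Finset.mem_univ, if_true,
      ← Finset.sum_mul]
    rw [h.one]
    field_simp
    rw [hW]
    ring
  have hcov : covNorm (gM f) (fun j => pd j F) x = b / w := by
    unfold covNorm
    have : ∑ i, ∑ j, up (gM f) i j x * pd i F x * pd j F x = (b / w) ^ 2 := by
      simp only [hF.fst]
      have h1 : ∀ i, ∑ j, up (gM f) i j x * (b * ν i) * (b * ν j) =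
          ν i ^ 2 * (b ^ 2 / W2 f x) := by
        intro i
        have : ∀ j, up (gM f) i j x * (b * ν i) * (b * ν j) =
            (b * ν i) * (up (gM f) i j x * (b * ν j)) := fun j => by ring
        simp only [this]
        rw [← Finset.mul_sum, hup1]
        ring
      simp only [h1]
      rw [← Finset.sum_mul, h.one, div_pow, hww]
      ring
    rw [this, Real.sqrt_sq (div_pos hb hw0).le]
  have hnrm : ∀ i, nrm (gM f) F i x = ν i / w := by
    intro i
    unfold nrm
    rw [hcov]
    simp only [hF.fst]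
    rw [hup1, ← hww]
    field_simp
  have htr : ∀ T : Field n, trS (gM f) T F x = tt ν (T x) := by
    intro T
    unfold trS tr tt
    simp only [hup, hnrm]
    rw [contr]
    have e1 : ∑ i, ∑ j, (a * ν i) * (a * ν j) * T x i j =
        a ^ 2 * ∑ i, ∑ j, ν i * ν j * T x i j := by
      rw [Finset.mul_sum]
      refine Finset.sum_congr rfl fun i _ => ?_
      rw [Finset.mul_sum]
      exact Finset.sum_congr rfl fun j _ => by ring
    have e2 : ∑ i, ∑ j, T x i j * (ν i / w) * (ν j / w) =
        (∑ i, ∑ j, ν i * ν j * T x i j) / W2 f x := by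
      rw [Finset.sum_div]
      refine Finset.sum_congr rfl fun i _ => ?_
      rw [Finset.sum_div]
      refine Finset.sum_congr rfl fun j _ => ?_
      rw [← hww]
      field_simp
    rw [e1, e2]
    have : (a ^ 2 * ∑ i, ∑ j, ν i * ν j * T x i j) / W2 f x +
        (∑ i, ∑ j, ν i * ν j * T x i j) / W2 f x = ∑ i, ∑ j, ν i * ν j * T x i j := by
      rw [← add_div, ← add_one_mul, add_comm (a ^ 2) 1, ← hW]
      field_simp
    linarith
  have hH : tt ν (hess (gM f) F x) = ((n : ℝ) - 1) / r * b / W2 f x := by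
    have h1 : ∀ i j, hess (gM f) F x i j =
        pd i (pd j F) x - a * b / W2 f x * pd i (pd j f) x := by
      intro i j
      unfold hess
      have : ∀ k, chr (gM f) k i j x * pd k F x =
          ν k ^ 2 * (a * b / W2 f x * pd i (pd j f) x) := by
        intro k
        rw [chr_gM hfs]
        simp only [h.fst, hF.fst]
        ring
      simp only [this]
      rw [← Finset.sum_mul, h.one, one_mul]
    unfold tt
    simp only [h1]
    have e1 : ∑ i, (pd i (pd i F) x - a * b / W2 f x * pd i (pd i f) x) =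
        lap F x - a * b / W2 f x * lap f x := by
      unfold lap
      rw [Finset.sum_sub_distrib, Finset.mul_sum]
    have e2 : ∑ i, ∑ j, ν i * ν j * (pd i (pd j F) x - a * b / W2 f x * pd i (pd j f) x) =
        ∑ i, ∑ j, ν i * ν j * pd i (pd j F) x -
          a * b / W2 f x * ∑ i, ∑ j, ν i * ν j * pd i (pd j f) x := by
      rw [Finset.mul_sum, ← Finset.sum_sub_distrib]
      refine Finset.sum_congr rfl fun i _ => ?_
      rw [Finset.mul_sum, ← Finset.sum_sub_distrib]
      exact Finset.sum_congr rfl fun j _ => by ring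
    rw [e1, e2]
    have h2 : lap F x - a * b / W2 f x * lap f x - (∑ i, ∑ j, ν i * ν j * pd i (pd j F) x -
          a * b / W2 f x * ∑ i, ∑ j, ν i * ν j * pd i (pd j f) x) =
        (lap F x - ∑ i, ∑ j, ν i * ν j * pd i (pd j F) x) -
        a * b / W2 f x * (lap f x - ∑ i, ∑ j, ν i * ν j * pd i (pd j f) x) := by ring
    rw [h2, h.snd, hF.snd, hW]
    have : (1 : ℝ) + a ^ 2 ≠ 0 := by positivity
    field_simp
    ring
  unfold thetaPlus
  rw [htr, htr, hcov, hH, ← hww]
  field_simp

end Vale.Agent.H45G
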