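import Vale.Agent.P366.H45.G5

/-! The divergence of `X = -u W π(∇f)` for a graph and an arbitrary symmetric `K`. -/

open MeasureTheory Metric Filter Topology Set
open scoped ContDiff ENNReal

noncomputable section
namespace Vale.Agent.H45G
open Vale.Agent.P366.Stmt
open Vale.Agent.P366.T2 (HP)

variable {n : ℕ}

/-- `π(∂f)`. -/
def pf (f : E n → ℝ) (P : Field n) (i : Fin n) (x : E n) : ℝ := ∑ j, P x i j * pd j f x

/-- `π(∂f, ∂f)`. -/
def qp (f : E n → ℝ) (P : Field n) (x : E n) : ℝ := ∑ i, pd i f x * pf f P i x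

/-- `W² π(∇f)`, index raised. -/
def Yf (f : E n → ℝ) (P : Field n) (i : Fin n) (x : E n) : ℝ :=
  pf f P i x - pd i f x * qp f P x * (W2 f x)⁻¹

/-- The field `X`. -/
def Xf (f u : E n → ℝ) (P : Field n) (i : Fin n) (x : E n) : ℝ :=
  -(u x * (√(W2 f x))⁻¹) * Yf f P i x

/-- `∂ⱼ f ∂ₖ πᵢⱼ` -/
def Df (f : E n → ℝ) (P : Field n) (k i : Fin n) (x : E n) : ℝ :=
  ∑ j, pd k (fun y => P y i j) x * pd j f x

/-- `πᵢⱼ ∂ₖ∂ⱼ f` -/
def Bf (f : E n → ℝ) (P : Field n) (k i : Fin n) (x : E n) : ℝ :=
  ∑ j, P x i j * pd k (pd j f) x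

lemma HP_pf {f : E n → ℝ} {P : Field n} (hf : Smooth f) (hP : ∀ i j, Smooth fun x => P x i j)
    (k i : Fin n) (x : E n) : HP k (pf f P i) (Df f P k i x + Bf f P k i x) x := by
  have h := HP.sum (k := k) (x := x) Finset.univ (f := fun j y => P y i j * pd j f y)
    (fun j _ => (hp (hP i j) k x).mul (hp (smooth_pd hf j) k x))
  refine HP_cast h ?_
  unfold Df Bf
  rw [← Finset.sum_add_distrib]

/-- The derivative of `π(∂f, ∂f)`. -/
def dq (f : E n → ℝ) (P : Field n) (k : Fin n) (x : E n) : ℝ :=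
  ∑ i, (pd k (pd i f) x * pf f P i x + pd i f x * (Df f P k i x + Bf f P k i x))

lemma HP_qp {f : E n → ℝ} {P : Field n} (hf : Smooth f) (hP : ∀ i j, Smooth fun x => P x i j)
    (k : Fin n) (x : E n) : HP k (qp f P) (dq f P k x) x :=
  HP.sum Finset.univ fun i _ => (hp (smooth_pd hf i) k x).mul (HP_pf hf hP k i x)

lemma B_contr {f : E n → ℝ} {P : Field n} (hf : Smooth f) {x : E n}
    (hs : ∀ i j, P x i j = P x j i) :
    ∑ k, ∑ i, pd k f x * pd i f x * Bf f P k i x = ∑ i, pv f i x * pf f P i x := by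
  have h1 : ∀ j, pv f j x * pf f P j x =
      ∑ k, ∑ i, (pd k f x * pd i f x) * (P x i j * pd k (pd j f) x) := by
    intro j
    rw [← pvsym hf]
    unfold pf
    rw [Finset.sum_mul_sum]
    refine Finset.sum_congr rfl fun k _ => Finset.sum_congr rfl fun i _ => ?_
    rw [hs i j]
    ring
  simp only [h1]
  unfold Bf
  simp only [Finset.mul_sum]
  rw [Finset.sum_comm (s := Finset.univ) (t := Finset.univ)
    (f := fun j k => ∑ i, (pd k f x * pd i f x) * (P x i j * pd k (pd j f) x))]
  refine Finset.sum_congr rfl fun k _ => ?_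
  rw [Finset.sum_comm]

/-- The contraction `⟨π, D²f⟩` in the graph metric. -/
def IP (f : E n → ℝ) (P : Field n) (x : E n) : ℝ :=
  ∑ i, ∑ k, up (gM f) i k x * ∑ j, ∑ l, up (gM f) j l x * (P x i j * pd k (pd l f) x)

lemma IP_eq {f : E n → ℝ} {P : Field n} (hf : Smooth f) {x : E n}
    (hs : ∀ i j, P x i j = P x j i) :
    IP f P x = ∑ i, Bf f P i i x - 2 * (∑ i, pv f i x * pf f P i x) / W2 f x +
      Qf f x * qp f P x / W2 f x ^ 2 := by
  unfold IP
  have h1 : ∀ i k, ∑ j, ∑ l, up (gM f) j l x * (P x i j * pd k (pd l f) x) =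
      Bf f P k i x - pf f P i x * pv f k x / W2 f x := by
    intro i k
    simp only [up_gM]
    rw [contr]
    have e : ∑ j, ∑ l, pd j f x * pd l f x * (P x i j * pd k (pd l f) x) =
        pf f P i x * pv f k x := by
      unfold pf pv
      rw [Finset.sum_mul_sum]
      exact Finset.sum_congr rfl fun j _ => Finset.sum_congr rfl fun l _ => by ring
    rw [e]
    rfl
  simp only [h1]
  simp only [up_gM]
  rw [contr]
  have e1 : ∑ i, (Bf f P i i x - pf f P i x * pv f i x / W2 f x) =
      ∑ i, Bf f P i i x - (∑ i, pv f i x * pf f P i x) / W2 f x := by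
    rw [Finset.sum_sub_distrib, Finset.sum_div]
    congr 1
    exact Finset.sum_congr rfl fun i _ => by ring
  have e2 : ∑ i, ∑ j, pd i f x * pd j f x * (Bf f P j i x - pf f P i x * pv f j x / W2 f x) =
      ∑ i, pv f i x * pf f P i x - Qf f x * qp f P x / W2 f x := by
    have : ∀ i j, pd i f x * pd j f x * (Bf f P j i x - pf f P i x * pv f j x / W2 f x) =
        pd j f x * pd i f x * Bf f P j i x -
        (pd i f x * pf f P i x) * (pd j f x * pv f j x) * (1 / W2 f x) := by
      intro i j; ring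
    simp only [this, Finset.sum_sub_distrib, ← Finset.sum_mul, ← Finset.sum_mul_sum]
    rw [Finset.sum_comm, B_contr hf hs]
    have e6 : ∑ i, pd i f x * pv f i x = Qf f x := rfl
    have e7 : ∑ i, pd i f x * pf f P i x = qp f P x := rfl
    rw [e6, e7]
    ring
  rw [e1, e2]
  have := W2_ne f x
  field_simp
  ring

/-- The contraction of the divergence of a symmetric tensor with `∂f`. -/
lemma div_contr {f : E n → ℝ} {P : Field n} (hf : Smooth f) {x : E n}
    (hs : ∀ i j, P x i j = P x j i) :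
    ∑ j, pd j f x * ∑ i, ∑ k, up (gM f) i k x * (pd k (fun y => P y i j) x -
      ∑ l, (chr (gM f) l k i x * P x l j + chr (gM f) l k j x * P x i l)) =
    ∑ i, Df f P i i x - (∑ k, ∑ i, pd k f x * pd i f x * Df f P k i x) / W2 f x -
      (lap f x * qp f P x + ∑ i, pv f i x * pf f P i x) / W2 f x +
      2 * Qf f x * qp f P x / W2 f x ^ 2 := by
  have hT : ∀ i k, ∑ j, pd j f x * (pd k (fun y => P y i j) x -
      ∑ l, (chr (gM f) l k i x * P x l j + chr (gM f) l k j x * P x i l)) =
      Df f P k i x - pd k (pd i f) x * qp f P x / W2 f x - pv f k x * pf f P i x / W2 f x := by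
    intro i k
    have hG : ∀ a b c, chr (gM f) a b c x = pd a f x * pd b (pd c f) x * (W2 f x)⁻¹ :=
      fun a b c => by rw [chr_gM hf]
    simp only [hG]
    have c1 : ∑ j, pd j f x * ∑ l, (pd l f x * pd k (pd i f) x * (W2 f x)⁻¹ * P x l j +
        pd l f x * pd k (pd j f) x * (W2 f x)⁻¹ * P x i l) =
        pd k (pd i f) x * qp f P x / W2 f x + pv f k x * pf f P i x / W2 f x := by
      simp only [Finset.sum_add_distrib, mul_add]
      congr 1
      · unfold qp pf
        simp only [Finset.mul_sum, Finset.sum_div]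
        refine Finset.sum_congr rfl fun j _ => Finset.sum_congr rfl fun l _ => ?_
        rw [hs l j]
        ring
      · unfold pv pf
        rw [Finset.sum_mul_sum, Finset.sum_div]
        refine Finset.sum_congr rfl fun j _ => ?_
        rw [Finset.mul_sum, Finset.sum_div]
        exact Finset.sum_congr rfl fun l _ => by ring
    simp only [mul_sub (pd _ f x), Finset.sum_sub_distrib]
    rw [c1]
    have e : ∑ j, pd j f x * pd k (fun y => P y i j) x = Df f P k i x := by
      unfold Df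
      exact Finset.sum_congr rfl fun j _ => by ring
    rw [e]
    ring
  have hS : ∑ j, pd j f x * ∑ i, ∑ k, up (gM f) i k x * (pd k (fun y => P y i j) x -
      ∑ l, (chr (gM f) l k i x * P x l j + chr (gM f) l k j x * P x i l)) =
      ∑ i, ∑ k, up (gM f) i k x * (Df f P k i x - pd k (pd i f) x * qp f P x / W2 f x -
        pv f k x * pf f P i x / W2 f x) := by
    simp only [← hT]
    simp only [Finset.mul_sum]
    rw [Finset.sum_comm]
    refine Finset.sum_congr rfl fun i _ => ?_
    rw [Finset.sum_comm]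
    refine Finset.sum_congr rfl fun k _ => ?_
    exact Finset.sum_congr rfl fun j _ => by ring
  rw [hS]
  simp only [up_gM]
  rw [contr]
  have d1 : ∑ i, (Df f P i i x - pd i (pd i f) x * qp f P x / W2 f x -
        pv f i x * pf f P i x / W2 f x) = ∑ i, Df f P i i x - lap f x * qp f P x / W2 f x -
        (∑ i, pv f i x * pf f P i x) / W2 f x := by
    unfold lap
    rw [Finset.sum_mul, Finset.sum_div, Finset.sum_div, ← Finset.sum_sub_distrib,
      ← Finset.sum_sub_distrib]
  have d2 : ∑ i, ∑ k, pd i f x * pd k f x * (Df f P k i x -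
        pd k (pd i f) x * qp f P x / W2 f x - pv f k x * pf f P i x / W2 f x) =
      ∑ k, ∑ i, pd k f x * pd i f x * Df f P k i x - 2 * Qf f x * qp f P x / W2 f x := by
    have : ∀ i k, pd i f x * pd k f x * (Df f P k i x -
        pd k (pd i f) x * qp f P x / W2 f x - pv f k x * pf f P i x / W2 f x) =
        pd k f x * pd i f x * Df f P k i x -
        (pd k f x * pd i f x * pd k (pd i f) x) * (qp f P x / W2 f x) -
        (pd i f x * pf f P i x) * (pd k f x * pv f k x) * (1 / W2 f x) := by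
      intro i k; ring
    simp only [this, Finset.sum_sub_distrib, ← Finset.sum_mul, ← Finset.sum_mul_sum]
    have e6 : ∑ i, pd i f x * pv f i x = Qf f x := rfl
    have e7 : ∑ i, pd i f x * pf f P i x = qp f P x := rfl
    have e8 : ∑ i, ∑ k, pd k f x * pd i f x * pd k (pd i f) x = Qf f x := by
      rw [Finset.sum_comm]; exact hess_contr x
    rw [e6, e7, e8, Finset.sum_comm]
    ring
  rw [d1, d2]
  have := W2_ne f x
  field_simp
  ring

lemma HP_w {f : E n → ℝ} (hf : Smooth f) (k : Fin n) (x : E n) :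
    HP k (fun y => (√(W2 f y))⁻¹) (-(pv f k x / (W2 f x * √(W2 f x)))) x := by
  have h := HasDerivAt.sqrt (HP_W2 hf k x : HasDerivAt _ _ _)
    (by simpa using W2_ne f x)
  simp only [zero_smul, add_zero] at h
  have hw : 0 < √(W2 f x) := Real.sqrt_pos.2 (W2_pos f x)
  have h2 := HP_inv (f := fun y => √(W2 f y)) (d := 2 * pv f k x / (2 * √(W2 f x))) h hw.ne'
  refine HP_cast h2 ?_
  have hww : √(W2 f x) ^ 2 = W2 f x := Real.sq_sqrt (W2_pos f x).le
  have hww3 : W2 f x * √(W2 f x) = √(W2 f x) ^ 3 := by rw [pow_succ, hww]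
  rw [hww3]
  field_simp

/-- **The divergence of `X`.** -/
theorem div_Xf {f u : E n → ℝ} {P : Field n} (hf : Smooth f) (hu : Smooth u)
    (hP : ∀ i j, Smooth fun x => P x i j) {x : E n} (hs : ∀ i j, P x i j = P x j i) :
    ∑ i, pd i (Xf f u P i) x = -((∑ i, pd i u x * Yf f P i x) * (√(W2 f x))⁻¹) -
      u x * (√(W2 f x))⁻¹ * (∑ j, pd j f x * ∑ i, ∑ k, up (gM f) i k x *
        (pd k (fun y => P y i j) x -
        ∑ l, (chr (gM f) l k i x * P x l j + chr (gM f) l k j x * P x i l))) -
      u x * (√(W2 f x))⁻¹ * IP f P x := by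
  have hX : ∀ i, HP i (Xf f u P i) _ x := fun i =>
    (((hp hu i x).mul (HP_w hf i x)).neg).mul ((HP_pf hf hP i i x).sub
      (((hp (smooth_pd hf i) i x).mul (HP_qp hf hP i x)).mul
        (HP_inv (HP_W2 hf i x) (W2_ne f x))))
  have h1 : ∀ i, pd i (Xf f u P i) x = _ := fun i => (hX i).pd
  simp only [h1]
  rw [div_contr hf hs, IP_eq hf hs]
  have hw : 0 < √(W2 f x) := Real.sqrt_pos.2 (W2_pos f x)
  have hWn := W2_ne f x
  -- the sums
  have s1 : ∑ i, pd i f x * dq f P i x =
      2 * (∑ i, pv f i x * pf f P i x) + ∑ k, ∑ i, pd k f x * pd i f x * Df f P k i x := by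
    have e1 : ∀ i, pd i f x * dq f P i x =
        ∑ a, (pd i f x * pd i (pd a f) x * pf f P a x) +
        ∑ a, pd i f x * pd a f x * Df f P i a x + ∑ a, pd i f x * pd a f x * Bf f P i a x := by
      intro i
      unfold dq
      rw [Finset.mul_sum, ← Finset.sum_add_distrib, ← Finset.sum_add_distrib]
      exact Finset.sum_congr rfl fun a _ => by ring
    simp only [e1]
    simp only [Finset.sum_add_distrib]
    rw [B_contr hf hs]
    have e2 : ∑ i, ∑ a, pd i f x * pd i (pd a f) x * pf f P a x =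
        ∑ i, pv f i x * pf f P i x := by
      rw [Finset.sum_comm]
      refine Finset.sum_congr rfl fun a _ => ?_
      rw [← Finset.sum_mul, pvsym hf]
    rw [e2]
    ring
  have s2 : ∑ i, pv f i x * Yf f P i x =
      ∑ i, pv f i x * pf f P i x - Qf f x * qp f P x * (W2 f x)⁻¹ := by
    unfold Yf
    have : ∀ i, pv f i x * (pf f P i x - pd i f x * qp f P x * (W2 f x)⁻¹) =
        pv f i x * pf f P i x - (pd i f x * pv f i x) * (qp f P x * (W2 f x)⁻¹) := by
      intro i; ring
    simp only [this, Finset.sum_sub_distrib, ← Finset.sum_mul]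
    have e6 : ∑ i, pd i f x * pv f i x = Qf f x := rfl
    rw [e6]
    ring
  set S := ∑ i, pv f i x * pf f P i x with hS
  set Dd := ∑ k, ∑ i, pd k f x * pd i f x * Df f P k i x with hDd
  set w := √(W2 f x) with hwd
  have hsum : ∀ i, (-(pd i u x * w⁻¹ + u x * -(pv f i x / (W2 f x * w)))) * Yf f P i x +
      -(u x * w⁻¹) * (Df f P i i x + Bf f P i i x - ((pd i (pd i f) x * qp f P x + pd i f x *
        dq f P i x) * (W2 f x)⁻¹ + pd i f x * qp f P x * (-(2 * pv f i x) / W2 f x ^ 2))) =
      -(pd i u x * Yf f P i x) * w⁻¹ + (pv f i x * Yf f P i x) * (u x / (W2 f x * w)) -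
      Df f P i i x * (u x * w⁻¹) - Bf f P i i x * (u x * w⁻¹) +
      pd i (pd i f) x * (qp f P x * (W2 f x)⁻¹ * (u x * w⁻¹)) +
      (pd i f x * dq f P i x) * ((W2 f x)⁻¹ * (u x * w⁻¹)) -
      (pd i f x * pv f i x) * (2 * qp f P x / W2 f x ^ 2 * (u x * w⁻¹)) := by
    intro i; ring
  have hgoal : ∀ i, (-(pd i u x * (√(W2 f x))⁻¹ + u x * -(pv f i x / (W2 f x * √(W2 f x))))) *
      Yf f P i x +
      -(u x * (√(W2 f x))⁻¹) * (Df f P i i x + Bf f P i i x - ((pd i (pd i f) x * qp f P x +
        pd i f x * dq f P i x) *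
        (W2 f x)⁻¹ + pd i f x * qp f P x * (-(2 * pv f i x) / W2 f x ^ 2))) = _ := hsum
  have e6 : ∑ i, pd i f x * pv f i x = Qf f x := rfl
  have e7 : ∑ i, pd i (pd i f) x = lap f x := rfl
  refine (Finset.sum_congr rfl fun i _ => hgoal i).trans ?_
  simp only [Finset.sum_add_distrib, Finset.sum_sub_distrib, ← Finset.sum_mul,
    Finset.sum_neg_distrib]
  rw [s1, s2, e6, e7]
  field_simp
  ring

end Vale.Agent.H45G
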