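import Vale.Agent.P366.H45.G6

/-! The pointwise inequality `0 ≤ div (V + X)`. -/

open MeasureTheory Metric Filter Topology Set
open scoped ContDiff ENNReal

noncomputable section
namespace Vale.Agent.H45G
open Vale.Agent.P366.Stmt
open Vale.Agent.P366.T2 (HP)

variable {n : ℕ}

/-- Cauchy-Schwarz in the graph metric. -/
lemma cs (f : E n → ℝ) (J : Fin n → ℝ) (x : E n) :
    (∑ i, pd i f x * J i) ^ 2 ≤
      W2 f x * (W2 f x - 1) * ∑ i, ∑ j, up (gM f) i j x * J i * J j := by
  have h1 : ∑ i, ∑ j, up (gM f) i j x * J i * J j =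
      ∑ i, J i ^ 2 - (∑ i, pd i f x * J i) ^ 2 / W2 f x := by
    have e0 : ∀ i j, up (gM f) i j x * J i * J j =
        ((if i = j then 1 else 0) - pd i f x * pd j f x / W2 f x) * (J i * J j) := by
      intro i j; rw [up_gM]; ring
    simp only [e0]
    rw [contr]
    have e1 : ∑ i, ∑ j, pd i f x * pd j f x * (J i * J j) = (∑ i, pd i f x * J i) ^ 2 := by
      rw [sq, Finset.sum_mul_sum]
      exact Finset.sum_congr rfl fun i _ => Finset.sum_congr rfl fun j _ => by ring
    rw [e1]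
    congr 1
    exact Finset.sum_congr rfl fun i _ => by ring
  have h2 : (∑ i, pd i f x * J i) ^ 2 ≤ (∑ i, pd i f x ^ 2) * ∑ i, J i ^ 2 :=
    Finset.sum_mul_sq_le_sq_mul_sq _ _ _
  have h3 : ∑ i, pd i f x ^ 2 = W2 f x - 1 := by unfold W2; ring
  rw [h3] at h2
  rw [h1]
  have hW := W2_pos f x
  have h4 : W2 f x * (W2 f x - 1) * (∑ i, J i ^ 2 - (∑ i, pd i f x * J i) ^ 2 / W2 f x) =
      W2 f x * ((W2 f x - 1) * ∑ i, J i ^ 2) - (W2 f x - 1) * (∑ i, pd i f x * J i) ^ 2 := by
    field_simp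
  rw [h4]
  nlinarith [mul_le_mul_of_nonneg_left h2 hW.le]

/-- `u W⁻¹ J(∂f) ≤ μ`. -/
lemma J_bound {f u : E n → ℝ} {K : Field n} {x : E n}
    (hdec : covNorm (gM f) (mom (gM f) K) x ≤ mu (gM f) K x)
    (htilt : u x ^ 2 * (W2 f x - 1) ≤ 1) :
    u x * (√(W2 f x))⁻¹ * (∑ j, pd j f x * mom (gM f) K j x) ≤ mu (gM f) K x := by
  have hW := W2_pos f x
  have hww : √(W2 f x) ^ 2 = W2 f x := Real.sq_sqrt hW.le
  set q := ∑ i, ∑ j, up (gM f) i j x * mom (gM f) K i x * mom (gM f) K j x with hq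
  have hcs := cs f (fun j => mom (gM f) K j x) x
  rw [← hq] at hcs
  have hcov : covNorm (gM f) (mom (gM f) K) x = √q := rfl
  have hmu : 0 ≤ mu (gM f) K x := le_trans (Real.sqrt_nonneg _) (hcov ▸ hdec)
  have hW1 : 0 ≤ W2 f x - 1 := by
    rw [← sum_sq]; exact Finset.sum_nonneg fun i _ => mul_self_nonneg _
  -- `q ≥ 0` unless the contraction vanishes
  have h1 : (u x * (√(W2 f x))⁻¹ * (∑ j, pd j f x * mom (gM f) K j x)) ^ 2 ≤
      (mu (gM f) K x) ^ 2 := by
    rcases le_or_gt 0 q with h0 | h0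
    · have e1 : (u x * (√(W2 f x))⁻¹ * (∑ j, pd j f x * mom (gM f) K j x)) ^ 2 =
          u x ^ 2 * (W2 f x)⁻¹ * (∑ j, pd j f x * mom (gM f) K j x) ^ 2 := by
        rw [mul_pow, mul_pow, inv_pow, hww]
      have e2 : u x ^ 2 * (W2 f x)⁻¹ * (∑ j, pd j f x * mom (gM f) K j x) ^ 2 ≤
          u x ^ 2 * (W2 f x)⁻¹ * (W2 f x * (W2 f x - 1) * q) :=
        mul_le_mul_of_nonneg_left hcs (by positivity)
      have e3 : u x ^ 2 * (W2 f x)⁻¹ * (W2 f x * (W2 f x - 1) * q) =
          (u x ^ 2 * (W2 f x - 1)) * q := by field_simp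
      have e4 : (u x ^ 2 * (W2 f x - 1)) * q ≤ 1 * q := mul_le_mul_of_nonneg_right htilt h0
      have e5 : q ≤ (mu (gM f) K x) ^ 2 := by
        rw [← Real.sq_sqrt h0]
        exact pow_le_pow_left₀ (Real.sqrt_nonneg _) (hcov ▸ hdec) 2
      linarith
    · have h2 : (∑ i, pd i f x * mom (gM f) K i x) ^ 2 ≤ 0 :=
        hcs.trans (mul_nonpos_of_nonneg_of_nonpos (mul_nonneg hW.le hW1) h0.le)
      have h3 : ∑ i, pd i f x * mom (gM f) K i x = 0 := by
        have := le_antisymm h2 (sq_nonneg _)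
        exact pow_eq_zero_iff two_ne_zero |>.1 this
      rw [h3, mul_zero, zero_pow two_ne_zero]
      positivity
  exact (abs_le_of_sq_le_sq' h1 hmu).2

lemma smooth_up {f : E n → ℝ} (hf : Smooth f) (i j : Fin n) : Smooth (up (gM f) i j) := by
  have : up (gM f) i j = fun x => (if i = j then (1 : ℝ) else 0) -
      pd i f x * pd j f x * (W2 f x)⁻¹ := by
    funext x; rw [up_gM]; rfl
  rw [this]
  exact contDiff_const.sub ((ContDiff.mul (smooth_pd hf i) (smooth_pd hf j)).mul
    ((smooth_W2 hf).inv fun x => W2_ne f x))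

lemma smooth_gM {f : E n → ℝ} (hf : Smooth f) (i j : Fin n) : Smooth fun x => gM f x i j :=
  contDiff_const.add (ContDiff.mul (smooth_pd hf i) (smooth_pd hf j))

lemma smooth_momT {f : E n → ℝ} (hf : Smooth f) {K : Field n}
    (hK : ∀ i j, Smooth fun x => K x i j) (i j : Fin n) :
    Smooth fun x => momT (gM f) K x i j := by
  unfold momT tr
  refine ContDiff.sub (hK i j) (ContDiff.mul ?_ (smooth_gM hf i j))
  exact ContDiff.sum fun a _ => ContDiff.sum fun b _ => ContDiff.mul (smooth_up hf a b) (hK a b)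

lemma symm_momT {f : E n → ℝ} {K : Field n} {x : E n} (hK : ∀ i j, K x i j = K x j i)
    (i j : Fin n) : momT (gM f) K x i j = momT (gM f) K x j i := by
  unfold momT
  rw [hK i j]
  have : gM f x i j = gM f x j i := by
    unfold gM
    simp only [eq_comm (a := i)]
    ring
  rw [this]

/-- The covariant Hessian of `f` in its graph metric. -/
lemma hess_gM {f : E n → ℝ} (hf : Smooth f) (x : E n) (i j : Fin n) :
    hess (gM f) f x i j = pd i (pd j f) x / W2 f x := by
  unfold hess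
  have h : ∀ k, chr (gM f) k i j x * pd k f x =
      (pd k f x * pd k f x) * (pd i (pd j f) x * (W2 f x)⁻¹) := by
    intro k; rw [chr_gM hf]; ring
  simp only [h]
  rw [← Finset.sum_mul, sum_sq]
  have := W2_ne f x
  field_simp
  ring

/-- `⟨π, ∇(u df)⟩`. -/
def pin (g K : Field n) (f u : E n → ℝ) (x : E n) : ℝ :=
  ∑ i, ∑ j, ∑ k, ∑ l, up g i k x * up g j l x * momT g K x i j *
    (u x * hess g f x k l + pd k u x * pd l f x)

lemma pin_eq {f u : E n → ℝ} (hf : Smooth f) (K : Field n) (x : E n) :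
    √(W2 f x) * pin (gM f) K f u x = u x * (√(W2 f x))⁻¹ * IP f (momT (gM f) K) x +
      (∑ i, pd i u x * Yf f (momT (gM f) K) i x) * (√(W2 f x))⁻¹ := by
  have hW := W2_pos f x
  have hww : √(W2 f x) ^ 2 = W2 f x := Real.sq_sqrt hW.le
  have hw : 0 < √(W2 f x) := Real.sqrt_pos.2 hW
  set P := momT (gM f) K with hP
  have h1 : pin (gM f) K f u x = u x * (W2 f x)⁻¹ * IP f P x +
      (W2 f x)⁻¹ * ∑ i, ∑ k, up (gM f) i k x * (pd k u x * pf f P i x) := by
    unfold pin IP
    rw [Finset.mul_sum, Finset.mul_sum, ← Finset.sum_add_distrib]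
    refine Finset.sum_congr rfl fun i _ => ?_
    rw [Finset.sum_comm, Finset.mul_sum, Finset.mul_sum, ← Finset.sum_add_distrib]
    refine Finset.sum_congr rfl fun k _ => ?_
    have e1 : ∑ j, ∑ l, up (gM f) i k x * up (gM f) j l x * momT (gM f) K x i j *
        (u x * hess (gM f) f x k l + pd k u x * pd l f x) =
        u x * (W2 f x)⁻¹ * (up (gM f) i k x *
          ∑ j, ∑ l, up (gM f) j l x * (P x i j * pd k (pd l f) x)) +
        up (gM f) i k x * pd k u x * ∑ j, P x i j * ∑ l, up (gM f) j l x * pd l f x := by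
      simp only [Finset.mul_sum, ← Finset.sum_add_distrib]
      refine Finset.sum_congr rfl fun j _ => Finset.sum_congr rfl fun l _ => ?_
      rw [hess_gM hf]
      ring
    rw [e1]
    simp only [up_pd]
    have e2 : ∑ j, P x i j * (pd j f x / W2 f x) = (W2 f x)⁻¹ * pf f P i x := by
      unfold pf
      rw [Finset.mul_sum]
      exact Finset.sum_congr rfl fun j _ => by ring
    rw [e2]
    ring
  have h2 : ∑ i, ∑ k, up (gM f) i k x * (pd k u x * pf f P i x) =
      ∑ i, pd i u x * Yf f P i x := by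
    simp only [up_gM]
    rw [contr]
    have e3 : ∑ i, ∑ j, pd i f x * pd j f x * (pd j u x * pf f P i x) =
        (∑ i, pd i u x * pd i f x) * qp f P x := by
      unfold qp
      rw [mul_comm, Finset.sum_mul_sum]
      exact Finset.sum_congr rfl fun i _ => Finset.sum_congr rfl fun l _ => by ring
    rw [e3]
    unfold Yf
    rw [Finset.sum_mul, Finset.sum_div, ← Finset.sum_sub_distrib]
    exact Finset.sum_congr rfl fun i _ => by ring
  rw [h1, h2]
  have : (√(W2 f x))⁻¹ = √(W2 f x) * (W2 f x)⁻¹ := by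
    have hWn := W2_ne f x
    field_simp
    exact hww.symm
  rw [this]
  ring

/-- **The pointwise inequality.** -/
theorem div_nonneg' {f u : E n → ℝ} {K : Field n} (hf : Smooth f) (hu : Smooth u)
    (hK : ∀ i j, Smooth fun x => K x i j) {x : E n} (hs : ∀ i j, K x i j = K x j i)
    (hdec : covNorm (gM f) (mom (gM f) K) x ≤ mu (gM f) K x)
    (htilt : u x ^ 2 * (W2 f x - 1) ≤ 1)
    (hstar : mu (gM f) K x + √(W2 f x) * pin (gM f) K f u x ≤ scal (gM f) x) :
    0 ≤ ∑ i, pd i (fun y => Vf f i y + Xf f u (momT (gM f) K) i y) x := by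
  have hPs := smooth_momT hf hK
  have hd : ∀ i, pd i (fun y => Vf f i y + Xf f u (momT (gM f) K) i y) x =
      pd i (Vf f i) x + pd i (Xf f u (momT (gM f) K) i) x := by
    intro i
    have hX : HP i (Xf f u (momT (gM f) K) i) _ x :=
      (((hp hu i x).mul (HP_w hf i x)).neg).mul ((HP_pf hf hPs i i x).sub
      (((hp (smooth_pd hf i) i x).mul (HP_qp hf hPs i x)).mul
        (HP_inv (HP_W2 hf i x) (W2_ne f x))))
    have := ((hp (smooth_Vf hf i) i x).add hX).pd
    rw [this, hX.pd]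
  simp only [hd]
  rw [Finset.sum_add_distrib, div_Vf hf, div_Xf hf hu hPs (symm_momT hs), ← scal_gM hf]
  have h1 := J_bound (u := u) hdec htilt
  unfold mom at h1
  rw [pin_eq hf] at hstar
  linarith

end Vale.Agent.H45G
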