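import Vale.Agent.P366.H45.G7

/-! The case `K = u A`, `A` the second fundamental form of the graph. -/

open MeasureTheory Metric Filter Topology Set
open scoped ContDiff ENNReal

noncomputable section
namespace Vale.Agent.H45G
open Vale.Agent.P366.Stmt
open Vale.Agent.P366.T2 (HP)

variable {n : ℕ}

lemma pf_kS (f σ : E n → ℝ) (i : Fin n) (x : E n) :
    pf f (momT (gM f) (kS f σ)) i x = σ x * (pv f i x - hf f x * (W2 f x * pd i f x)) := by
  have hm : ∀ a b, momT (gM f) (kS f σ) x a b =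
      σ x * (pd a (pd b f) x - hf f x * gM f x a b) := fun a b => congrFun (momT_gM f σ a b) x
  rw [← m_contr]
  unfold pf
  exact Finset.sum_congr rfl fun j _ => by rw [hm]; ring

lemma qp_kS (f σ : E n → ℝ) (x : E n) :
    qp f (momT (gM f) (kS f σ)) x = σ x * (Qf f x - hf f x * W2 f x * (W2 f x - 1)) := by
  rw [← m_contr2]
  unfold qp
  exact Finset.sum_congr rfl fun j _ => by rw [pf_kS]

lemma Y_kS (f σ : E n → ℝ) (i : Fin n) (x : E n) :
    Yf f (momT (gM f) (kS f σ)) i x = -(σ x * W2 f x * Vf f i x) := by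
  unfold Yf
  rw [pf_kS, qp_kS]
  unfold Vf hf
  have := W2_ne f x
  field_simp
  ring

lemma IP_kS {f : E n → ℝ} (hfs : Smooth f) (σ : E n → ℝ) (x : E n) :
    IP f (momT (gM f) (kS f σ)) x = -(σ x * W2 f x * Sc f x) := by
  have hm : ∀ a b, momT (gM f) (kS f σ) x a b =
      σ x * (pd a (pd b f) x - hf f x * gM f x a b) := fun a b => congrFun (momT_gM f σ a b) x
  have hs : ∀ i j, momT (gM f) (kS f σ) x i j = momT (gM f) (kS f σ) x j i :=
    symm_momT fun i j => by unfold kS; rw [sym2 hfs i j]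
  rw [IP_eq hfs hs, qp_kS]
  have e1 : ∑ i, Bf f (momT (gM f) (kS f σ)) i i x =
      σ x * (N2 f x - hf f x * (lap f x + Qf f x)) := by
    have h1 : ∀ i, Bf f (momT (gM f) (kS f σ)) i i x =
        σ x * (∑ j, pd i (pd j f) x * pd i (pd j f) x) -
        σ x * hf f x * (pd i (pd i f) x) - σ x * hf f x * (pd i f x * pv f i x) := by
      intro i
      unfold Bf pv
      have h2 : ∀ j, momT (gM f) (kS f σ) x i j * pd i (pd j f) x =
          σ x * (pd i (pd j f) x * pd i (pd j f) x) -
          (if i = j then σ x * hf f x * pd i (pd j f) x else 0) -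
          σ x * hf f x * pd i f x * (pd j f x * pd i (pd j f) x) := by
        intro j
        rw [hm]
        unfold gM
        split_ifs <;> ring
      simp only [h2, Finset.sum_sub_distrib, Finset.sum_ite_eq, Finset.mem_univ, if_true,
        ← Finset.mul_sum]
      ring
    simp only [h1, Finset.sum_sub_distrib, ← Finset.mul_sum]
    have e2 : ∑ i, ∑ j, pd i (pd j f) x * pd i (pd j f) x = N2 f x := rfl
    have e3 : ∑ i, pd i (pd i f) x = lap f x := rfl
    have e4 : ∑ i, pd i f x * pv f i x = Qf f x := rfl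
    rw [e2, e3, e4]
    ring
  have e5 : ∑ i, pv f i x * pf f (momT (gM f) (kS f σ)) i x =
      σ x * (P2 f x - hf f x * W2 f x * Qf f x) := by
    have h1 : ∀ i, pv f i x * pf f (momT (gM f) (kS f σ)) i x =
        σ x * (pv f i x * pv f i x) - σ x * hf f x * W2 f x * (pd i f x * pv f i x) := by
      intro i; rw [pf_kS]; ring
    simp only [h1, Finset.sum_sub_distrib, ← Finset.mul_sum]
    have e4 : ∑ i, pd i f x * pv f i x = Qf f x := rfl
    have e6 : ∑ i, pv f i x * pv f i x = P2 f x := rfl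
    rw [e4, e6]
    ring
  rw [e1, e5]
  unfold hf Sc
  have := W2_ne f x
  field_simp
  ring

/-- `u / W`. -/
def sg (f u : E n → ℝ) (x : E n) : ℝ := u x * (√(W2 f x))⁻¹

lemma smooth_w {f : E n → ℝ} (hf : Smooth f) : Smooth fun x => (√(W2 f x))⁻¹ := by
  have h : Smooth fun x => √(W2 f x) := ContDiff.sqrt (smooth_W2 hf) fun x => W2_ne f x
  exact ContDiff.inv h fun x => (Real.sqrt_pos.2 (W2_pos f x)).ne'

lemma smooth_sg {f u : E n → ℝ} (hf : Smooth f) (hu : Smooth u) : Smooth (sg f u) :=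
  ContDiff.mul hu (smooth_w hf)

/-- The condition of the general theorem follows from the dominant energy condition when
`K = u A`. -/
theorem star_kS {f u : E n → ℝ} (hf : Smooth f) (hu : Smooth u) {x : E n}
    (hdec : covNorm (gM f) (mom (gM f) (kS f (sg f u))) x ≤ mu (gM f) (kS f (sg f u)) x)
    (htilt : u x ^ 2 * (W2 f x - 1) ≤ 1) :
    mu (gM f) (kS f (sg f u)) x + √(W2 f x) * pin (gM f) (kS f (sg f u)) f u x ≤
      scal (gM f) x := by
  have hW := W2_pos f x
  have hww : √(W2 f x) ^ 2 = W2 f x := Real.sq_sqrt hW.le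
  have hw : 0 < √(W2 f x) := Real.sqrt_pos.2 hW
  have h1 := J_bound hdec htilt
  have h2 : u x * (√(W2 f x))⁻¹ * (∑ j, pd j f x * mom (gM f) (kS f (sg f u)) j x) =
      (∑ i, pd i u x * Yf f (momT (gM f) (kS f (sg f u))) i x) * (√(W2 f x))⁻¹ := by
    rw [mom_gM hf (smooth_sg hf hu)]
    have hsd : ∀ i, pd i (sg f u) x = pd i u x * (√(W2 f x))⁻¹ +
        u x * -(pv f i x / (W2 f x * √(W2 f x))) := fun i =>
      ((hp hu i x).mul (HP_w hf i x)).pd
    have e1 : ∑ i, pd i (sg f u) x * pv f i x = (∑ i, pd i u x * pv f i x) * (√(W2 f x))⁻¹ -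
        P2 f x * (u x / (W2 f x * √(W2 f x))) := by
      unfold P2
      rw [Finset.sum_mul, Finset.sum_mul, ← Finset.sum_sub_distrib]
      exact Finset.sum_congr rfl fun i _ => by rw [hsd]; ring
    have e2 : ∑ i, pd i (sg f u) x * pd i f x = (∑ i, pd i u x * pd i f x) * (√(W2 f x))⁻¹ -
        Qf f x * (u x / (W2 f x * √(W2 f x))) := by
      unfold Qf
      rw [Finset.sum_mul, Finset.sum_mul, ← Finset.sum_sub_distrib]
      exact Finset.sum_congr rfl fun i _ => by rw [hsd]; ring
    have e3 : ∑ i, pd i u x * Yf f (momT (gM f) (kS f (sg f u))) i x =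
        -(sg f u x * ((∑ i, pd i u x * pd i f x) * lap f x - ∑ i, pd i u x * pv f i x)) := by
      rw [Finset.sum_mul, ← Finset.sum_sub_distrib, Finset.mul_sum, ← Finset.sum_neg_distrib]
      refine Finset.sum_congr rfl fun i _ => ?_
      rw [Y_kS]
      unfold Vf
      have := W2_ne f x
      field_simp
    rw [e1, e2, e3]
    unfold sg
    have := W2_ne f x
    field_simp
    ring
  rw [pin_eq hf, IP_kS hf, ← h2, scal_gM hf]
  rw [mu_gM hf] at h1 ⊢
  have h3 : sg f u x ^ 2 * W2 f x = u x ^ 2 := by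
    unfold sg
    rw [mul_pow, inv_pow, hww]
    have := W2_ne f x
    field_simp
  have h4 : u x * (√(W2 f x))⁻¹ * -(sg f u x * W2 f x * Sc f x) = -(u x ^ 2 * Sc f x) := by
    have : u x * (√(W2 f x))⁻¹ = sg f u x := rfl
    rw [this, ← h3]
    ring
  rw [h3] at h1 ⊢
  rw [h4]
  linarith

end Vale.Agent.H45G
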