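import Vale.Agent.P366.H45.G8

/-! The divergence theorem outside a finite union of balls. -/

open MeasureTheory Metric Filter Topology Set
open scoped ContDiff ENNReal

noncomputable section
namespace Vale.Agent.H45G
open Vale.Agent.P366.Stmt
open Vale.Agent.P366 (dvg flux sphI sphM norm_smul_sph integral_dvg_outside)

variable {n : ℕ}

lemma sm1 {f : E n → ℝ} (hf : Smooth f) : ContDiff ℝ 1 f := ContDiff.of_le hf (by norm_cast)

/-- Flux through the sphere of radius `r` about `c`. -/
def flc (c : E n) (Z : Fin n → E n → ℝ) (r : ℝ) : ℝ := flux (fun i y => Z i (y + c)) r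

lemma flc_zero (Z : Fin n → E n → ℝ) (r : ℝ) : flc 0 Z r = flux Z r := by
  unfold flc; simp only [add_zero]

lemma dvg_shift (c : E n) (Z : Fin n → E n → ℝ) (y : E n) :
    dvg (fun i y => Z i (y + c)) y = dvg Z (y + c) := by
  unfold dvg Vale.Agent.P366.pd
  refine Finset.sum_congr rfl fun i _ => ?_
  rw [fderiv_comp_add_right]

lemma dvg_eq {Z : Fin n → E n → ℝ} (hZ : ∀ i, Smooth (Z i)) (x : E n) :
    dvg Z x = ∑ i, pd i (Z i) x := by
  unfold dvg
  refine Finset.sum_congr rfl fun i _ => ?_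
  rw [Vale.Agent.P366.pd_eq_of_smooth (hZ i)]

lemma dvg_cont {Z : Fin n → E n → ℝ} (hZ : ∀ i, Smooth (Z i)) : Continuous (dvg Z) := by
  unfold dvg Vale.Agent.P366.pd
  refine continuous_finsetSum _ fun i _ => ?_
  exact ((smooth_fderiv (hZ i)).continuous).clm_apply continuous_const

lemma dvg_congr {Z Z' : Fin n → E n → ℝ} {x : E n} (h : ∀ i, Z i =ᶠ[𝓝 x] Z' i) :
    dvg Z x = dvg Z' x := by
  unfold dvg Vale.Agent.P366.pd
  exact Finset.sum_congr rfl fun i _ => by rw [(h i).fderiv_eq]

lemma int_out [Nontrivial (E n)] {Z : Fin n → E n → ℝ} (hZ : ∀ i, Smooth (Z i)) {C : ℝ}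
    (hC : ∀ i x, C < ‖x‖ → Z i x = 0) (c : E n) {r : ℝ} (hr : 0 < r) :
    ∫ x in {x : E n | r < ‖x - c‖}, dvg Z x = - flc c Z r := by
  have hsm : ∀ i, ContDiff ℝ 1 (fun y => Z i (y + c)) := fun i =>
    (sm1 (hZ i)).comp (contDiff_id.add contDiff_const)
  have h1 := integral_dvg_outside (n := n) (b := 0) le_rfl (W := fun i y => Z i (y + c))
    (fun i => (hsm i).contDiffOn) (C := C + ‖c‖) (fun i x hx => hC i _ (by
      have : ‖x‖ ≤ ‖x + c‖ + ‖c‖ := by
        have := norm_sub_le (x + c) c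
        simpa using this
      linarith)) hr
  unfold flc
  rw [← h1]
  have hm1 : MeasurableSet {x : E n | r < ‖x - c‖} :=
    (isOpen_lt continuous_const (continuous_id.sub continuous_const).norm).measurableSet
  have hm2 : MeasurableSet {x : E n | r < ‖x‖} :=
    (isOpen_lt continuous_const continuous_norm).measurableSet
  rw [← integral_indicator hm1, ← integral_indicator hm2, ← integral_add_right_eq_self _ c]
  refine integral_congr_ae (Eventually.of_forall fun y => ?_)
  simp only [indicator, mem_ofPred_eq, add_sub_cancel_right, dvg_shift]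

lemma dvg_supp {Z : Fin n → E n → ℝ} {C : ℝ} (hC : ∀ i x, C < ‖x‖ → Z i x = 0) {x : E n}
    (hx : C < ‖x‖) : dvg Z x = 0 := by
  have h : dvg Z x = dvg (fun _ _ => (0 : ℝ)) x := by
    refine dvg_congr fun i => ?_
    filter_upwards [(isOpen_lt continuous_const continuous_norm).mem_nhds hx] with y hy
    exact hC i y hy
  rw [h]
  unfold dvg Vale.Agent.P366.pd
  simp

lemma dvg_integrable {Z : Fin n → E n → ℝ} (hZ : ∀ i, Smooth (Z i)) {C : ℝ}
    (hC : ∀ i x, C < ‖x‖ → Z i x = 0) : Integrable (dvg Z) := by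
  refine (dvg_cont hZ).integrable_of_hasCompactSupport ?_
  refine HasCompactSupport.intro (isCompact_closedBall (0 : E n) C) fun x hx => ?_
  exact dvg_supp hC (by simpa using hx)

lemma int_zero [Nontrivial (E n)] {Z : Fin n → E n → ℝ} (hZ : ∀ i, Smooth (Z i)) {C : ℝ}
    (hC : ∀ i x, C < ‖x‖ → Z i x = 0) : ∫ x, dvg Z x = 0 := by
  obtain ⟨c, hc⟩ := NormedSpace.exists_lt_norm ℝ (E n) (C + 1)
  have h1 := int_out hZ hC c one_pos
  have h2 : flc c Z 1 = 0 := by
    unfold flc flux sphI
    have : ∀ θ : sphere (0 : E n) 1, ∑ i, Z i ((1 : ℝ) • (θ : E n) + c) *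
        (((1 : ℝ) • (θ : E n)) i / ‖(1 : ℝ) • (θ : E n)‖) = 0 := by
      intro θ
      refine Finset.sum_eq_zero fun i _ => ?_
      rw [hC, zero_mul]
      have h3 : ‖(1 : ℝ) • (θ : E n)‖ = 1 := norm_smul_sph zero_le_one θ
      have := norm_sub_norm_le c (-((1 : ℝ) • (θ : E n)))
      rw [norm_neg, h3, sub_neg_eq_add, add_comm c] at this
      linarith
    simp only [this, integral_zero, mul_zero]
  rw [h2, neg_zero] at h1
  have hm : MeasurableSet {x : E n | 1 < ‖x - c‖} :=
    (isOpen_lt continuous_const (continuous_id.sub continuous_const).norm).measurableSet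
  have h3 : ∫ x in {x : E n | 1 < ‖x - c‖}ᶜ, dvg Z x = 0 := by
    refine setIntegral_eq_zero_of_forall_eq_zero fun x hx => ?_
    refine dvg_supp hC ?_
    have hx' : ‖x - c‖ ≤ 1 := by simpa using hx
    have := norm_sub_norm_le c x
    rw [norm_sub_rev] at this
    linarith
  rw [← integral_add_compl hm (dvg_integrable hZ hC), h1, h3, add_zero]

lemma compl_cb (c : E n) (r : ℝ) : (closedBall c r)ᶜ = {x : E n | r < ‖x - c‖} := by
  ext x
  simp [dist_eq_norm]

lemma int_cb0 [Nontrivial (E n)] {Z : Fin n → E n → ℝ} (hZ : ∀ i, Smooth (Z i)) {C : ℝ}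
    (hC : ∀ i x, C < ‖x‖ → Z i x = 0) (c : E n) {r : ℝ} (hr : 0 < r) :
    ∫ x in closedBall c r, dvg Z x = flc c Z r := by
  have h1 := integral_add_compl (isClosed_closedBall (x := c) (ε := r)).measurableSet
    (dvg_integrable hZ hC)
  rw [int_zero hZ hC, compl_cb, int_out hZ hC c hr] at h1
  linarith

theorem int_cb [Nontrivial (E n)] {Y : Fin n → E n → ℝ} (hY : ∀ i, Smooth (Y i)) (c : E n)
    {r : ℝ} (hr : 0 < r) : ∫ x in closedBall c r, dvg Y x = flc c Y r := by
  set M : ℝ := ‖c‖ + r + 1 with hM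
  have hM0 : 0 < M := by positivity
  let χ : ContDiffBump (0 : E n) := ⟨M, M + 1, hM0, by linarith⟩
  have hχs : ContDiff ℝ ∞ χ := χ.contDiff
  have hZ : ∀ i, Smooth (fun x => χ x * Y i x) := fun i => ContDiff.mul hχs (hY i)
  have hC : ∀ i x, M + 1 < ‖x‖ → χ x * Y i x = 0 := by
    intro i x hx
    rw [χ.zero_of_le_dist (by rw [dist_zero_right]; exact hx.le), zero_mul]
  have hone : ∀ x : E n, ‖x‖ < M → χ x = 1 := fun x hx =>
    χ.one_of_mem_closedBall (by rw [mem_closedBall, dist_zero_right]; exact hx.le)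
  have h1 := int_cb0 (Z := fun i x => χ x * Y i x) hZ hC c hr
  have hsub : ∀ x, ‖x - c‖ ≤ r → ‖x‖ < M := by
    intro x hx
    have := norm_add_le (x - c) c
    rw [sub_add_cancel] at this
    linarith
  have h2 : ∫ x in closedBall c r, dvg (fun i x => χ x * Y i x) x =
      ∫ x in closedBall c r, dvg Y x := by
    refine setIntegral_congr_fun isClosed_closedBall.measurableSet fun x hx => ?_
    refine dvg_congr fun i => ?_
    have hx' : ‖x‖ < M := hsub x (by simpa [dist_eq_norm] using hx)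
    filter_upwards [(isOpen_lt continuous_norm continuous_const).mem_nhds hx'] with y hy
    rw [hone y hy, one_mul]
  have h3 : flc c (fun i x => χ x * Y i x) r = flc c Y r := by
    unfold flc flux sphI
    congr 1
    refine integral_congr_ae (Eventually.of_forall fun θ => ?_)
    have hx' : ‖r • (θ : E n) + c‖ < M := hsub _ (by
      rw [add_sub_cancel_right, norm_smul_sph hr.le])
    simp only [hone _ hx', one_mul]
  rw [← h2, h1, h3]

/-- The flux through a large sphere is at least the sum of the fluxes through the small ones. -/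
theorem flux_ge [Nontrivial (E n)] {ι : Type} [Fintype ι] {Y : Fin n → E n → ℝ}
    (hY : ∀ i, Smooth (Y i)) {c : ι → E n} {r : ι → ℝ} (hr : ∀ k, 0 < r k)
    (hd : Pairwise (Function.onFun Disjoint fun k => closedBall (c k) (r k))) {ρ : ℝ} (hρ : 0 < ρ)
    (hin : ∀ k, closedBall (c k) (r k) ⊆ closedBall 0 ρ)
    (hpos : ∀ x, (∀ k, x ∉ closedBall (c k) (r k)) → 0 ≤ dvg Y x) :
    ∑ k, flc (c k) Y (r k) ≤ flux Y ρ := by
  have hint : ∀ (c : E n) (r : ℝ), IntegrableOn (dvg Y) (closedBall c r) := fun c r =>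
    (dvg_cont hY).continuousOn.integrableOn_compact (isCompact_closedBall c r)
  rw [← flc_zero, ← int_cb hY 0 hρ]
  set U : Set (E n) := ⋃ k, closedBall (c k) (r k) with hU
  have hUm : MeasurableSet U := MeasurableSet.iUnion fun k => isClosed_closedBall.measurableSet
  have hUs : U ⊆ closedBall 0 ρ := iUnion_subset hin
  have h1 : ∫ x in U, dvg Y x = ∑ k, flc (c k) Y (r k) := by
    rw [hU, integral_iUnion_fintype (fun k => isClosed_closedBall.measurableSet) hd
      (fun k => hint _ _)]
    exact Finset.sum_congr rfl fun k _ => int_cb hY (c k) (hr k)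
  have h2 : ∫ x in closedBall (0 : E n) ρ, dvg Y x =
      (∫ x in closedBall (0 : E n) ρ \ U, dvg Y x) + ∫ x in U, dvg Y x := by
    rw [← setIntegral_union disjoint_sdiff_left hUm
      ((hint 0 ρ).mono_set sdiff_subset) ((hint 0 ρ).mono_set hUs), sdiff_union_of_subset hUs]
  have h3 : 0 ≤ ∫ x in closedBall (0 : E n) ρ \ U, dvg Y x := by
    refine setIntegral_nonneg (isClosed_closedBall.measurableSet.diff hUm) fun x hx => ?_
    refine hpos x fun k hk => hx.2 ?_
    exact mem_iUnion.2 ⟨k, hk⟩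
  rw [h2, h1]
  linarith

/-- Compactly supported fields: the outside integral. -/
theorem int_compl [Nontrivial (E n)] {ι : Type} [Fintype ι] {Z : Fin n → E n → ℝ}
    (hZ : ∀ i, Smooth (Z i)) {C : ℝ} (hC : ∀ i x, C < ‖x‖ → Z i x = 0)
    {c : ι → E n} {r : ι → ℝ} (hr : ∀ k, 0 < r k)
    (hd : Pairwise (Function.onFun Disjoint fun k => closedBall (c k) (r k))) :
    ∫ x in (⋃ k, closedBall (c k) (r k))ᶜ, dvg Z x = -∑ k, flc (c k) Z (r k) := by
  have hUm : MeasurableSet (⋃ k, closedBall (c k) (r k)) :=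
    MeasurableSet.iUnion fun k => isClosed_closedBall.measurableSet
  have h1 := integral_add_compl hUm (dvg_integrable hZ hC)
  rw [int_zero hZ hC] at h1
  have h2 : ∫ x in (⋃ k, closedBall (c k) (r k)), dvg Z x = ∑ k, flc (c k) Z (r k) := by
    rw [integral_iUnion_fintype (fun k => isClosed_closedBall.measurableSet) hd
      (fun k => (dvg_integrable hZ hC).integrableOn)]
    exact Finset.sum_congr rfl fun k _ => int_cb hZ (c k) (hr k)
  linarith

end Vale.Agent.H45G
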