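import Vale.Agent.P366.H45.G22

/-! The class of `P366.EmbeddingClassOne` is contained in class (1) of `final4`. -/

open MeasureTheory Metric Filter Topology Set
open scoped ContDiff ENNReal

noncomputable section
namespace Vale.Agent.H45G
open Vale.Agent.P366.Stmt
open Vale.Agent.P366.GraphClass

variable {n : ℕ}

/-- An inequality that holds inside holds up to the boundary. -/
lemma le_of_inside {ι : Type} [Finite ι] {F : E n → ℝ} {c : ι → E n} {r : ι → ℝ}
    (h : Balls F c r) (hF : Smooth F) (hne : ∀ x, F x = 0 → ∃ i, pd i F x ≠ 0)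
    {φ : E n → ℝ} (hφ : Continuous φ) {C : ℝ} (hle : ∀ x, 0 < F x → φ x ≤ C) {x : E n}
    (hx : 0 ≤ F x) : φ x ≤ C := by
  rcases hx.eq_or_lt with h0 | h0
  swap
  · exact hle x h0
  have hr : ∀ k, r k ≤ ‖x - c k‖ := by
    intro k
    by_contra hcon
    exact absurd ((h.dom x).2 ⟨k, not_le.1 hcon⟩) (not_lt.2 hx)
  obtain ⟨k, hk⟩ : ∃ k, ‖x - c k‖ = r k := by
    by_contra hcon
    push Not at hcon
    have := h.pos_out hF hne fun k => lt_of_le_of_ne (hr k) (Ne.symm (hcon k))
    linarith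
  have hcont : Continuous fun t : ℝ => x + t • (x - c k) := by fun_prop
  have hlim : Tendsto (fun t : ℝ => φ (x + t • (x - c k))) (𝓝[>] 0) (𝓝 (φ x)) := by
    have h1 : Continuous fun t : ℝ => φ (x + t • (x - c k)) := hφ.comp hcont
    have := (h1.tendsto 0).mono_left (nhdsWithin_le_nhds (s := Ioi 0))
    simpa using this
  refine le_of_tendsto hlim ?_
  have hev : ∀ j, ∀ᶠ t in 𝓝[>] (0 : ℝ), r j < ‖x + t • (x - c k) - c j‖ := by
    intro j
    by_cases hjk : j = k
    · subst hjk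
      filter_upwards [self_mem_nhdsWithin] with t ht
      have ht' : (0 : ℝ) < t := ht
      have h1 : x + t • (x - c j) - c j = (1 + t) • (x - c j) := by
        rw [add_smul, one_smul]; abel
      rw [h1, norm_smul, hk, Real.norm_of_nonneg (by linarith)]
      nlinarith [h.pos j]
    · have h1 : r j < ‖x - c j‖ := by
        have h2 := h.disj j k hjk
        have h3 : ‖c j - c k‖ ≤ ‖x - c j‖ + ‖x - c k‖ := by
          have : c j - c k = (x - c k) - (x - c j) := by abel
          rw [this]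
          exact (norm_sub_le _ _).trans (by rw [add_comm])
        rw [hk] at h3
        linarith
      have h4 : Continuous fun t : ℝ => ‖x + t • (x - c k) - c j‖ := by fun_prop
      have h5 : Tendsto (fun t : ℝ => ‖x + t • (x - c k) - c j‖) (𝓝[>] 0) (𝓝 ‖x - c j‖) := by
        have := (h4.tendsto 0).mono_left (nhdsWithin_le_nhds (s := Ioi 0))
        simpa using this
      exact (tendsto_order.1 h5).1 _ h1
  filter_upwards [eventually_all.2 hev] with t ht
  exact hle _ (h.pos_out hF hne ht)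

theorem embeddingClassOne (hn : 3 ≤ n) (D : Exterior n) (hAF : D.IsAF) (hDEC : D.DEC)
    (hT : D.Trapped) (m : ℝ) (hm : D.IsEnergy m)
    (N : ℕ) (c : Fin N → E n) (r : Fin N → ℝ) (hr : ∀ a, 0 < r a)
    (hd : ∀ a b, a ≠ b → r a + r b < len (c a - c b))
    (hΩ : ∀ x, 0 ≤ D.F x ↔ ∀ a, r a ≤ len (x - c a))
    (f u κ : E n → ℝ) (T : Field n) (hf : Smooth f) (hu : Smooth u)
    (hu' : BigO (((n : ℝ) - 2) / 4) u)
    (hS : ∀ a, ∃ C, ∀ x, len (x - c a) = r a → f x = C ∧ ∃ i, pd i f x ≠ 0)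
    (hg : ∀ x, 0 ≤ D.F x → ∀ i j, D.g x i j = (if i = j then 1 else 0) + pd i f x * pd j f x)
    (hK : ∀ x, 0 ≤ D.F x → ∀ i j, D.K x i j = u x * pd i (pd j f) x / √(1 + ∑ k, pd k f x ^ 2) +
      κ x * pd i f x * pd j f x + T x i j)
    (hT' : ∀ x, 0 ≤ D.F x → (∀ i, ∑ j, T x i j * pd j f x = 0) ∧ ∑ i, T x i i = 0)
    (hun : ∀ x, 0 < D.F x → u x ^ 2 * ∑ k, pd k f x ^ 2 ≤ 1) :
    D.Amin ≠ ⊤ ∧ 0 < m ∧
      (D.Amin.toReal / omega n) ^ (((n : ℝ) - 2) / (n - 1)) / 2 ≤ m := by
  have hsub : ∀ x, D.F x < 0 ↔ ∃ k, len (x - c k) < r k := by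
    intro x
    rw [← not_le, hΩ x]
    push Not
    rfl
  have hB : Balls D.F c r := ⟨hr, hd, hsub⟩
  have hlev : ∀ k x y, len (x - c k) = r k → len (y - c k) = r k → f x = f y := by
    intro k x y hx hy
    obtain ⟨C, hC⟩ := hS k
    rw [(hC x hx).1, (hC y hy).1]
  have cf : ∀ i, Continuous (pd i f) := fun i => (smooth_pd hf i).continuous
  have hφ : Continuous fun x => u x ^ 2 * ∑ k, pd k f x ^ 2 :=
    (hu.continuous.pow 2).mul (continuous_finsetSum _ fun k _ => (cf k).pow 2)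
  have htilt : ∀ x, 0 ≤ D.F x → u x ^ 2 * ∑ i, pd i f x ^ 2 ≤ 1 := fun x hx =>
    le_of_inside hB D.dom.1 D.dom.2.1 hφ hun hx
  -- the form of `M`
  have hM : ∀ x, 0 ≤ D.F x → ∀ i j, rest D.K f u x i j =
      κ x * pd i f x * pd j f x + T x i j := by
    intro x hx i j
    show D.K x i j - u x * (pd i (pd j f) x / √(1 + ∑ k, pd k f x ^ 2)) = _
    rw [hK x hx i j]
    ring
  have htr : ∀ x, 0 ≤ D.F x → trE (rest D.K f u) x = κ x * ∑ i, pd i f x ^ 2 := by
    intro x hx
    simp only [trE, hM x hx]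
    rw [Finset.sum_add_distrib, (hT' x hx).2, add_zero, Finset.mul_sum]
    exact Finset.sum_congr rfl fun i _ => by ring
  -- the decay
  have hdec : ∃ a : ℝ, (n : ℝ) / 2 - 1 < a ∧ ∀ i, BigO a fun x => u x * pd i f x := by
    obtain ⟨q, hq, h⟩ := hAF
    obtain ⟨R0, hR0⟩ := D.dom.2.2.2
    obtain ⟨Cu, Ru, hCu⟩ := hu'
    refine ⟨((n : ℝ) - 2) / 4 + q / 2, by linarith, fun i => ?_⟩
    obtain ⟨C, R, hC⟩ := (h i i i i).1
    refine ⟨Cu * √C, max (max R0 Ru) (max R 1), fun x hx => ?_⟩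
    have x1 : R0 < len x := ((le_max_left _ _).trans (le_max_left _ _)).trans_lt hx
    have x2 : Ru < len x := ((le_max_right _ _).trans (le_max_left _ _)).trans_lt hx
    have x3 : R < len x := ((le_max_left _ _).trans (le_max_right _ _)).trans_lt hx
    have x4 : 1 < len x := ((le_max_right _ _).trans (le_max_right _ _)).trans_lt hx
    have x0 : 0 < len x := one_pos.trans x4
    have h1 := hC x x3
    simp only [if_true] at h1
    rw [hg x (hR0 x x1).le i i, if_pos rfl, add_sub_cancel_left, ← pow_two, abs_of_nonneg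
      (sq_nonneg _)] at h1
    have h2 := hCu x x2
    have h3 : |pd i f x| ≤ √C * len x ^ (-(q / 2)) := by
      have e1 : C * len x ^ (-q) = C * (len x ^ (-(q / 2))) ^ 2 := by
        rw [← Real.rpow_natCast, ← Real.rpow_mul x0.le]
        congr 2
        push_cast
        ring
      have hC0 : 0 ≤ C := by
        by_contra hneg
        have : C * len x ^ (-q) < 0 := mul_neg_of_neg_of_pos (not_le.1 hneg) (Real.rpow_pos_of_pos x0 _)
        linarith [sq_nonneg (pd i f x)]
      have e2 : √(C * (len x ^ (-(q / 2))) ^ 2) = √C * len x ^ (-(q / 2)) := by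
        rw [Real.sqrt_mul hC0, Real.sqrt_sq (Real.rpow_nonneg x0.le _)]
      rw [← e2, ← e1, ← Real.sqrt_sq_eq_abs]
      exact Real.sqrt_le_sqrt h1
    have h4 : 0 ≤ Cu * len x ^ (-(((n : ℝ) - 2) / 4)) := (abs_nonneg _).trans h2
    rw [abs_mul]
    refine (mul_le_mul h2 h3 (abs_nonneg _) h4).trans (le_of_eq ?_)
    have e3 : len x ^ (-(((n : ℝ) - 2) / 4 + q / 2)) =
        len x ^ (-(((n : ℝ) - 2) / 4)) * len x ^ (-(q / 2)) := by
      rw [← Real.rpow_add x0]; congr 1; ring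
    rw [e3]; ring
  obtain ⟨p1, p2, p3, _, p5, _⟩ := final4 hn D hAF hDEC hT m hm c r hr hd hsub f hf hlev hg
  have hE := p5 u hu htilt hdec (fun x hx i => by
      simp only [hM x hx, htr x hx]
      have e : ∀ j, (κ x * pd i f x * pd j f x + T x i j) * pd j f x =
          (κ x * pd i f x) * pd j f x ^ 2 + T x i j * pd j f x := fun j => by ring
      simp only [e]
      rw [Finset.sum_add_distrib, (hT' x hx).1 i, add_zero, ← Finset.mul_sum]
      ring) (fun x hx h0 => by
      rw [htr x hx]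
      have : ∑ i, pd i f x ^ 2 = 0 := Finset.sum_eq_zero fun i _ => by rw [h0 i]; ring
      rw [this, mul_zero]
      have : (0 : ℝ) ≤ ∑ i, ∑ j, rest D.K f u x i j ^ 2 :=
        Finset.sum_nonneg fun i _ => Finset.sum_nonneg fun j _ => sq_nonneg _
      linarith [this, (by norm_num : (0 : ℝ) ^ 2 = 0)]) (fun k x hx h0 => by
      exfalso
      obtain ⟨C, hC⟩ := hS k
      obtain ⟨i, hi⟩ := (hC x hx).2
      exact hi (h0 i))
  exact ⟨p1, p2.trans_le hE, p3.trans hE⟩

end Vale.Agent.H45G
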